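import Claimed.Agent.R256.Nm.Mrk.Kit

/-!
# Row 256 (S0496), unit NM, block MRK, file 5: TRANSFER OF SCORES BY LISTS, FLAT SEQUENCES      (architect helper219; prefix `nm_mk_`)

PAPER-FREE.
Sec. 1 (finite laws)  `nm_mk_nval_via`, `nm_mk_transfer2` : two pairs (variable, condition) which list each other have the same conditional surprise up to `3 log N + 3 t`, off an event of mass `6 e^(-t)`  (two uses of `ltk_transfer`).
Sec. 2 (sequences)    `nm_mk_flat_ev` : flatness at finite `n`, in natural units;  `nm_mk_ats_*` : the surprise / entropy of lists of atomic queries only depend on the partitions (`ent_surC_congr`, `ent_entC_congr`).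
-/

set_option autoImplicit false

namespace Claimed.Agent.R256

open Claimed.Agent.R255
open Claimed.Agent.R255.FLaw (pair)
open Filter Topology
open Classical

noncomputable section

section fin

variable {Ω : Type} [Fintype Ω] {α β γ δ : Type}

/-- change of the condition in a list.   For `ω₀`: `S_Y` = list of `Y` over `Y' ω₀`; for `y ∈ S_Y` choose (if there is one) a charged `ω_y ∈ G` with `T ω_y = T ω₀`, `Y ω_y = y` and take the list of `hU` at `ω_y`; union (`Finset.card_biUnion_le`).      OWNER L-256-NM-MRK-TR, EST 70 -/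
theorem nm_mk_nval_via (P : FLaw Ω) (G : Ω → Prop) (U : Ω → α) (T : Ω → β) (Y : Ω → γ) (Y' : Ω → δ) {N₁ N₂ : ℝ} (h2 : 0 ≤ N₂)
    (hY : P.NVal G Y Y' N₁) (hU : P.NVal G U (pair T Y) N₂) : P.NVal G U (pair T Y') (N₁ * N₂) := by
  intro ω₀
  obtain ⟨S₁, hS₁, hmem₁⟩ := hY ω₀
  let S₂ : γ → Finset α := fun y =>
    if hb : ∃ ω', T ω' = T ω₀ ∧ Y ω' = y then (hU hb.choose).choose else ∅
  have hS₂card : ∀ y, ((S₂ y).card : ℝ) ≤ N₂ := by
    intro y
    by_cases hb : ∃ ω', T ω' = T ω₀ ∧ Y ω' = y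
    · simp only [S₂, dif_pos hb]
      exact (hU hb.choose).choose_spec.1
    · simp only [S₂, dif_neg hb, Finset.card_empty, Nat.cast_zero]
      exact h2
  refine ⟨S₁.biUnion S₂, ?_, ?_⟩
  · have h3 : ((S₁.biUnion S₂).card : ℝ) ≤ ∑ y ∈ S₁, ((S₂ y).card : ℝ) := by
      have h4 : (S₁.biUnion S₂).card ≤ ∑ y ∈ S₁, (S₂ y).card := Finset.card_biUnion_le
      exact_mod_cast h4
    have h6 : ∑ y ∈ S₁, ((S₂ y).card : ℝ) ≤ (S₁.card : ℝ) * N₂ := by
      have := Finset.sum_le_card_nsmul S₁ (fun y => ((S₂ y).card : ℝ)) N₂ fun y _ => hS₂card y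
      rwa [nsmul_eq_mul] at this
    exact h3.trans (h6.trans (mul_le_mul_of_nonneg_right hS₁ h2))
  · intro ω hp hG hA
    have hA' : (T ω, Y' ω) = (T ω₀, Y' ω₀) := hA
    rw [Prod.mk.injEq] at hA'
    have hb : ∃ ω', T ω' = T ω₀ ∧ Y ω' = Y ω := ⟨ω, hA'.1, rfl⟩
    rw [Finset.mem_biUnion]
    refine ⟨Y ω, hmem₁ ω hp hG hA'.2, ?_⟩
    simp only [S₂, dif_pos hb]
    refine (hU hb.choose).choose_spec.2 ω hp hG ?_
    show (T ω, Y ω) = (T hb.choose, Y hb.choose)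
    rw [hb.choose_spec.1, hb.choose_spec.2, hA'.1]

/-- **two-sided transfer**.   (≥) `ltk_transfer P G T U Y Y'` with `hY = h1`, `hU = nm_mk_nval_via h1 h3` (`N²`);   (≤) `ltk_transfer P G U T Y' Y` with `hY = h2`, `hU = h4`.   `ent_pr_or_le`.      OWNER L-256-NM-MRK-TR, EST 80 -/
theorem nm_mk_transfer2 (P : FLaw Ω) (G : Ω → Prop) (T : Ω → α) (U : Ω → β) (Y : Ω → γ) (Y' : Ω → δ) {N : ℝ} (hN : 1 ≤ N)
    (h1 : P.NVal G Y Y' N) (h2 : P.NVal G Y' Y N) (h3 : P.NVal G U (pair T Y) N) (h4 : P.NVal G T (pair U Y) N) (t : ℝ) :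
    P.pr (fun ω => G ω ∧ 3 * Real.log N + 3 * t < |P.surC T Y ω - P.surC U Y' ω|) ≤ 6 * Real.exp (-t) := by
  have hN0 : 0 < N := by linarith
  have hlog : 0 ≤ Real.log N := Real.log_nonneg hN
  have a1 := ltk_transfer P G T U Y Y' hN0 (mul_pos hN0 hN0) h1 (nm_mk_nval_via P G U T Y Y' hN0.le h1 h3) t
  have a2 := ltk_transfer P G U T Y' Y hN0 hN0 h2 h4 t
  rw [Real.log_mul hN0.ne' hN0.ne'] at a1
  have hsub : P.pr (fun ω => G ω ∧ 3 * Real.log N + 3 * t < |P.surC T Y ω - P.surC U Y' ω|) ≤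
      P.pr (fun ω => (G ω ∧ P.surC T Y ω < P.surC U Y' ω - Real.log N - (Real.log N + Real.log N) - 3 * t) ∨
        (G ω ∧ P.surC U Y' ω < P.surC T Y ω - Real.log N - Real.log N - 3 * t)) := by
    refine ent_pr_mono P fun ω _ hω => ?_
    obtain ⟨hG, hlt⟩ := hω
    rcases lt_abs.mp hlt with h | h
    · right
      exact ⟨hG, by linarith⟩
    · left
      exact ⟨hG, by linarith⟩
  have u := ent_pr_or_le P (fun ω => G ω ∧ P.surC T Y ω < P.surC U Y' ω - Real.log N - (Real.log N + Real.log N) - 3 * t)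
    (fun ω => G ω ∧ P.surC U Y' ω < P.surC T Y ω - Real.log N - Real.log N - 3 * t)
  linarith

end fin

section seq

variable {π : SfPar} {C0 : ℝ} {κ : ℝ → ℝ} (S : NmSeq π C0 κ)

/-- flatness at finite `n` (definition of `Hom`, `Tendsto.eventually (ge_mem_nhds ..)`, `nm_me_lgs_pos`).      OWNER L-256-NM-MRK-TR, EST 60 -/
theorem nm_mk_flat_ev (Ds : Set ℝ) (hF : S.Flat Ds) (L L' : List NmAt) (hL : ∀ x ∈ L, x ≠ NmAt.y0 ∧ x.Ok π Ds) (hL' : ∀ x ∈ L', x.Ok π Ds)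
    (ε : ℝ) (hε : 0 < ε) : ∀ᶠ n in uf, ((S.D n).P 1).pr (fun ω => ε * (S.D n).lgs
      < |((S.D n).P 1).surC ((S.D n).ats π L) ((S.D n).ats π L') ω - S.HC (S.ats L) (S.ats L') * (S.D n).lgs|) ≤ ε := by
  have h := (hF L L' hL hL' ε hε).eventually (Iic_mem_nhds hε)
  filter_upwards [h] with n hn
  refine le_trans (le_of_eq ?_) hn
  congr 1
  funext ω
  have hl := nm_me_lgs_pos S n
  have e1 : ((S.D n).P 1).surC ((S.D n).ats π L) ((S.D n).ats π L') ω - S.HC (S.ats L) (S.ats L') * (S.D n).lgs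
      = (((S.D n).P 1).surC ((S.D n).ats π L) ((S.D n).ats π L') ω / (S.D n).lgs - S.HC (S.ats L) (S.ats L')) * (S.D n).lgs := by
    field_simp
  rw [e1, abs_mul, abs_of_pos hl, mul_lt_mul_iff_left₀ hl]
  rfl

/-- the angular score as a score of lists of queries.      OWNER L-256-NM-MRK-TR, EST 50 -/
theorem nm_mk_ats_U (D : SfDoc) (π : SfPar) (q : NmQ) (x a v : ℝ) (ω : D.Row 1) :
    (D.P 1).surC (D.ats π [NmAt.Xc x]) (D.ats π [NmAt.nm q a v]) ω = (D.P 1).surC (D.Xc x) (D.nm π q a v) ω := by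
  refine ent_surC_congr _ _ _ _ _ ω (fun ω' _ => ?_) (fun ω' _ _ => ?_)
  · simp [SfDoc.ats, SfDoc.atq]
  · simp [SfDoc.ats, SfDoc.atq]

/-- the same for the profile (`ent_entC_congr` for every `n`).      OWNER L-256-NM-MRK-TR, EST 40 -/
theorem nm_mk_ats_HU (q : NmQ) (x a v : ℝ) : S.HC (S.ats [NmAt.Xc x]) (S.ats [NmAt.nm q a v]) = S.U q x a v := by
  unfold NmSeq.U NmSeq.HC
  congr 1
  funext n
  congr 1
  refine ent_entC_congr _ _ _ _ _ (fun ω ω' _ _ => ?_) (fun ω ω' _ _ _ => ?_)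
  · simp [NmSeq.ats, NmSeq.nm, SfDoc.ats, SfDoc.atq]
  · simp [NmSeq.ats, NmSeq.Xc, SfDoc.ats, SfDoc.atq]

end seq

end

end Claimed.Agent.R256
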