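import Claimed.Agent.R256.Nm.Mrk.Tr

/-!
# Row 256 (S0496), unit NM, block MRK, file 6: **Y6 (ang)** = `nm_tan_ang` (clause `ang` of `Tan.AdmI` at the level of scores)      (architect helper219; prefix `nm_mk_`)

`T.Xn q = tcell δ q (F.X)`, `F` = common phase (phase of the representative), `T.Cs = C_*`.   By `NmRep.close` the actual `X` satisfies `|(X - x_c(C_*)) / s^v - F.X| ≤ s^e ≤ δ^q` as soon as `q h ≤ e`, so, given `C_*`,
the cells `T.Xn q` and `X^(v + q h)` list each other (`nm_mk_ang_l1`, `nm_mk_ang_l2`); `C_*` and the actual root name list each other (`rep1`, `rep2`).   `nm_mk_transfer2` ⇒ `nm_mk_ang_fin`.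
Flatness gives the score of `X^(v+qh)` given `𝒞(a,v)`: `U(v + q h; a, v) log(1/s)`;   `nm_mk_ang_prof` = profile arithmetic with moved roots.
EXIT: `nm_mk_tan_ang` = `nm_tan_ang` of `Nm/Contract.lean` with the two facts `nm_U_basic`, `nm_U_incr` (second part) of PRO as hypotheses `hUb`, `hUl`.
-/

set_option autoImplicit false

namespace Claimed.Agent.R256

open Claimed.Agent.R255
open Claimed.Agent.R255.FLaw (pair)
open Filter Topology
open Classical

noncomputable section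

/-- the cell `T.Xn q` of the tangent datum at the root `r` -/
def SfDoc.xn (D : SfDoc) (π : SfPar) (r : NmRt) (q : ℝ) : D.Row 1 → ℤ :=
  fun ω => tcell (D.s ^ r.h) q (D.fst π r (D.side π r.q r.σ r.a ω)).X

/-- two charged rows with the same `C_*`: `|ΔX| ≤ s^v (|ΔF.X| + 2 s^e)` and `|ΔF.X| ≤ |ΔX| / s^v + 2 s^e`  (`NmRep.close`, `|f.X - g.X| ≤ nmPhDist f g`; the `X`-entry of `NmRaw.phase` is `(X - n.X / 2^lev) / s^v`, `(D.raw ..).z.X = (D.ray 1 ω).X`).      OWNER L-256-NM-MRK-ANGA, EST 80 -/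
theorem nm_mk_ang_close {D : SfDoc} {π : SfPar} (r : NmRt) {K0 e : ℝ} (hs : 0 < D.s ∧ D.s < 1) (hrep : NmRep D π r K0 e) {ω ω' : D.Row 1}
    (hω : (D.P 1).p ω ≠ 0) (hω' : (D.P 1).p ω' ≠ 0) (hc : D.cs π r ω = D.cs π r ω') :
    |((D.ray 1 ω).X - (D.ray 1 ω').X) / D.s ^ r.v
      - ((D.fst π r (D.side π r.q r.σ r.a ω)).X - (D.fst π r (D.side π r.q r.σ r.a ω')).X)| ≤ 2 * D.s ^ e := by
  have hX : ∀ f g : ItPh, |f.X - g.X| ≤ nmPhDist f g := fun f g =>
    (le_max_left _ _).trans ((le_max_left _ _).trans (le_max_left _ _))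
  have h1 := (hX _ _).trans (hrep.close ω hω)
  have h2 := (hX _ _).trans (hrep.close ω' hω')
  rw [← hc] at h2
  have e1 : ((D.raw π r.q.ds ω).phase D.s π r.q r.a r.v (!r.σ.lin) (D.cs π r ω)).X
      = ((D.ray 1 ω).X - ((D.cs π r ω).X : ℝ) / (2 : ℝ) ^ nmLev D.s r.v) / D.s ^ r.v := rfl
  have e2 : ((D.raw π r.q.ds ω').phase D.s π r.q r.a r.v (!r.σ.lin) (D.cs π r ω)).X
      = ((D.ray 1 ω').X - ((D.cs π r ω).X : ℝ) / (2 : ℝ) ^ nmLev D.s r.v) / D.s ^ r.v := rfl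
  rw [e1] at h1
  rw [e2] at h2
  have e3 : ((D.ray 1 ω).X - (D.ray 1 ω').X) / D.s ^ r.v
      - ((D.fst π r (D.side π r.q r.σ r.a ω)).X - (D.fst π r (D.side π r.q r.σ r.a ω')).X)
      = (((D.ray 1 ω).X - ((D.cs π r ω).X : ℝ) / (2 : ℝ) ^ nmLev D.s r.v) / D.s ^ r.v - (D.fst π r (D.side π r.q r.σ r.a ω)).X)
        - (((D.ray 1 ω').X - ((D.cs π r ω).X : ℝ) / (2 : ℝ) ^ nmLev D.s r.v) / D.s ^ r.v - (D.fst π r (D.side π r.q r.σ r.a ω')).X) := by
    ring
  rw [e3]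
  refine (abs_sub _ _).trans ?_
  linarith

/-- `(T.Xn q, C_*)` lists `X^(v + q h)`: `|ΔF.X| ≤ gw δ q ≤ δ^q` (`rx_cell_lt`, `rx_gw_le`), `s^e ≤ δ^q = s^(q h)`, so `|ΔX| ≤ 3 s^(v + q h)`; `nm_me_nval_close` with `b = b' = v + q h`, `K = 3`.      OWNER L-256-NM-MRK-ANGA, EST 90 -/
theorem nm_mk_ang_l1 {D : SfDoc} {π : SfPar} (r : NmRt) {K0 e q : ℝ} (hs : 0 < D.s ∧ D.s < 1) (hrep : NmRep D π r K0 e) (hq : 0 ≤ q) (hh : 0 < r.h)
    (hqe : q * r.h ≤ e) : (D.P 1).NVal (fun _ => True) (D.Xc (r.v + q * r.h)) (pair (D.xn π r q) (D.cs π r)) 15 := by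
  obtain ⟨h0, h1⟩ := hs
  have hδ0 : 0 < D.s ^ r.h := Real.rpow_pos_of_pos h0 _
  have hδ1 : D.s ^ r.h < 1 := Real.rpow_lt_one h0.le h1 hh
  have hv : 0 < D.s ^ r.v := Real.rpow_pos_of_pos h0 _
  have key := nm_me_nval_close (D.P 1) (fun _ => True) (pair (D.xn π r q) (D.cs π r)) (fun ω => (D.ray 1 ω).X) h0 h1
    (r.v + q * r.h) (r.v + q * r.h) (K := 3) (by norm_num) ?_
  · have e : (4 * 3 * D.s ^ (-(r.v + q * r.h - (r.v + q * r.h))) + 3 : ℝ) = 15 := by
      rw [sub_self, neg_zero, Real.rpow_zero]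
      norm_num
    rw [e] at key
    exact key
  · intro ω ω' hω hω' _ _ hA
    have hA' : (D.xn π r q ω, D.cs π r ω) = (D.xn π r q ω', D.cs π r ω') := hA
    rw [Prod.mk.injEq] at hA'
    have c1 := nm_mk_ang_close r ⟨h0, h1⟩ hrep hω hω' hA'.2
    have c2 : |(D.fst π r (D.side π r.q r.σ r.a ω)).X - (D.fst π r (D.side π r.q r.σ r.a ω')).X| ≤ D.s ^ (q * r.h) := by
      have := (rx_cell_lt hA'.1).le.trans (rx_gw_le hδ0 hδ1 q)
      rwa [← Real.rpow_mul h0.le, mul_comm r.h q] at this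
    have c3 : D.s ^ e ≤ D.s ^ (q * r.h) := Real.rpow_le_rpow_of_exponent_ge h0 h1.le hqe
    have c4 : |((D.ray 1 ω).X - (D.ray 1 ω').X) / D.s ^ r.v| ≤ 3 * D.s ^ (q * r.h) := by
      have := abs_sub_abs_le_abs_sub (((D.ray 1 ω).X - (D.ray 1 ω').X) / D.s ^ r.v)
        ((D.fst π r (D.side π r.q r.σ r.a ω)).X - (D.fst π r (D.side π r.q r.σ r.a ω')).X)
      linarith
    rw [abs_div, abs_of_pos hv, div_le_iff₀ hv] at c4
    rw [Real.rpow_add h0]
    linarith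

/-- `(X^(v + q h), C_*)` lists `T.Xn q`: `|ΔX| ≤ s^(v+qh)` (`nm_close_of_cell`), `|ΔF.X| ≤ 3 δ^q`; `ltk_nval_close` with `n = tlev δ q`, `2^n < 2 δ^(-q)` (`rx_lt_gw`).      OWNER L-256-NM-MRK-ANGA, EST 90 -/
theorem nm_mk_ang_l2 {D : SfDoc} {π : SfPar} (r : NmRt) {K0 e q : ℝ} (hs : 0 < D.s ∧ D.s < 1) (hrep : NmRep D π r K0 e) (hq : 0 ≤ q) (hh : 0 < r.h)
    (hqe : q * r.h ≤ e) : (D.P 1).NVal (fun _ => True) (D.xn π r q) (pair (D.Xc (r.v + q * r.h)) (D.cs π r)) 15 := by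
  obtain ⟨h0, h1⟩ := hs
  have hδ0 : 0 < D.s ^ r.h := Real.rpow_pos_of_pos h0 _
  have hδ1 : D.s ^ r.h < 1 := Real.rpow_lt_one h0.le h1 hh
  have hv : 0 < D.s ^ r.v := Real.rpow_pos_of_pos h0 _
  have hqh : 0 < D.s ^ (q * r.h) := Real.rpow_pos_of_pos h0 _
  have key := ltk_nval_close (D.P 1) (fun _ => True) (pair (D.Xc (r.v + q * r.h)) (D.cs π r))
    (fun ω => (D.fst π r (D.side π r.q r.σ r.a ω)).X) (tlev (D.s ^ r.h) q) (R := 3 * D.s ^ (q * r.h)) (by positivity) ?_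
  · refine ltk_nval_mono (D.P 1) key (fun _ h => h) (fun _ _ h => h) ⟨id, fun _ => rfl⟩ ?_
    have h2 := rx_lt_gw hδ0 hδ1 hq
    rw [← Real.rpow_mul h0.le, mul_comm r.h q] at h2
    unfold gw at h2
    have h3 : (0 : ℝ) < 2 ^ tlev (D.s ^ r.h) q := by positivity
    rw [← div_eq_mul_inv, lt_div_iff₀ h3] at h2
    nlinarith
  · intro ω ω' hω hω' _ _ hA
    have hA' : (D.Xc (r.v + q * r.h) ω, D.cs π r ω) = (D.Xc (r.v + q * r.h) ω', D.cs π r ω') := hA
    rw [Prod.mk.injEq] at hA'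
    have c1 := nm_mk_ang_close r ⟨h0, h1⟩ hrep hω hω' hA'.2
    have c2 : |(D.ray 1 ω).X - (D.ray 1 ω').X| ≤ D.s ^ (r.v + q * r.h) := nm_close_of_cell h0 h1 hA'.1
    have c3 : D.s ^ e ≤ D.s ^ (q * r.h) := Real.rpow_le_rpow_of_exponent_ge h0 h1.le hqe
    have c4 : |((D.ray 1 ω).X - (D.ray 1 ω').X) / D.s ^ r.v| ≤ D.s ^ (q * r.h) := by
      rw [abs_div, abs_of_pos hv, div_le_iff₀ hv]
      rw [Real.rpow_add h0] at c2
      linarith
    have := abs_sub_abs_le_abs_sub ((D.fst π r (D.side π r.q r.σ r.a ω)).X - (D.fst π r (D.side π r.q r.σ r.a ω')).X)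
      (((D.ray 1 ω).X - (D.ray 1 ω').X) / D.s ^ r.v)
    rw [abs_sub_comm] at c1
    show |(D.fst π r (D.side π r.q r.σ r.a ω)).X - (D.fst π r (D.side π r.q r.σ r.a ω')).X| ≤ 3 * D.s ^ (q * r.h)
    linarith

/-- **finite scale**: `nm_mk_transfer2` with `T = T.Xn q`, `Y = C_*`, `U = X^(v+qh)`, `Y' = 𝒞(a,v)`, `N = max 15 K0`  (`ltk_nval_mono`).      OWNER L-256-NM-MRK-ANGA, EST 70 -/
theorem nm_mk_ang_fin {D : SfDoc} {π : SfPar} (r : NmRt) {K0 e q : ℝ} (hs : 0 < D.s ∧ D.s < 1) (hrep : NmRep D π r K0 e) (hq : 0 ≤ q) (hh : 0 < r.h)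
    (hqe : q * r.h ≤ e) (t : ℝ) :
    (D.P 1).pr (fun ω => 3 * Real.log (max 15 K0) + 3 * t
      < |(D.P 1).surC (D.xn π r q) (D.cs π r) ω - (D.P 1).surC (D.Xc (r.v + q * r.h)) (D.nm π r.q r.a r.v) ω|) ≤ 6 * Real.exp (-t) := by
  have hN : (1 : ℝ) ≤ max 15 K0 := le_trans (by norm_num) (le_max_left _ _)
  have mono : ∀ {α β : Type} {B : D.Row 1 → β} {A : D.Row 1 → α} {N : ℝ}, (D.P 1).NVal (fun _ => True) B A N → N ≤ max 15 K0 →
      (D.P 1).NVal (fun _ => True) B A (max 15 K0) := fun h hle =>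
    ltk_nval_mono (D.P 1) h (fun _ h => h) (fun _ _ h => h) ⟨id, fun _ => rfl⟩ hle
  have key := nm_mk_transfer2 (D.P 1) (fun _ => True) (D.xn π r q) (D.Xc (r.v + q * r.h)) (D.cs π r) (D.nm π r.q r.a r.v) hN
    (mono hrep.rep2 (le_max_right _ _)) (mono hrep.rep1 (le_max_right _ _))
    (mono (nm_mk_ang_l1 r hs hrep hq hh hqe) (le_max_left _ _)) (mono (nm_mk_ang_l2 r hs hrep hq hh hqe) (le_max_left _ _)) t
  simpa only [true_and] using key

/-- **profile arithmetic with moved roots** (abstract, Mathlib only).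
`m ∈ [0,1]` (limit of `U (v+h) a v / h ∈ [0,1]`).   `C' = max C 0`, `η := ε / (4 C' + 4)`, `h0` := minimum over `q ∈ G` of the `h0(q)` with `|U (v + q h) a v - m q h| ≤ (ε/2) h` (`hang`, `Metric.tendsto_nhdsWithin_nhds` or `eventually_nhdsWithin_iff`).
Put `x = v' + q h`.   `x ≥ v`: `|U x a' v' - U x a v| ≤ 2 C' η h`, `|U x a v - U (v + q h) a v| ≤ |v' - v| ≤ η h` (both arguments `≥ v`).   `x < v`: then `q h < η h` and `U x a' v'`, `m q h` both lie in `[0, q h]`.      OWNER L-256-NM-MRK-ANGB, EST 220 -/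
theorem nm_mk_ang_prof (U : ℝ → ℝ → ℝ → ℝ) (a v m C : ℝ)
    (hb : ∀ a v : ℝ, U v a v = 0 ∧ ∀ x x' : ℝ, v ≤ x → x ≤ x' → 0 ≤ U x' a v - U x a v ∧ U x' a v - U x a v ≤ x' - x)
    (hl : ∀ a a' v v' x : ℝ, |U x a v - U x a' v'| ≤ C * (|a - a'| + |v - v'|))
    (hang : ∀ p : ℝ, 0 ≤ p → Tendsto (fun h : ℝ => U (v + p * h) a v / h) (𝓝[>] 0) (𝓝 (m * p)))
    (G : Finset ℝ) (hG : ∀ q ∈ G, 0 ≤ q) (ε : ℝ) (hε : 0 < ε) :
    ∃ η h0 : ℝ, 0 < η ∧ 0 < h0 ∧ ∀ h : ℝ, 0 < h → h ≤ h0 → ∀ a' v' : ℝ, |a' - a| ≤ η * h → |v' - v| ≤ η * h →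
      ∀ q ∈ G, |U (v' + q * h) a' v' - m * q * h| ≤ ε * h := by
  -- `m ∈ [0,1]`
  have hm : m ∈ Set.Icc (0 : ℝ) 1 := by
    have h1 := hang 1 zero_le_one
    rw [mul_one] at h1
    refine isClosed_Icc.mem_of_tendsto h1 ?_
    filter_upwards [self_mem_nhdsWithin] with h hh
    have hh' : (0 : ℝ) < h := hh
    have h2 := (hb a v).2 v (v + 1 * h) le_rfl (by linarith)
    rw [(hb a v).1] at h2
    constructor
    · exact div_nonneg (by linarith [h2.1]) hh'.le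
    · rw [div_le_one hh']
      linarith [h2.2]
  obtain ⟨hm0, hm1⟩ := hm
  set C' := max C 0 with hC'
  have hC0 : 0 ≤ C' := le_max_right _ _
  have hCC : C ≤ C' := le_max_left _ _
  have hev : ∀ᶠ h in 𝓝[>] (0 : ℝ), ∀ q ∈ G, |U (v + q * h) a v - m * q * h| ≤ ε / 2 * h := by
    rw [Filter.eventually_all_finset]
    intro q hq
    have h1 := hang q (hG q hq)
    have h2 := (Metric.tendsto_nhds.1 h1) (ε / 2) (by positivity)
    filter_upwards [h2, self_mem_nhdsWithin] with h hd hh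
    have hh' : (0 : ℝ) < h := hh
    rw [Real.dist_eq] at hd
    have e : U (v + q * h) a v - m * q * h = (U (v + q * h) a v / h - m * q) * h := by
      field_simp
    rw [e, abs_mul, abs_of_pos hh']
    exact mul_le_mul_of_nonneg_right hd.le hh'.le
  rw [eventually_nhdsWithin_iff, Metric.eventually_nhds_iff] at hev
  obtain ⟨d, hd, hev⟩ := hev
  refine ⟨ε / (4 * C' + 4), d / 2, by positivity, by positivity, ?_⟩
  intro h hh hhd a' v' ha' hv' q hq
  set η := ε / (4 * C' + 4) with hη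
  have hη0 : 0 < η := by positivity
  have hηe : (4 * C' + 4) * η = ε := by
    rw [hη]; field_simp
  have hq0 := hG q hq
  have hmain := hev (y := h) (by rw [Real.dist_eq, sub_zero, abs_of_pos hh]; linarith) hh q hq
  have hηh : 0 < η * h := by positivity
  by_cases hx : v ≤ v' + q * h
  · have b1 := hl a' a v' v (v' + q * h)
    have b1' : |U (v' + q * h) a' v' - U (v' + q * h) a v| ≤ C' * (2 * (η * h)) := by
      refine b1.trans ?_
      have h3 : 0 ≤ |a' - a| + |v' - v| := by positivity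
      calc C * (|a' - a| + |v' - v|) ≤ C' * (|a' - a| + |v' - v|) := mul_le_mul_of_nonneg_right hCC h3
        _ ≤ C' * (2 * (η * h)) := mul_le_mul_of_nonneg_left (by linarith) hC0
    have b2 : |U (v' + q * h) a v - U (v + q * h) a v| ≤ η * h := by
      have hvq : v ≤ v + q * h := by
        have : 0 ≤ q * h := by positivity
        linarith
      rw [abs_le] at hv'
      rcases le_total (v' + q * h) (v + q * h) with hle | hle
      · have := (hb a v).2 _ _ hx hle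
        rw [abs_le]
        constructor <;> linarith [this.1, this.2, hv'.1, hv'.2]
      · have := (hb a v).2 _ _ hvq hle
        rw [abs_le]
        constructor <;> linarith [this.1, this.2, hv'.1, hv'.2]
    have e : U (v' + q * h) a' v' - m * q * h = (U (v' + q * h) a' v' - U (v' + q * h) a v)
        + (U (v' + q * h) a v - U (v + q * h) a v) + (U (v + q * h) a v - m * q * h) := by ring
    rw [e]
    refine (abs_add_three _ _ _).trans ?_
    have h5 : ε * h = (4 * C' + 4) * (η * h) := by rw [← hηe]; ring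
    have h6 : 0 ≤ C' * (η * h) := by positivity
    nlinarith
  · push Not at hx
    rw [abs_le] at hv'
    have hqh : q * h < η * h := by linarith [hv'.1]
    have hqh0 : 0 ≤ q * h := by positivity
    have b1 := (hb a' v').2 v' (v' + q * h) le_rfl (by linarith)
    rw [(hb a' v').1] at b1
    have b2 : 0 ≤ m * q * h := by positivity
    have b3 : m * q * h ≤ q * h := by
      have : m * (q * h) ≤ 1 * (q * h) := mul_le_mul_of_nonneg_right hm1 hqh0
      linarith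
    have h5 : ε * h = (4 * C' + 4) * (η * h) := by rw [← hηe]; ring
    have h6 : 0 ≤ C' * (η * h) := by positivity
    rw [abs_le]
    constructor <;> nlinarith [b1.1, b1.2]

section score

variable {π : SfPar} {C0 : ℝ} {κ : ℝ → ℝ} (S : NmSeq π C0 κ)

/-- **Y6 (ang)** = `nm_tan_ang` of `Nm/Contract.lean` + hypotheses `hUb` (= `nm_U_basic S hπ r.q hq`), `hUl` (= `(nm_U_incr S hπ r.q hq).2`).
PLAN.  `(η, h1)` := `nm_mk_ang_prof (S.U r.q ..)` with `G = pk.G`, `ε = acc / 4`;   `h0 := min h1 (e / (pk.K + 1))` (so `q h ≤ K h ≤ e`).   Fix `h, a', v'`, `r' := { r with a := a', v := v', h := h }`, `t := log (12 / acc)` (`6 e^(-t) = acc / 2`).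
For every `q ∈ pk.G` (`Filter.eventually_all_finset`): `nm_mk_flat_ev` for `L = [Xc (v' + q h)]`, `L' = [nm r.q a' v']` (admissible: `hq`, `hD`, `0 ≤ a' ≤ De`, `0 ≤ v'`) with `ε = min (acc h / 4) (acc / 2)`, rewritten by `nm_mk_ats_U`, `nm_mk_ats_HU`;
`nm_me_lgs_top` : `3 log (max 15 K0) + 3 t ≤ (acc h / 4) lgs`.   For such `n`: `nm_mk_ang_fin r'` (`NmRep` does not read `h`: `rfl`), `T.L = lg (s^h) = h * lgs`, `T.Xn q = D.xn π r' q`, `T.Cs = D.cs π r'` by `rfl`;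
off the two events `|surC (Xn q) Cs - m q L| ≤ 3 (acc h / 4) lgs < acc L`.      OWNER L-256-NM-MRK-ANGC, EST 350 -/
theorem nm_mk_tan_ang (hπ : π.Valid) (Ds : Set ℝ) (hF : S.Flat Ds) (r : NmRt) (hq : r.q.Fam π) (hD : r.q.ds.De ∈ Ds)
    (hUb : ∀ a v : ℝ, S.U r.q v a v = 0 ∧ ∀ x x' : ℝ, v ≤ x → x ≤ x' → 0 ≤ S.U r.q x' a v - S.U r.q x a v ∧ S.U r.q x' a v - S.U r.q x a v ≤ x' - x)
    (hUl : ∃ C : ℝ, ∀ a a' v v' x : ℝ, |S.U r.q x a v - S.U r.q x a' v'| ≤ C * (|a - a'| + |v - v'|))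
    (hang : ∀ p : ℝ, 0 ≤ p → Tendsto (fun h : ℝ => S.U r.q (r.v + p * h) r.a r.v / h) (𝓝[>] 0) (𝓝 (S.m r.q r.a r.v * p)))
    (pk : ItPk) (hpk : pk.Ok) (acc e K0 : ℝ) (hacc : 0 < acc) (he : 0 < e) : ∃ η h0 : ℝ, 0 < η ∧ 0 < h0 ∧ ∀ h : ℝ, 0 < h → h ≤ h0 →
      ∀ a' v' : ℝ, |a' - r.a| ≤ η * h → |v' - r.v| ≤ η * h → 0 ≤ a' → a' ≤ r.q.ds.De → 0 ≤ v' → ∀ᶠ n in uf,
      ∀ (dsp : ℝ → NmNm → NmNm → ItDsp) (a : ItPar),
        a.m = S.m r.q r.a r.v → NmRep (S.D n) π { r with a := a', v := v' } K0 e →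
        NmAng (nmTan (S.D n) π { r with a := a', v := v', h := h } dsp) a pk acc := by
  obtain ⟨C, hUl⟩ := hUl
  have hG := hpk.2.2.2.2.2.2
  have hK := hpk.2.1
  obtain ⟨η, h1, hη, hh1, Hprof⟩ := nm_mk_ang_prof (S.U r.q) r.a r.v (S.m r.q r.a r.v) C hUb hUl hang pk.G
    (fun q hq => (hG q hq).1) (acc / 4) (by positivity)
  refine ⟨η, min h1 (e / (pk.K + 1)), hη, lt_min hh1 (by positivity), ?_⟩
  intro h hh hh0 a' v' ha' hv' ha0 haD hv0
  have hhh1 : h ≤ h1 := hh0.trans (min_le_left _ _)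
  have hhe : h ≤ e / (pk.K + 1) := hh0.trans (min_le_right _ _)
  obtain ⟨t, ht⟩ : ∃ t, t = Real.log (12 / acc) := ⟨_, rfl⟩
  have hexp : 6 * Real.exp (-t) = acc / 2 := by
    rw [ht, Real.exp_neg, Real.exp_log (by positivity)]
    field_simp
    norm_num
  obtain ⟨ε', hε'⟩ : ∃ ε', ε' = min (acc * h / 4) (acc / 2) := ⟨_, rfl⟩
  have hε0 : 0 < ε' := by rw [hε']; exact lt_min (by positivity) (by positivity)
  have hε1 : ε' ≤ acc * h / 4 := by rw [hε']; exact min_le_left _ _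
  have hε2 : ε' ≤ acc / 2 := by rw [hε']; exact min_le_right _ _
  have hfl : ∀ᶠ n in uf, ∀ q ∈ pk.G, ((S.D n).P 1).pr (fun ω => ε' * (S.D n).lgs
      < |((S.D n).P 1).surC ((S.D n).Xc (v' + q * h)) ((S.D n).nm π r.q a' v') ω - S.U r.q (v' + q * h) a' v' * (S.D n).lgs|) ≤ ε' := by
    rw [Filter.eventually_all_finset]
    intro q _
    have h3 := nm_mk_flat_ev S Ds hF [NmAt.Xc (v' + q * h)] [NmAt.nm r.q a' v']
      (by
        intro x hx
        rw [List.mem_singleton] at hx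
        subst hx
        exact ⟨by simp, trivial⟩)
      (by
        intro x hx
        rw [List.mem_singleton] at hx
        subst hx
        exact ⟨hq, hD, ha0, haD, hv0⟩) ε' hε0
    filter_upwards [h3] with n hn
    rw [nm_mk_ats_HU] at hn
    simp only [nm_mk_ats_U] at hn
    exact hn
  filter_upwards [hfl, nm_me_lgs_top S ((3 * Real.log (max 15 K0) + 3 * t) / (acc * h / 4))] with n hn hl
  intro dsp a ham hrep q hqG
  obtain ⟨hq0, hqK⟩ := hG q hqG
  have hs := nm_me_s S n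
  have hlg := nm_me_lgs_pos S n
  have hrep' : NmRep (S.D n) π { r with a := a', v := v', h := h } K0 e := ⟨hrep.rep1, hrep.rep2, hrep.close⟩
  have hqe : q * h ≤ e := by
    have h4 : q * h ≤ pk.K * (e / (pk.K + 1)) := mul_le_mul hqK hhe hh.le hK.le
    have h5 : pk.K * (e / (pk.K + 1)) ≤ e := by
      rw [← mul_div_assoc, div_le_iff₀ (by positivity)]
      nlinarith
    exact h4.trans h5
  have hfin := nm_mk_ang_fin (D := S.D n) (π := π) { r with a := a', v := v', h := h } (K0 := K0) (e := e) (q := q) hs hrep' hq0 hh hqe t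
  have hL : (nmTan (S.D n) π { r with a := a', v := v', h := h } dsp).L = h * (S.D n).lgs := by
    show lg ((S.D n).s ^ h) = h * lg (S.D n).s
    unfold lg
    rw [one_div, one_div, Real.log_inv, Real.log_inv, Real.log_rpow hs.1]
    ring
  have hl' : 3 * Real.log (max 15 K0) + 3 * t ≤ acc * h / 4 * (S.D n).lgs := by
    rwa [div_le_iff₀' (by positivity)] at hl
  have hpr := Hprof h hh hhh1 a' v' ha' hv' q hqG
  rw [hL, ham]
  have hflq := hn q hqG
  have hor := ent_pr_or_le ((S.D n).P 1)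
    (fun ω => 3 * Real.log (max 15 K0) + 3 * t
      < |((S.D n).P 1).surC ((S.D n).xn π { r with a := a', v := v', h := h } q) ((S.D n).cs π { r with a := a', v := v', h := h }) ω
        - ((S.D n).P 1).surC ((S.D n).Xc (v' + q * h)) ((S.D n).nm π r.q a' v') ω|)
    (fun ω => ε' * (S.D n).lgs
      < |((S.D n).P 1).surC ((S.D n).Xc (v' + q * h)) ((S.D n).nm π r.q a' v') ω - S.U r.q (v' + q * h) a' v' * (S.D n).lgs|)
  have hsub : ((S.D n).P 1).pr (fun ω => acc * (h * (S.D n).lgs)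
      < |((S.D n).P 1).surC ((S.D n).xn π { r with a := a', v := v', h := h } q) ((S.D n).cs π { r with a := a', v := v', h := h }) ω
        - S.m r.q r.a r.v * q * (h * (S.D n).lgs)|) ≤ acc := by
    refine (ent_pr_mono _ fun ω _ hω => ?_).trans (hor.trans (by
      have := hfin
      linarith))
    by_contra hno
    push Not at hno
    obtain ⟨n1, n2⟩ := hno
    set A := ((S.D n).P 1).surC ((S.D n).xn π { r with a := a', v := v', h := h } q) ((S.D n).cs π { r with a := a', v := v', h := h }) ω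
    set B := ((S.D n).P 1).surC ((S.D n).Xc (v' + q * h)) ((S.D n).nm π r.q a' v') ω
    set Uv := S.U r.q (v' + q * h) a' v'
    set m := S.m r.q r.a r.v
    set lgs := (S.D n).lgs
    have e1 : A - m * q * (h * lgs) = (A - B) + (B - Uv * lgs) + (Uv - m * q * h) * lgs := by ring
    have b3 : |(Uv - m * q * h) * lgs| ≤ acc / 4 * h * lgs := by
      rw [abs_mul, abs_of_pos hlg]
      exact mul_le_mul_of_nonneg_right hpr hlg.le
    have b2 : ε' * lgs ≤ acc * h / 4 * lgs := mul_le_mul_of_nonneg_right hε1 hlg.le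
    have b4 : |A - m * q * (h * lgs)| ≤ 3 * (acc * h / 4 * lgs) := by
      rw [e1]
      refine (abs_add_three _ _ _).trans ?_
      linarith
    have b5 : 0 < acc * h * lgs := by positivity
    linarith
  exact hsub

end score

theorem nm_mk_ang_eqns_cite : True := by
  have := @SfDoc.xn.eq_1
  trivial

end

end Claimed.Agent.R256
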