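import Claimed.Agent.R256.Nm.Mrk.Kit

/-!
# Row 256 (S0496), unit NM, block MRK, file 8: ONE LAYER `p → q` OF THE MARKS, FINITE LAWS      (architect helper219; prefix `nm_mq_`)

PAPER-FREE (`R255/Ent/Basic.lean`: `ent_surC_chain`, `ent_surC_swap`, `ent_surC_congr`, `ent_surC_nonneg`, `ent_pr_mono`, `ent_pr_or_le`).      (04-canonical-names.tex l.715-726.)
`θ_p = f(θ_q)`, `r_c = g(r_q)`, `r_p = g'(r_q)` (nested cells).   Pointwise on the support:
  `nm_mq_id_mixt`  :  `s(θ_q | Z, θ_p, r_q) = s(θ_q | Z, θ_p, r_c) + s(r_q | Z, θ_q, r_c) - s(r_q | Z, θ_p, r_c)`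
  `nm_mq_id_joint` :  `s((θ_q, r_q) | Z, (θ_p, r_p)) = s(r_q | Z, θ_p, r_p) + s(θ_q | Z, θ_p, r_q)`
`nm_mq_layer` : the causal time bound + three two-sided `r`-increments ⇒ the clauses `mixt`, `joint` of `Tan.AdmM`.
-/

set_option autoImplicit false

namespace Claimed.Agent.R256

open Claimed.Agent.R255
open Claimed.Agent.R255.FLaw (pair)
open Classical

noncomputable section

variable {Ω : Type} [Fintype Ω] {ζ : Type}

/-- `ent_surC_swap` with `Yv = θ_q`, `Yu = r_q`, `X = (Z, θ_p, r_c)`; then `ent_surC_congr`: `(r_q, X) ≅ (Z, θ_p, r_q)`, `(θ_q, X) ≅ (Z, θ_q, r_c)`.      OWNER L-256-NM-MRK-IDA, EST 90 -/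
theorem nm_mq_id_mixt (P : FLaw Ω) (Z : Ω → ζ) (θp θq rc rq : Ω → ℤ) (hθ : ∀ ω ω', θq ω = θq ω' → θp ω = θp ω')
    (hr : ∀ ω ω', rq ω = rq ω' → rc ω = rc ω') {ω : Ω} (hω : P.p ω ≠ 0) :
    P.surC θq (pair Z (pair θp rq)) ω
      = P.surC θq (pair Z (pair θp rc)) ω + P.surC rq (pair Z (pair θq rc)) ω - P.surC rq (pair Z (pair θp rc)) ω := by
  have h0 := ent_surC_swap P θq rq (pair Z (pair θp rc)) hω
  have c1 : P.surC θq (pair rq (pair Z (pair θp rc))) ω = P.surC θq (pair Z (pair θp rq)) ω := by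
    refine ent_surC_congr P θq θq _ _ ω (fun ω' _ => ?_) (fun ω' _ _ => Iff.rfl)
    simp only [pair, Prod.mk.injEq]
    constructor
    · rintro ⟨a, b, c, _⟩
      exact ⟨b, c, a⟩
    · rintro ⟨b, c, a⟩
      exact ⟨a, b, c, hr _ _ a⟩
  have c2 : P.surC rq (pair θq (pair Z (pair θp rc))) ω = P.surC rq (pair Z (pair θq rc)) ω := by
    refine ent_surC_congr P rq rq _ _ ω (fun ω' _ => ?_) (fun ω' _ _ => Iff.rfl)
    simp only [pair, Prod.mk.injEq]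
    constructor
    · rintro ⟨a, b, _, d⟩
      exact ⟨b, a, d⟩
    · rintro ⟨b, a, d⟩
      exact ⟨a, b, hθ _ _ a, d⟩
  rw [c1, c2] at h0
  linarith

/-- `ent_surC_chain` with `X = r_q`, `Y = θ_q`; `ent_surC_congr`.      OWNER L-256-NM-MRK-IDA, EST 80 -/
theorem nm_mq_id_joint (P : FLaw Ω) (Z : Ω → ζ) (θp θq rp rq : Ω → ℤ) (hr : ∀ ω ω', rq ω = rq ω' → rp ω = rp ω') {ω : Ω} (hω : P.p ω ≠ 0) :
    P.surC (fun ω => (θq ω, rq ω)) (pair Z (fun ω => (θp ω, rp ω))) ω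
      = P.surC rq (pair Z (pair θp rp)) ω + P.surC θq (pair Z (pair θp rq)) ω := by
  have h0 := ent_surC_chain P rq θq (pair Z (pair θp rp)) hω
  have c1 : P.surC (fun ω => (θq ω, rq ω)) (pair Z (fun ω => (θp ω, rp ω))) ω = P.surC (pair rq θq) (pair Z (pair θp rp)) ω := by
    refine ent_surC_congr P _ _ _ _ ω (fun ω' _ => Iff.rfl) (fun ω' _ _ => ?_)
    simp only [pair, Prod.mk.injEq]
    exact and_comm
  have c2 : P.surC θq (pair rq (pair Z (pair θp rp))) ω = P.surC θq (pair Z (pair θp rq)) ω := by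
    refine ent_surC_congr P θq θq _ _ ω (fun ω' _ => ?_) (fun ω' _ _ => Iff.rfl)
    simp only [pair, Prod.mk.injEq]
    constructor
    · rintro ⟨a, b, c, _⟩
      exact ⟨b, c, a⟩
    · rintro ⟨b, c, a⟩
      exact ⟨a, b, c, hr _ _ a⟩
  rw [c1, h0, c2]

theorem nm_mq_layer_num1 {L d c ν νL w e i1 i2 sT s1 s2 : ℝ} (hL : 0 ≤ L) (hν : 0 ≤ νL ∧ νL ≤ ν) (hc : 0 < c ∧ c < 1) (hw : 0 ≤ w)
    (hi : i1 - i2 = -(c * (ν - νL) * w)) (hT : (d * w - e) * L ≤ sT) (h1 : |s1 - i1 * L| ≤ e * L) (h2 : |s2 - i2 * L| ≤ e * L) :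
    ((d - c * (ν - νL)) * w - 3 * e) * L ≤ sT + s1 - s2 := by
  have a1 := (abs_le.1 h1).1
  have a2 := (abs_le.1 h2).2
  have e1 : ((d - c * (ν - νL)) * w - 3 * e) * L = (d * w - e) * L + (i1 - i2) * L - 2 * (e * L) := by
    rw [hi]; ring
  rw [e1]
  have e2 : (i1 - i2) * L = i1 * L - i2 * L := by ring
  rw [e2]
  linarith


/-- **one layer**.   `w = q - p`, `L = log(1/δ)`, `e` = error.   Off the (at most four) exceptional events, on the support: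
`s(θ_q | Z,θ_p,r_q) ≥ (d w - e) L + (i1 - e) L - (i2 + e) L = ((d - c(ν - νL)) w - 3e) L ≥ ((d - cν) w - 3e) L`, and it is `≥ 0`;
`s(ξ_q | Z, ξ_p) ≥ (ν w - e) L + ((d - c(ν - νL)) w - 3e) L ≥ (d w - 4e) L` since `ν (1 - c) + c νL ≥ 0`.      OWNER L-256-NM-MRK-IDB, EST 200 -/
theorem nm_mq_layer (P : FLaw Ω) (Z : Ω → ζ) (θp θq rc rp rq : Ω → ℤ) (hθ : ∀ ω ω', θq ω = θq ω' → θp ω = θp ω')
    (hrc : ∀ ω ω', rq ω = rq ω' → rc ω = rc ω') (hrp : ∀ ω ω', rq ω = rq ω' → rp ω = rp ω')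
    (L d c ν νL w e i1 i2 : ℝ) (hL : 0 ≤ L) (hν : 0 ≤ νL ∧ νL ≤ ν) (hc : 0 < c ∧ c < 1) (hw : 0 ≤ w) (he : 0 ≤ e)
    (hi : i1 - i2 = -(c * (ν - νL) * w))
    (hT : P.pr (fun ω => P.surC θq (pair Z (pair θp rc)) ω < (d * w - e) * L) ≤ e)
    (h1 : P.pr (fun ω => e * L < |P.surC rq (pair Z (pair θq rc)) ω - i1 * L|) ≤ e)
    (h2 : P.pr (fun ω => e * L < |P.surC rq (pair Z (pair θp rc)) ω - i2 * L|) ≤ e)
    (h3 : P.pr (fun ω => e * L < |P.surC rq (pair Z (pair θp rp)) ω - ν * w * L|) ≤ e) :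
    P.pr (fun ω => P.surC θq (pair Z (pair θp rq)) ω < (max (d - c * ν) 0 * w - 3 * e) * L) ≤ 3 * e ∧
    P.pr (fun ω => P.surC (fun ω => (θq ω, rq ω)) (pair Z (fun ω => (θp ω, rp ω))) ω < (d * w - 4 * e) * L) ≤ 4 * e := by
  have hwL : 0 ≤ w * L := mul_nonneg hw hL
  have heL : 0 ≤ e * L := mul_nonneg he hL
  have key : ∀ ω, P.p ω ≠ 0 → ¬ (P.surC θq (pair Z (pair θp rc)) ω < (d * w - e) * L) →
      ¬ (e * L < |P.surC rq (pair Z (pair θq rc)) ω - i1 * L|) → ¬ (e * L < |P.surC rq (pair Z (pair θp rc)) ω - i2 * L|) →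
      ((d - c * (ν - νL)) * w - 3 * e) * L ≤ P.surC θq (pair Z (pair θp rq)) ω := by
    intro ω hω a b c'
    rw [nm_mq_id_mixt P Z θp θq rc rq hθ hrc hω]
    exact nm_mq_layer_num1 hL hν hc hw hi (not_lt.1 a) (not_lt.1 b) (not_lt.1 c')
  have u3 : P.pr (fun ω => (P.surC θq (pair Z (pair θp rc)) ω < (d * w - e) * L ∨ e * L < |P.surC rq (pair Z (pair θq rc)) ω - i1 * L|) ∨
      e * L < |P.surC rq (pair Z (pair θp rc)) ω - i2 * L|) ≤ 3 * e := by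
    have a1 := ent_pr_or_le P (fun ω => P.surC θq (pair Z (pair θp rc)) ω < (d * w - e) * L ∨ e * L < |P.surC rq (pair Z (pair θq rc)) ω - i1 * L|)
      (fun ω => e * L < |P.surC rq (pair Z (pair θp rc)) ω - i2 * L|)
    have a2 := ent_pr_or_le P (fun ω => P.surC θq (pair Z (pair θp rc)) ω < (d * w - e) * L) (fun ω => e * L < |P.surC rq (pair Z (pair θq rc)) ω - i1 * L|)
    linarith
  constructor
  · refine le_trans (ent_pr_mono P fun ω hω hlt => ?_) u3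
    by_contra hcon
    push Not at hcon
    obtain ⟨⟨a, b⟩, c'⟩ := hcon
    have hk := key ω hω (not_lt.2 a) (not_lt.2 b) (not_lt.2 c')
    have h0 := ent_surC_nonneg P θq (pair Z (pair θp rq)) hω
    rcases le_total (d - c * ν) 0 with hm | hm
    · rw [max_eq_right hm] at hlt
      nlinarith
    · rw [max_eq_left hm] at hlt
      have : ((d - c * ν) * w - 3 * e) * L ≤ ((d - c * (ν - νL)) * w - 3 * e) * L := by
        have : 0 ≤ c * νL * (w * L) := mul_nonneg (mul_nonneg hc.1.le hν.1) hwL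
        nlinarith
      linarith
  · have u4 : P.pr (fun ω => ((P.surC θq (pair Z (pair θp rc)) ω < (d * w - e) * L ∨ e * L < |P.surC rq (pair Z (pair θq rc)) ω - i1 * L|) ∨
        e * L < |P.surC rq (pair Z (pair θp rc)) ω - i2 * L|) ∨ e * L < |P.surC rq (pair Z (pair θp rp)) ω - ν * w * L|) ≤ 4 * e := by
      have a1 := ent_pr_or_le P (fun ω => (P.surC θq (pair Z (pair θp rc)) ω < (d * w - e) * L ∨ e * L < |P.surC rq (pair Z (pair θq rc)) ω - i1 * L|) ∨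
        e * L < |P.surC rq (pair Z (pair θp rc)) ω - i2 * L|) (fun ω => e * L < |P.surC rq (pair Z (pair θp rp)) ω - ν * w * L|)
      linarith
    refine le_trans (ent_pr_mono P fun ω hω hlt => ?_) u4
    by_contra hcon
    push Not at hcon
    obtain ⟨⟨⟨a, b⟩, c'⟩, d'⟩ := hcon
    have hk := key ω hω (not_lt.2 a) (not_lt.2 b) (not_lt.2 c')
    rw [nm_mq_id_joint P Z θp θq rp rq hrp hω] at hlt
    have a3 := (abs_le.1 d').1
    have : 0 ≤ (ν * (1 - c) + c * νL) * (w * L) := by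
      refine mul_nonneg (add_nonneg (mul_nonneg (hν.1.trans hν.2) (by linarith [hc.2])) (mul_nonneg hc.1.le hν.1)) hwL
    nlinarith

end

end Claimed.Agent.R256
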