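import Claimed.Agent.R256.Nm.Mrk.Row

/-!
# Row 256 (S0496), unit NM, block MRK, file 4: **X8** = `nm_tan_time` (Prop. names:mark-dimension, causal counting = clause `time` of `Tan.AdmM`)      (architect helper219; prefix `nm_mk_`)

* `nm_mk_time_pq` : one pair `p < q`.      * `nm_mk_pclist_mono`.      * `nm_mk_tan_time` : STRONG FORM: every bound `r.B ≥ 2` of the stored marks, EVERY gap `h` which fits (no `h0`).
* `nm_mk_tan_time_c` : the statement `nm_tan_time` of `Nm/Contract.lean` VERBATIM (`B1 = 2`, `h0 = 1`).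
-/

set_option autoImplicit false

namespace Claimed.Agent.R256

open Claimed.Agent.R255
open Claimed.Agent.R255.FLaw (pair)
open Classical

noncomputable section

theorem nm_mk_tp_De {q : NmQ} {π : SfPar} (hq : q.Fam π) : 0 < q.ds.De ∧ q.ds.De ≤ 1 := by
  obtain ⟨_, _, h⟩ := hq
  rcases h with ⟨_, _, h3, _⟩ | ⟨_, _, h3, _⟩ | ⟨_, _, _, De, h1, h2, _, h3⟩
  · rw [h3]; simp [nmDsEq]
  · rw [h3]; simp [nmDsLin]
  · rw [h3]; exact ⟨h1, h2⟩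

theorem nm_mk_tp_anti {s : ℝ} (h0 : 0 < s) (h1 : s < 1) {a b : ℝ} (h : a ≤ b) : s ^ b ≤ s ^ a :=
  Real.rpow_le_rpow_of_exponent_ge h0 h1.le h

/-- the numerics of the causal counting -/
theorem nm_mk_tp_num (s t g d yx dji acc M : ℝ) (hs0 : 0 < s) (hs1 : s < 1) (ht : 0 < t) (hg : 0 < g) (hd : 0 < d) (hacc : 0 < acc)
    (hdji : yx - 2 * t ≤ dji) (hM0 : 0 ≤ M) (hM : M ≤ 7 * s ^ (-(2 * t))) (h1 : (7 + 2 * d) * t ≤ g / 8) (h2 : g ≤ 1 / t)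
    (h3 : 10 / acc * s ^ (g / 4) ≤ 1) :
    s ^ (-t) * (s ^ (-t) * (s ^ (-(g / 8)) * (s ^ (-(d * yx - g)) * M)) * s ^ (d * dji) + s ^ (1 / t)) ^ ((2 : ℝ) / 3) + s ^ (1 / t)
      ≤ acc / 2 := by
  have pos : ∀ x : ℝ, 0 < s ^ x := fun x => Real.rpow_pos_of_pos hs0 x
  have hdt : 0 ≤ d * t := by positivity
  -- the main product
  have a1 : s ^ (-t) * (s ^ (-(g / 8)) * (s ^ (-(d * yx - g)) * M)) * s ^ (d * dji) ≤ 7 * s ^ (g / 2) := by
    have b1 : s ^ (-t) * (s ^ (-(g / 8)) * (s ^ (-(d * yx - g)) * M)) * s ^ (d * dji)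
        ≤ s ^ (-t) * (s ^ (-(g / 8)) * (s ^ (-(d * yx - g)) * (7 * s ^ (-(2 * t))))) * s ^ (d * dji) := by
      refine mul_le_mul_of_nonneg_right ?_ (pos _).le
      refine mul_le_mul_of_nonneg_left ?_ (pos _).le
      refine mul_le_mul_of_nonneg_left ?_ (pos _).le
      exact mul_le_mul_of_nonneg_left hM (pos _).le
    have b2 : s ^ (-t) * (s ^ (-(g / 8)) * (s ^ (-(d * yx - g)) * (7 * s ^ (-(2 * t))))) * s ^ (d * dji)
        = 7 * s ^ (-t + -(g / 8) + -(d * yx - g) + -(2 * t) + d * dji) := by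
      rw [Real.rpow_add hs0, Real.rpow_add hs0, Real.rpow_add hs0, Real.rpow_add hs0]
      ring
    have b3 : g / 2 ≤ -t + -(g / 8) + -(d * yx - g) + -(2 * t) + d * dji := by
      have c1 : d * (yx - 2 * t) ≤ d * dji := mul_le_mul_of_nonneg_left hdji hd.le
      nlinarith
    rw [b2] at b1
    exact b1.trans (mul_le_mul_of_nonneg_left (nm_mk_tp_anti hs0 hs1 b3) (by norm_num))
  have a2 : s ^ (1 / t) ≤ s ^ (g / 2) := nm_mk_tp_anti hs0 hs1 (by linarith)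
  have a3 : s ^ (-t) * (s ^ (-(g / 8)) * (s ^ (-(d * yx - g)) * M)) * s ^ (d * dji) + s ^ (1 / t) ≤ 8 * s ^ (g / 2) := by linarith
  have a0 : 0 ≤ s ^ (-t) * (s ^ (-(g / 8)) * (s ^ (-(d * yx - g)) * M)) * s ^ (d * dji) + s ^ (1 / t) := by
    have := pos (-t); have := pos (-(g / 8)); have := pos (-(d * yx - g)); have := pos (d * dji); have := pos (1 / t)
    positivity
  have a4 : (s ^ (-t) * (s ^ (-(g / 8)) * (s ^ (-(d * yx - g)) * M)) * s ^ (d * dji) + s ^ (1 / t)) ^ ((2 : ℝ) / 3)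
      ≤ 4 * s ^ (g / 3) := by
    refine (Real.rpow_le_rpow a0 a3 (by norm_num)).trans (le_of_eq ?_)
    rw [Real.mul_rpow (by norm_num) (pos _).le, ← Real.rpow_mul hs0.le]
    have e8 : (8 : ℝ) ^ ((2 : ℝ) / 3) = 4 := by
      have : (8 : ℝ) = 2 ^ (3 : ℝ) := by norm_num
      rw [this, ← Real.rpow_mul (by norm_num)]
      norm_num
    rw [e8]
    congr 2
    ring
  have a5 : s ^ (-t) * (4 * s ^ (g / 3)) ≤ 4 * s ^ (g / 4) := by
    have : s ^ (-t) * (4 * s ^ (g / 3)) = 4 * s ^ (-t + g / 3) := by rw [Real.rpow_add hs0]; ring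
    rw [this]
    refine mul_le_mul_of_nonneg_left (nm_mk_tp_anti hs0 hs1 ?_) (by norm_num)
    nlinarith
  have a6 : s ^ (1 / t) ≤ s ^ (g / 4) := nm_mk_tp_anti hs0 hs1 (by linarith)
  have a7 := mul_le_mul_of_nonneg_left a4 (pos (-t)).le
  have a8 : 5 * s ^ (g / 4) ≤ acc / 2 := by
    have : 10 / acc * s ^ (g / 4) = (5 * s ^ (g / 4)) / (acc / 2) := by field_simp; ring
    rw [this, div_le_one (by positivity)] at h3
    exact h3
  linarith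

/-- **one pair** `p < q`.
PLAN.  `Λ` of `nm_mk_row_Y`.   `x = p h`, `y = q h`, `g := acc * h > 0`.   `(e1, t1)` := `nm_mk_row_Y` at `p` with accuracy `g / 8`;   `e0 := min e1 (acc / 2)`.
`t0 ≤ t1`, `2 t0 < y - x`, `a + y + 4 t0 ≤ De`, `De + t0 < 1` if `De ≠ 1`, `(7 + 2 d) t0 ≤ g / 8`, `g ≤ 1 / t0`, `16 * t0^(g/4) ≤ acc / 2`.
`G` := the event of `PcList` (`fun _ => True` if the side is not exact quadratic), `NVal` with `s^(-e0) ≤ s^(-e1)` (`ltk_nval_mono`);   `E ω := p ω ≠ 0 ∧ G ω`.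
`i := gt (a + x) < j := gt (a + y) < 1` (`nm_gt_near`, `nm_gt_mem`).   `nm_mk_time_fin` with `Y = (Z, θ_p, r_dep)`, `Θ = θ_q`, `N = s^(-g/8)`, `M = 4 s^(-2t) + 3 ≤ 7 s^(-2t)` (`nm_mk_tlist`), `σ = (d (q - p) - acc) lg (s^h)`:
`exp σ = s^(-(d (y - x) - g))` (`lg (s^h) = h * lgs`, `nm_me_rpow_lgs`),   `s^(d (j - i)) ≤ s^(d (y - x) - 2 d t)`  (`0 < d`),   so the bracket is `≤ 7 s^(g - g/8 - (3 + 2d) t) + s^(1/t) ≤ 8 s^(g/2)`,
its power `2/3` is `≤ 4 s^(g/3)`, the bound is `≤ 4 s^(g/3 - t) + s^(1/t) ≤ 5 s^(g/4) ≤ acc / 2`  (`s ≤ t0`).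
Finally `{surC < σ} ⊆ {E ∧ surC < σ} ∪ {¬ G}` on the support: `ent_pr_mono`, `ent_pr_or_le`, `P(¬ G) ≤ e0 ≤ acc / 2`.      OWNER L-256-NM-MRK-TIMEA, EST 450 -/
theorem nm_mk_time_pq (π : SfPar) (hπ : π.Valid) (C0 τ κ0 : ℝ) : ∃ Λ : ℝ, ∀ r : NmRt, r.Ok π Λ → 2 ≤ r.B → 0 < r.h →
    ∀ p q : ℝ, 0 ≤ p → p < q → q ≤ r.Rm → r.a + q * r.h < r.q.ds.De →
    ∀ acc : ℝ, 0 < acc → ∃ e0 : ℝ, 0 < e0 ∧ ∃ t0 : ℝ, 0 < t0 ∧ ∀ D : SfDoc, D.Fine π C0 τ κ0 t0 → nmX π D t0 → D.PcList π r e0 →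
      (D.P 1).pr (fun ω => (D.P 1).surC (fun ω => tcell (D.s ^ r.h) q (D.smk π r ω).th)
          (fun ω => (D.side π r.q r.σ r.a ω, (tcell (D.s ^ r.h) p (D.smk π r ω).th, tcell (D.s ^ r.h) (r.dep π p) (D.smk π r ω).r))) ω
        < (π.d * (q - p) - acc) * lg (D.s ^ r.h)) ≤ acc := by
  obtain ⟨Λ, HY⟩ := nm_mk_row_Y π hπ C0 τ κ0
  refine ⟨Λ, fun r hr hB hh p q hp hpq hqR hqD acc hacc => ?_⟩
  obtain ⟨hDe0, hDe1⟩ := nm_mk_tp_De hr.q
  have hd : 0 < π.d := hπ.d1.1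
  obtain ⟨g, hgdef⟩ : ∃ g : ℝ, g = acc * r.h := ⟨_, rfl⟩
  have hg : 0 < g := by rw [hgdef]; positivity
  have hyx : 0 < (q - p) * r.h := mul_pos (by linarith) hh
  have hpD : r.a + p * r.h < r.q.ds.De := by nlinarith
  obtain ⟨e1, he1, t1, ht1, HY'⟩ := HY r hr hB hh p hp hpD (g / 8) (by positivity)
  obtain ⟨ta, hta0, _, _, hta3, hta4⟩ := nm_me_t0 (g / 4) (max g (10 / acc)) (by positivity)
  obtain ⟨tb, htb⟩ : ∃ tb : ℝ, tb = if r.q.ds.De = 1 then 1 else (1 - r.q.ds.De) / 2 := ⟨_, rfl⟩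
  have htb0 : 0 < tb := by
    rw [htb]
    split_ifs with h
    · exact one_pos
    · have : r.q.ds.De < 1 := lt_of_le_of_ne hDe1 h
      linarith
  obtain ⟨t0, ht0def⟩ : ∃ t0 : ℝ, t0 = min (min ta t1) (min (min ((q - p) * r.h / 4) ((r.q.ds.De - (r.a + q * r.h)) / 4))
      (min (g / (8 * (7 + 2 * π.d))) tb)) := ⟨_, rfl⟩
  have k1 : t0 ≤ ta := by rw [ht0def]; exact (min_le_left _ _).trans (min_le_left _ _)
  have k2 : t0 ≤ t1 := by rw [ht0def]; exact (min_le_left _ _).trans (min_le_right _ _)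
  have k3 : t0 ≤ (q - p) * r.h / 4 := by rw [ht0def]; exact (min_le_right _ _).trans ((min_le_left _ _).trans (min_le_left _ _))
  have k4 : t0 ≤ (r.q.ds.De - (r.a + q * r.h)) / 4 := by
    rw [ht0def]; exact (min_le_right _ _).trans ((min_le_left _ _).trans (min_le_right _ _))
  have k5 : t0 ≤ g / (8 * (7 + 2 * π.d)) := by rw [ht0def]; exact (min_le_right _ _).trans ((min_le_right _ _).trans (min_le_left _ _))
  have k6 : t0 ≤ tb := by rw [ht0def]; exact (min_le_right _ _).trans ((min_le_right _ _).trans (min_le_right _ _))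
  have ht0 : 0 < t0 := by
    rw [ht0def]
    exact lt_min (lt_min hta0 ht1) (lt_min (lt_min (by positivity) (by linarith)) (lt_min (by positivity) htb0))
  refine ⟨min e1 (acc / 2), lt_min he1 (by positivity), t0, ht0, fun D hD hX hPc => ?_⟩
  have hcore := hD.ok.core
  obtain ⟨hs0, hs1⟩ := hcore.hs
  have pos : ∀ x : ℝ, 0 < D.s ^ x := fun x => Real.rpow_pos_of_pos hs0 x
  -- the good event
  obtain ⟨G, hGpr, hGN⟩ : ∃ G : D.Row 1 → Prop, (D.P 1).pr (fun ω => ¬ G ω) ≤ acc / 2 ∧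
      (r.σ.exact = true → r.σ.lin = false → (D.P 1).NVal G (D.Pc π r.q.ds r.σ.xs) (pair D.y0 (D.tc r.a)) (D.s ^ (-e1))) := by
    by_cases hc : r.σ.exact = true ∧ r.σ.lin = false
    · obtain ⟨G, g1, g2⟩ := hPc hc.1 hc.2
      refine ⟨G, g1.trans (min_le_right _ _), fun _ _ => ?_⟩
      exact ltk_nval_mono (D.P 1) g2 (fun _ h => h) (fun _ _ h => h) ⟨id, fun _ => rfl⟩
        (nm_mk_tp_anti hs0 hs1 (neg_le_neg (min_le_left _ _)))
    · refine ⟨fun _ => True, ?_, fun h1 h2 => absurd ⟨h1, h2⟩ hc⟩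
      have : (D.P 1).pr (fun _ => ¬ True) = 0 := ent_pr_eq_zero _ (fun _ _ h => h trivial)
      rw [this]
      positivity
  have hRow := HY' D (nm_me_fine_mono hD k2) (nm_me_x_mono hcore.hs k2 hX) G hGN
  -- gates
  have hGne : D.G.Nonempty := ⟨1, hcore.gate.1⟩
  have ha0 : 0 < r.a := hr.ha.1
  have hph : 0 ≤ p * r.h := by positivity
  have hqh : 0 ≤ q * r.h := mul_nonneg (by linarith) hh.le
  have ni := nm_gt_near hD (i := r.a + p * r.h) (by linarith) (by linarith)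
  have nj := nm_gt_near hD (i := r.a + q * r.h) (by linarith) (by linarith)
  rw [abs_le] at ni nj
  have exy : (q - p) * r.h = q * r.h - p * r.h := by ring
  have hij : D.gt (r.a + p * r.h) < D.gt (r.a + q * r.h) := by linarith [ni.2, nj.1]
  have hj1 : D.gt (r.a + q * r.h) < 1 := by linarith [nj.2]
  have h1' : r.q.ds.De ≠ 1 → r.q.ds.De + t0 < 1 := by
    intro hne
    rw [htb, if_neg hne] at k6
    have : r.q.ds.De < 1 := lt_of_le_of_ne hDe1 hne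
    linarith
  have hM0 : (0 : ℝ) ≤ 4 * D.s ^ (-(2 * t0)) + 3 := by have := pos (-(2 * t0)); positivity
  have fin := nm_mk_time_fin hcore (nm_gt_mem D hGne _) (nm_gt_mem D hGne _) hij hj1 (fun ω => (D.P 1).p ω ≠ 0 ∧ G ω)
    (fun ω => (D.side π r.q r.σ r.a ω, (tcell (D.s ^ r.h) p (D.smk π r ω).th, tcell (D.s ^ r.h) (r.dep π p) (D.smk π r ω).r)))
    (fun ω => tcell (D.s ^ r.h) q (D.smk π r ω).th) ((π.d * (q - p) - acc) * lg (D.s ^ r.h)) hM0 hRow (by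
      intro y c
      obtain ⟨S, hS1, hS2⟩ := nm_mk_tlist hD r hr hB hh (by linarith : 0 ≤ q) hqR (by linarith) h1' y.1 c
      exact ⟨S, hS1, fun ω hE hY hΘ ρ' hρ' => hS2 ω hE.1 (by rw [← hY]) hΘ ρ' hρ'⟩)
  -- numerics
  have hexp : Real.exp ((π.d * (q - p) - acc) * lg (D.s ^ r.h)) = D.s ^ (-(π.d * ((q - p) * r.h) - g)) := by
    rw [nm_me_rpow_lgs D hs0]
    congr 1
    unfold SfDoc.lgs lg
    rw [one_div, one_div, Real.log_inv, Real.log_inv, Real.log_rpow hs0, hgdef]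
    ring
  rw [hexp] at fin
  have hM7 : 4 * D.s ^ (-(2 * t0)) + 3 ≤ 7 * D.s ^ (-(2 * t0)) := by
    have : (1 : ℝ) ≤ D.s ^ (-(2 * t0)) := Real.one_le_rpow_of_pos_of_le_one_of_nonpos hs0 hs1.le (by linarith)
    linarith
  have n1 : (7 + 2 * π.d) * t0 ≤ g / 8 := by
    have h7 : 0 < 8 * (7 + 2 * π.d) := by positivity
    rw [le_div_iff₀ h7] at k5
    linarith
  have n2 : g ≤ 1 / t0 := by
    have c1 : 1 / ta ≤ 1 / t0 := one_div_le_one_div_of_le ht0 k1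
    exact ((le_max_left _ _).trans hta3).trans c1
  have n3 : 10 / acc * D.s ^ (g / 4) ≤ 1 := by
    have c1 := hta4 D.s hs0 (hD.sm.trans k1)
    exact (mul_le_mul_of_nonneg_right (le_max_right _ _) (pos _).le).trans c1
  have num := nm_mk_tp_num D.s t0 g π.d ((q - p) * r.h) (D.gt (r.a + q * r.h) - D.gt (r.a + p * r.h)) acc
    (4 * D.s ^ (-(2 * t0)) + 3) hs0 hs1 ht0 hg hd hacc (by linarith [ni.2, nj.1]) hM0 hM7 n1 n2 n3
  have fin2 := fin.trans num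
  -- conclusion
  have hsplit : (D.P 1).pr (fun ω => (D.P 1).surC (fun ω => tcell (D.s ^ r.h) q (D.smk π r ω).th)
          (fun ω => (D.side π r.q r.σ r.a ω, (tcell (D.s ^ r.h) p (D.smk π r ω).th, tcell (D.s ^ r.h) (r.dep π p) (D.smk π r ω).r))) ω
        < (π.d * (q - p) - acc) * lg (D.s ^ r.h))
      ≤ (D.P 1).pr (fun ω => (((D.P 1).p ω ≠ 0 ∧ G ω) ∧ (D.P 1).surC (fun ω => tcell (D.s ^ r.h) q (D.smk π r ω).th)
          (fun ω => (D.side π r.q r.σ r.a ω, (tcell (D.s ^ r.h) p (D.smk π r ω).th, tcell (D.s ^ r.h) (r.dep π p) (D.smk π r ω).r))) ω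
        < (π.d * (q - p) - acc) * lg (D.s ^ r.h)) ∨ ¬ G ω) := by
    refine ent_pr_mono _ fun ω hω h => ?_
    by_cases hGω : G ω
    · exact Or.inl ⟨⟨hω, hGω⟩, h⟩
    · exact Or.inr hGω
  have hor := ent_pr_or_le (D.P 1) (fun ω => ((D.P 1).p ω ≠ 0 ∧ G ω) ∧ (D.P 1).surC (fun ω => tcell (D.s ^ r.h) q (D.smk π r ω).th)
          (fun ω => (D.side π r.q r.σ r.a ω, (tcell (D.s ^ r.h) p (D.smk π r ω).th, tcell (D.s ^ r.h) (r.dep π p) (D.smk π r ω).r))) ω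
        < (π.d * (q - p) - acc) * lg (D.s ^ r.h)) (fun ω => ¬ G ω)
  linarith

/-- `PcList` is monotone in the tolerance.      OWNER L-256-NM-MRK-TIMEB, EST 30 -/
theorem nm_mk_pclist_mono {D : SfDoc} {π : SfPar} {r : NmRt} {e e' : ℝ} (hs : 0 < D.s ∧ D.s < 1) (h : D.PcList π r e) (hee : e ≤ e') : D.PcList π r e' := by
  intro h1 h2
  obtain ⟨G, hG, hN⟩ := h h1 h2
  refine ⟨G, hG.trans hee, ?_⟩
  exact ltk_nval_mono (D.P 1) hN (fun _ h => h) (fun _ _ h => h) ⟨id, fun _ => rfl⟩ (nm_pow_anti hs.1 hs.2 (by linarith))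

/-- a positive lower bound of finitely many positive numbers -/
theorem nm_mk_timeb_min {α : Type} (S : Finset α) (f : α → ℝ) (hf : ∀ x, 0 < f x) : ∃ m : ℝ, 0 < m ∧ ∀ x ∈ S, m ≤ f x := by
  induction S using Finset.induction_on with
  | empty => exact ⟨1, one_pos, by simp⟩
  | insert a S ha ih =>
    obtain ⟨m, hm, h⟩ := ih
    refine ⟨min m (f a), lt_min hm (hf a), fun x hx => ?_⟩
    rcases Finset.mem_insert.1 hx with rfl | hx
    · exact min_le_right _ _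
    · exact (min_le_left _ _).trans (h x hx)


/-- **X8, strong form**.   Finite induction over the pairs of `pk.G` (minimum of the `e0`, `t0`: `nm_me_fine_mono`, `nm_me_x_mono`, `nm_mk_pclist_mono`); `q ≤ K < RQ ≤ Rm / 2`;
`{ r with h := h }` is admissible (the fields of `NmRt.Ok` do not read `h`), `PcList` does not read `h`;   `T.rdep a p = r.dep π p` by `a.c = r.c π`;   the observations of `nmTan` are those of `nm_mk_time_pq` by `rfl`.      OWNER L-256-NM-MRK-TIMEB, EST 200 -/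
theorem nm_mk_tan_time (π : SfPar) (hπ : π.Valid) (C0 τ κ0 : ℝ) : ∃ Λ : ℝ, ∀ r : NmRt, r.Ok π Λ → 2 ≤ r.B → ∀ pk : ItPk, pk.Ok →
    ∀ h : ℝ, NmRt.Fits { r with h := h } π pk →
    ∀ acc : ℝ, 0 < acc → ∃ e0 : ℝ, 0 < e0 ∧ ∃ t0 : ℝ, 0 < t0 ∧ ∀ D : SfDoc, D.Fine π C0 τ κ0 t0 → nmX π D t0 → D.PcList π r e0 →
      ∀ (dsp : ℝ → NmNm → NmNm → ItDsp) (a : ItPar), a.c = r.c π → a.d = π.d → NmTime (nmTan D π { r with h := h } dsp) a pk acc := by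
  obtain ⟨Λ, H⟩ := nm_mk_time_pq π hπ C0 τ κ0
  refine ⟨Λ, fun r hr hB pk hpk h hF acc hacc => ?_⟩
  have hr' : NmRt.Ok { r with h := h } π Λ := ⟨hr.q, hr.g0, hr.ha, hr.hv, hr.rate, hr.hyb, hr.brq, hr.brl, hr.anc, hr.cq, hr.eq⟩
  obtain ⟨hh, hFG, _, _, hRm, _⟩ := hF
  obtain ⟨_, hK0, hKR, _, _, _, hGK⟩ := hpk
  have key : ∀ x : ℝ × ℝ, ∃ e0 : ℝ, 0 < e0 ∧ ∃ t0 : ℝ, 0 < t0 ∧ (x.1 ∈ pk.G → x.2 ∈ pk.G → x.1 < x.2 →
      ∀ D : SfDoc, D.Fine π C0 τ κ0 t0 → nmX π D t0 → D.PcList π { r with h := h } e0 →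
      (D.P 1).pr (fun ω => (D.P 1).surC (fun ω => tcell (D.s ^ h) x.2 (D.smk π { r with h := h } ω).th)
          (fun ω => (D.side π r.q r.σ r.a ω, (tcell (D.s ^ h) x.1 (D.smk π { r with h := h } ω).th,
            tcell (D.s ^ h) (NmRt.dep { r with h := h } π x.1) (D.smk π { r with h := h } ω).r))) ω
        < (π.d * (x.2 - x.1) - acc) * lg (D.s ^ h)) ≤ acc) := by
    intro x
    by_cases hx : x.1 ∈ pk.G ∧ x.2 ∈ pk.G ∧ x.1 < x.2
    · obtain ⟨hp, hq, hpq⟩ := hx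
      have hqR : x.2 ≤ r.Rm := by
        have := (hGK x.2 hq).2
        have hRm' : 2 * pk.RQ ≤ r.Rm := hRm
        linarith
      obtain ⟨e0, he0, t0, ht0, H2⟩ := H { r with h := h } hr' hB hh x.1 x.2 (hGK x.1 hp).1 hpq hqR (hFG x.2 hq) acc hacc
      exact ⟨e0, he0, t0, ht0, fun _ _ _ => H2⟩
    · exact ⟨1, one_pos, 1, one_pos, fun h1 h2 h3 => absurd ⟨h1, h2, h3⟩ hx⟩
  choose e0 he0 t0 ht0 H2 using key
  obtain ⟨e, he, hem⟩ := nm_mk_timeb_min (pk.G ×ˢ pk.G) e0 he0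
  obtain ⟨t, ht, htm⟩ := nm_mk_timeb_min (pk.G ×ˢ pk.G) t0 ht0
  refine ⟨e, he, t, ht, fun D hD hX hP dsp a hac had => ?_⟩
  intro p hp q hq hpq
  have hs := hD.ok.core.hs
  have hmem : (p, q) ∈ pk.G ×ˢ pk.G := Finset.mem_product.2 ⟨hp, hq⟩
  have hP' : D.PcList π { r with h := h } (e0 (p, q)) := nm_mk_pclist_mono hs hP (hem _ hmem)
  have h1 := H2 (p, q) hp hq hpq D (nm_me_fine_mono hD (htm _ hmem)) (nm_me_x_mono hs (htm _ hmem) hX) hP'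
  have hdep : (nmTan D π { r with h := h } dsp).rdep a p = NmRt.dep { r with h := h } π p := by
    unfold Tan.rdep NmRt.dep
    show (if (!r.σ.lin) = true then min 1 a.c * p else a.c * p) = if r.σ.lin = true then r.c π * p else min 1 (r.c π) * p
    rw [hac]
    cases r.σ.lin <;> simp
  rw [hdep, had]
  exact h1

/-- **X8** = `nm_tan_time` of `Nm/Contract.lean`, verbatim (v6: `B1 ≤ r.B`) -/
theorem nm_mk_tan_time_c (π : SfPar) (hπ : π.Valid) (C0 τ κ0 : ℝ) : ∃ Λ B1 : ℝ, ∀ r : NmRt, r.Ok π Λ → B1 ≤ r.B → ∀ pk : ItPk, pk.Ok →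
    ∃ h0 : ℝ, 0 < h0 ∧ ∀ h : ℝ, h ≤ h0 → NmRt.Fits { r with h := h } π pk →
    ∀ acc : ℝ, 0 < acc → ∃ e0 : ℝ, 0 < e0 ∧ ∃ t0 : ℝ, 0 < t0 ∧ ∀ D : SfDoc, D.Fine π C0 τ κ0 t0 → nmX π D t0 → D.PcList π r e0 →
      ∀ (dsp : ℝ → NmNm → NmNm → ItDsp) (a : ItPar), r.Reg π (r.B + 1) a → NmTime (nmTan D π { r with h := h } dsp) a pk acc := by
  obtain ⟨Λ, H⟩ := nm_mk_tan_time π hπ C0 τ κ0
  refine ⟨Λ, 2, fun r hr hB pk hpk => ⟨1, one_pos, fun h _ hF acc hacc => ?_⟩⟩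
  obtain ⟨e0, he0, t0, ht0, H2⟩ := H r hr hB pk hpk h hF acc hacc
  exact ⟨e0, he0, t0, ht0, fun D hD hX hP dsp a ha => H2 D hD hX hP dsp a ha.1 ha.2.1⟩

end

end Claimed.Agent.R256
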