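import Claimed.Agent.R256.Nm.Mrk.Prof
import Claimed.Agent.R256.Nm.Mrk.Id
import Claimed.Agent.R256.Nm.Mrk.Time
import Claimed.Agent.R256.Nm.Tra.Mix

/-!
# Row 256 (S0496), unit NM, block MRK, file 10: **Y6 (marks)** = `nm_tan_marks` (Prop. names:mark-dimension: all clauses of `Tan.AdmM` at almost every time root)      (architect helper219; prefix `nm_mq_`)

* `nm_mq_prof_ae` : (abstract) at a.e. `a` the four increments of a mixed profile used by one layer `p → q`, `q - p ≤ (1-c)/c p` (i.e. `c q ≤ p`), uniformly under moved roots.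
* `NmRt.B00`, `nm_mq_Bg` : the graph of a root is affine with slope `c'`.
* `nm_mq_lay_ev` : one layer along a flat sequence: time clause ⇒ `mixr`, `mixt`, `joint`.
* `nm_mq_tan_marks_p` : the port form (`Rm` free, after the null set, `κ1`, `η`, `h0`), with the fact `nm_HM_basic` of PRO as hypothesis `hHM`.
* `nm_mq_tan_marks` = `nm_tan_marks` of `Nm/Contract.lean`, `nm_mq_port_marks` = `lay_port_marks` of `Lay/Patch.lean` (both + `hHM`): proved from it.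
-/

set_option autoImplicit false

namespace Claimed.Agent.R256

open Claimed.Agent.R255
open Claimed.Agent.R255.FLaw (pair)
open Filter Topology MeasureTheory
open Classical

noncomputable section

/-- **the four increments at a.e. root** (abstract: Mathlib + `nm_mix_main` of `Nm/Tra/Mix.lean` = `nm_tr_mixed`).
PLAN.  `nm_mix_main H (-n) n B0 c hc` for every `n : ℕ`, `ae_all_iff`; at a good `a` take `n > |a|`: `νL := nmNuL H (fun z => B0 + c * z) a`, `ν := nmNu ..`, `0 ≤ νL ≤ ν`, and the limits `lim al1 al2 be = νL (min al2 (c be) - min al1 (c be)) + ν (max al2 (c be) - max al1 (c be))`.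
`nm_mq_mix_prof` with `F` = image of `G ×ˢ G` (pairs `p ≤ q`, `0 ≤ p`) under the four maps `(p,q) ↦ (p,q,q), (c p,q,q), (c p,q,p), (p,q,p)`.
EVALUATION (`0 < p < q`, `c q ≤ p` from `q - p ≤ (1-c)/c p`, `c p ≤ p`, `c p ≤ c q ≤ q`):  `lim p q q = ν (q-p)`,  `lim (c p) q q = νL c (q-p) + ν (q - c q)`,  `lim (c p) q p = ν (q - c p)`,  `lim p q p = ν (q-p)`  (`min_eq_left/right`, `max_eq_left/right`).
OWNER L-256-NM-MRK-MARKA, EST 350 -/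
theorem nm_mq_prof_ae (H : ℝ → ℝ → ℝ) (B0 c : ℝ) (hc : 0 < c) (hc1 : c < 1)
    (hx : ∀ z x x' : ℝ, x ≤ x' → 0 ≤ H x' z - H x z ∧ H x' z - H x z ≤ x' - x)
    (hzz : ∀ z z' x x' : ℝ, z ≤ z' → x ≤ x' → H x' z' - H x z' ≤ H x' z - H x z)
    (hz : ∀ x z z' : ℝ, |H x z - H x z'| ≤ |z - z'|) :
    ∀ᵐ a : ℝ, ∃ νL : ℝ, 0 ≤ νL ∧ νL ≤ nmNu H (fun z => B0 + c * z) a ∧
      ∀ (G : Finset ℝ) (ε : ℝ), 0 < ε → ∃ η h0 : ℝ, 0 < η ∧ 0 < h0 ∧ ∀ h : ℝ, 0 < h → h ≤ h0 → ∀ a' : ℝ, |a' - a| ≤ η * h →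
        ∀ p ∈ G, ∀ q ∈ G, 0 < p → p < q → q - p ≤ (1 - c) / c * p →
          |(H (B0 + c * a' + q * h) (a' + q * h) - H (B0 + c * a' + p * h) (a' + q * h)) - nmNu H (fun z => B0 + c * z) a * (q - p) * h| ≤ ε * h ∧
          |(H (B0 + c * a' + q * h) (a' + q * h) - H (B0 + c * a' + c * p * h) (a' + q * h))
            - (νL * (c * (q - p)) + nmNu H (fun z => B0 + c * z) a * (q - c * q)) * h| ≤ ε * h ∧
          |(H (B0 + c * a' + q * h) (a' + p * h) - H (B0 + c * a' + c * p * h) (a' + p * h)) - nmNu H (fun z => B0 + c * z) a * (q - c * p) * h| ≤ ε * h ∧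
          |(H (B0 + c * a' + q * h) (a' + p * h) - H (B0 + c * a' + p * h) (a' + p * h)) - nmNu H (fun z => B0 + c * z) a * (q - p) * h| ≤ ε * h := by
  have hall : ∀ᵐ a : ℝ, ∀ n : ℕ, a ∈ Set.Ioo (-(n : ℝ)) (n : ℝ) →
      0 ≤ limsup (fun h : ℝ => (H (B0 + c * a) a - H (B0 + c * a - h) a) / h) (𝓝[>] 0) ∧
      limsup (fun h : ℝ => (H (B0 + c * a) a - H (B0 + c * a - h) a) / h) (𝓝[>] 0)
        ≤ limsup (fun h : ℝ => (H (B0 + c * a + h) a - H (B0 + c * a) a) / h) (𝓝[>] 0) ∧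
      limsup (fun h : ℝ => (H (B0 + c * a + h) a - H (B0 + c * a) a) / h) (𝓝[>] 0) ≤ 1 ∧
      ∀ al1 al2 be : ℝ, al1 ≤ al2 →
        Tendsto (fun h : ℝ => (H (B0 + c * a + al2 * h) (a + be * h) - H (B0 + c * a + al1 * h) (a + be * h)) / h) (𝓝[>] 0)
          (𝓝 (limsup (fun h : ℝ => (H (B0 + c * a) a - H (B0 + c * a - h) a) / h) (𝓝[>] 0) * (min al2 (c * be) - min al1 (c * be))
            + limsup (fun h : ℝ => (H (B0 + c * a + h) a - H (B0 + c * a) a) / h) (𝓝[>] 0) * (max al2 (c * be) - max al1 (c * be)))) := by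
    rw [ae_all_iff]
    intro n
    exact nm_mix_main H (-(n : ℝ)) (n : ℝ) B0 c hc (fun z _ x x' h => hx z x x' h) (fun z _ z' _ x x' h h' => hzz z z' x x' h h')
  filter_upwards [hall] with a ha
  obtain ⟨n, hn⟩ := exists_nat_gt |a|
  obtain ⟨k0, k1, -, hlim⟩ := ha n ⟨by linarith [neg_abs_le a], by linarith [le_abs_self a]⟩
  obtain ⟨ν, hν⟩ : ∃ ν, ν = nmNu H (fun z => B0 + c * z) a := ⟨_, rfl⟩
  have hν' : limsup (fun h : ℝ => (H (B0 + c * a + h) a - H (B0 + c * a) a) / h) (𝓝[>] 0) = ν := hν.symm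
  obtain ⟨νL, hνL⟩ : ∃ νL, νL = limsup (fun h : ℝ => (H (B0 + c * a) a - H (B0 + c * a - h) a) / h) (𝓝[>] 0) := ⟨_, rfl⟩
  rw [← hν]
  rw [hν', ← hνL] at k1 hlim
  rw [← hνL] at k0
  refine ⟨νL, k0, k1, ?_⟩
  intro G ε hε
  obtain ⟨F, hFe⟩ : ∃ F : Finset (ℝ × ℝ × ℝ), F =
      (((G ×ˢ G).filter fun x => 0 ≤ x.1 ∧ x.1 ≤ x.2).image fun x => (x.1, x.2, x.2)) ∪
      (((G ×ˢ G).filter fun x => 0 ≤ x.1 ∧ x.1 ≤ x.2).image fun x => (c * x.1, x.2, x.2)) ∪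
      (((G ×ˢ G).filter fun x => 0 ≤ x.1 ∧ x.1 ≤ x.2).image fun x => (c * x.1, x.2, x.1)) ∪
      (((G ×ˢ G).filter fun x => 0 ≤ x.1 ∧ x.1 ≤ x.2).image fun x => (x.1, x.2, x.1)) := ⟨_, rfl⟩
  have hcp : ∀ p q : ℝ, 0 ≤ p → p ≤ q → c * p ≤ q := by
    intro p q hp hpq
    have : c * p ≤ 1 * p := mul_le_mul_of_nonneg_right hc1.le hp
    linarith
  have hF : ∀ x ∈ F, x.1 ≤ x.2.1 := by
    intro x hxF
    rw [hFe] at hxF
    simp only [Finset.mem_union, Finset.mem_image, Finset.mem_filter] at hxF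
    rcases hxF with ((⟨y, ⟨-, hy0, hy1⟩, rfl⟩ | ⟨y, ⟨-, hy0, hy1⟩, rfl⟩) | ⟨y, ⟨-, hy0, hy1⟩, rfl⟩) | ⟨y, ⟨-, hy0, hy1⟩, rfl⟩
    · exact hy1
    · exact hcp _ _ hy0 hy1
    · exact hcp _ _ hy0 hy1
    · exact hy1
  obtain ⟨η, h0, hη, hh0, hmain⟩ := nm_mq_mix_prof H B0 c a
    (fun al1 al2 be => νL * (min al2 (c * be) - min al1 (c * be)) + ν * (max al2 (c * be) - max al1 (c * be))) hx hz hlim F hF ε hε
  refine ⟨η, h0, hη, hh0, ?_⟩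
  intro h hh hh' a' ha' p hp q hq hp0 hpq hcq
  have hm := hmain h hh hh' a' ha'
  have hpair : (p, q) ∈ (G ×ˢ G).filter fun x : ℝ × ℝ => 0 ≤ x.1 ∧ x.1 ≤ x.2 := by
    simp only [Finset.mem_filter, Finset.mem_product]
    exact ⟨⟨hp, hq⟩, hp0.le, hpq.le⟩
  have m1 : (p, q, q) ∈ F := by
    rw [hFe]
    simp only [Finset.mem_union]
    exact Or.inl (Or.inl (Or.inl (Finset.mem_image.2 ⟨(p, q), hpair, rfl⟩)))
  have m2 : (c * p, q, q) ∈ F := by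
    rw [hFe]
    simp only [Finset.mem_union]
    exact Or.inl (Or.inl (Or.inr (Finset.mem_image.2 ⟨(p, q), hpair, rfl⟩)))
  have m3 : (c * p, q, p) ∈ F := by
    rw [hFe]
    simp only [Finset.mem_union]
    exact Or.inl (Or.inr (Finset.mem_image.2 ⟨(p, q), hpair, rfl⟩))
  have m4 : (p, q, p) ∈ F := by
    rw [hFe]
    simp only [Finset.mem_union]
    exact Or.inr (Finset.mem_image.2 ⟨(p, q), hpair, rfl⟩)
  have c1 : c * q ≤ p := by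
    have e : (1 - c) / c * p * c = (1 - c) * p := by
      field_simp
    have := mul_le_mul_of_nonneg_right hcq hc.le
    rw [e] at this
    linarith
  have c2 : c * p ≤ p := hcp p p hp0.le le_rfl
  have c3 : c * p ≤ c * q := mul_le_mul_of_nonneg_left hpq.le hc.le
  have c4 : c * q ≤ q := c1.trans hpq.le
  have c5 : c * p ≤ q := c2.trans hpq.le
  have r1 := hm _ m1
  have r2 := hm _ m2
  have r3 := hm _ m3
  have r4 := hm _ m4
  simp only at r1 r2 r3 r4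
  rw [min_eq_right c4, min_eq_right c1, max_eq_left c4, max_eq_left c1] at r1
  rw [min_eq_right c4, min_eq_left c3, max_eq_left c4, max_eq_right c3] at r2
  rw [min_eq_right c5, min_self, max_eq_left c5, max_self] at r3
  rw [min_eq_right c5, min_eq_right c2, max_eq_left c5, max_eq_left c2] at r4
  refine ⟨?_, ?_, ?_, ?_⟩
  · have e : νL * (c * q - c * q) + ν * (q - p) = ν * (q - p) := by ring
    rw [e] at r1
    exact r1
  · have e : νL * (c * q - c * p) + ν * (q - c * q) = νL * (c * (q - p)) + ν * (q - c * q) := by ring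
    rw [e] at r2
    exact r2
  · have e : νL * (c * p - c * p) + ν * (q - c * p) = ν * (q - c * p) := by ring
    rw [e] at r3
    exact r3
  · have e : νL * (c * p - c * p) + ν * (q - p) = ν * (q - p) := by ring
    rw [e] at r4
    exact r4

/-- the value at `0` of the graph of a root -/
def NmRt.B00 (r : NmRt) (π : SfPar) : ℝ := if r.σ.lin then -(π.q - π.J) else r.q.ds.b0 - r.q.ds.bs * r.q.ds.De

/-- the graph of a root is affine with slope `c'` (unfold `NmRt.Bg`, `NmRt.c`, `SfPar.b1`, `NmDs.b`; `ring`).      OWNER L-256-NM-MRK-MARKB, EST 25 -/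
theorem nm_mq_Bg (r : NmRt) (π : SfPar) : r.Bg π = fun z => r.B00 π + r.c π * z := by
  funext z
  unfold NmRt.Bg NmRt.B00 NmRt.c SfPar.b1 NmDs.b
  by_cases hl : r.σ.lin = true
  · simp only [hl, if_true]
    ring
  · simp only [hl, if_false, Bool.false_eq_true]
    ring

section seq

variable {π : SfPar} {C0 : ℝ} {κ : ℝ → ℝ} (S : NmSeq π C0 κ)

/-- from the accuracy of `nm_mq_ri` to the accuracy of one layer -/
theorem nm_mq_lay_aux {Ω : Type} [Fintype Ω] (P : FLaw Ω) (f : Ω → ℝ) (Δ i h l e ε' : ℝ) (hl : 0 ≤ l) (hε1 : ε' ≤ e * h / 2) (hε2 : ε' ≤ e)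
    (g : |Δ - i * h| ≤ e / 2 * h) (hp : P.pr (fun ω => ε' * l < |f ω - Δ * l|) ≤ ε') :
    P.pr (fun ω => e * (h * l) < |f ω - i * (h * l)|) ≤ e := by
  refine le_trans (ent_pr_mono P ?_) (hp.trans hε2)
  intro ω _ hω
  have h1 : |f ω - i * (h * l)| ≤ |f ω - Δ * l| + |Δ - i * h| * l := by
    have e1 : f ω - i * (h * l) = (f ω - Δ * l) + (Δ - i * h) * l := by ring
    rw [e1]
    refine (abs_add_le _ _).trans ?_
    rw [abs_mul, abs_of_nonneg hl]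
  have h2 : |Δ - i * h| * l ≤ e / 2 * h * l := mul_le_mul_of_nonneg_right g hl
  have h3 : ε' * l ≤ e * h / 2 * l := mul_le_mul_of_nonneg_right hε1 hl
  have e2 : e * (h * l) = e / 2 * h * l + e * h / 2 * l := by ring
  linarith

theorem nm_mq_lg_rpow {s : ℝ} (h0 : 0 < s) (h : ℝ) : lg (s ^ h) = h * lg s := by
  unfold lg
  rw [one_div, Real.log_inv, Real.log_rpow h0, one_div, Real.log_inv]
  ring

/-- **one layer along a flat sequence**.   `L = lg (s^h) = h * lgs`.   `nm_mq_ri` four times, at `(z, x1, x2) = (q, p, q), (q, c p, q), (p, c p, q), (p, p, q)`, with `ε = min (e h / 2) e`; with `g1 .. g4`: `P (e L < |s(..) - i L|) ≤ e`.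
The first is `mixr`.   `nm_mq_layer` with `θ_p = D.thq π r p`, ..., `r_c = D.rq π r (c p)`, `w = q - p`; nested cells of ONE stored number: `rx_cell_nest`.      OWNER L-256-NM-MRK-MARKB, EST 350 -/
theorem nm_mq_lay_ev (hπ : π.Valid) (Ds : Set ℝ) (hF : S.Flat Ds) (Λ : ℝ) (hΛ : 0 ≤ Λ) (r : NmRt) (hr : r.Ok π Λ) (hD : r.q.ds.De ∈ Ds) (hc : r.c π < 1) (hB : 2 ≤ r.B)
    (hh : 0 < r.h) (p q : ℝ) (hp : 0 < p) (hpq : p < q) (hqR : q ≤ r.Rm) (hqD : r.a + q * r.h < r.q.ds.De) (d ν νL e : ℝ) (hν : 0 ≤ νL ∧ νL ≤ ν) (he : 0 < e)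
    (g1 : |(S.HM r.Vq r.Sd (r.Bg π r.a + q * r.h) (r.a + q * r.h) - S.HM r.Vq r.Sd (r.Bg π r.a + p * r.h) (r.a + q * r.h)) - ν * (q - p) * r.h| ≤ e / 2 * r.h)
    (g2 : |(S.HM r.Vq r.Sd (r.Bg π r.a + q * r.h) (r.a + q * r.h) - S.HM r.Vq r.Sd (r.Bg π r.a + r.c π * p * r.h) (r.a + q * r.h))
      - (νL * (r.c π * (q - p)) + ν * (q - r.c π * q)) * r.h| ≤ e / 2 * r.h)
    (g3 : |(S.HM r.Vq r.Sd (r.Bg π r.a + q * r.h) (r.a + p * r.h) - S.HM r.Vq r.Sd (r.Bg π r.a + r.c π * p * r.h) (r.a + p * r.h))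
      - ν * (q - r.c π * p) * r.h| ≤ e / 2 * r.h)
    (g4 : |(S.HM r.Vq r.Sd (r.Bg π r.a + q * r.h) (r.a + p * r.h) - S.HM r.Vq r.Sd (r.Bg π r.a + p * r.h) (r.a + p * r.h)) - ν * (q - p) * r.h| ≤ e / 2 * r.h) :
    ∀ᶠ n in uf,
      ((S.D n).P 1).pr (fun ω => ((S.D n).P 1).surC ((S.D n).thq π r q)
          (pair ((S.D n).side π r.q r.σ r.a) (pair ((S.D n).thq π r p) ((S.D n).rq π r (r.c π * p)))) ω < (d * (q - p) - e) * lg ((S.D n).s ^ r.h)) ≤ e →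
      ((S.D n).P 1).pr (fun ω => e * lg ((S.D n).s ^ r.h) < |((S.D n).P 1).surC ((S.D n).rq π r q)
          (pair ((S.D n).side π r.q r.σ r.a) (pair ((S.D n).thq π r q) ((S.D n).rq π r p))) ω - ν * (q - p) * lg ((S.D n).s ^ r.h)|) ≤ e ∧
      ((S.D n).P 1).pr (fun ω => ((S.D n).P 1).surC ((S.D n).thq π r q)
          (pair ((S.D n).side π r.q r.σ r.a) (pair ((S.D n).thq π r p) ((S.D n).rq π r q))) ω
            < (max (d - r.c π * ν) 0 * (q - p) - 3 * e) * lg ((S.D n).s ^ r.h)) ≤ 3 * e ∧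
      ((S.D n).P 1).pr (fun ω => ((S.D n).P 1).surC (fun ω => ((S.D n).thq π r q ω, (S.D n).rq π r q ω))
          (pair ((S.D n).side π r.q r.σ r.a) (fun ω => ((S.D n).thq π r p ω, (S.D n).rq π r p ω))) ω
            < (d * (q - p) - 4 * e) * lg ((S.D n).s ^ r.h)) ≤ 4 * e := by
  have hc0 : 0 < r.c π := hr.rate
  have hcp0 : 0 ≤ r.c π * p := (mul_pos hc0 hp).le
  have hcpp : r.c π * p ≤ p := by
    have := mul_le_mul_of_nonneg_right hc.le hp.le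
    linarith
  have hcpq : r.c π * p ≤ q := hcpp.trans hpq.le
  have hpR : p ≤ r.Rm := hpq.le.trans hqR
  have hpD : r.a + p * r.h < r.q.ds.De := by
    have := mul_lt_mul_of_pos_right hpq hh
    linarith
  obtain ⟨ε', hε'⟩ : ∃ ε', ε' = min (e * r.h / 2) e := ⟨_, rfl⟩
  have hε0 : 0 < ε' := by
    rw [hε']
    exact lt_min (by positivity) he
  have hε1 : ε' ≤ e * r.h / 2 := by
    rw [hε']
    exact min_le_left _ _
  have hε2 : ε' ≤ e := by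
    rw [hε']
    exact min_le_right _ _
  filter_upwards [nm_mq_ri S hπ Ds hF Λ hΛ r hr hD hc hB hh q p q (hp.le.trans hpq.le) hqR hqD hp.le hpq.le hqR ε' hε0,
    nm_mq_ri S hπ Ds hF Λ hΛ r hr hD hc hB hh q (r.c π * p) q (hp.le.trans hpq.le) hqR hqD hcp0 hcpq hqR ε' hε0,
    nm_mq_ri S hπ Ds hF Λ hΛ r hr hD hc hB hh p (r.c π * p) q hp.le hpR hpD hcp0 hcpq hqR ε' hε0,
    nm_mq_ri S hπ Ds hF Λ hΛ r hr hD hc hB hh p p q hp.le hpR hpD hp.le hpq.le hqR ε' hε0] with n k1 k2 k3 k4 hT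
  obtain ⟨hs0, hs1⟩ := nm_me_s S n
  have hl : 0 ≤ (S.D n).lgs := (nm_me_lgs_pos S n).le
  have hL : lg ((S.D n).s ^ r.h) = r.h * (S.D n).lgs := nm_mq_lg_rpow hs0 r.h
  have hδ0 : 0 < (S.D n).s ^ r.h := Real.rpow_pos_of_pos hs0 _
  have hδ1 : (S.D n).s ^ r.h < 1 := Real.rpow_lt_one hs0.le hs1 hh
  rw [hL] at hT ⊢
  have j1 := nm_mq_lay_aux _ _ _ _ _ _ e ε' hl hε1 hε2 g1 k1
  have j2 := nm_mq_lay_aux _ _ _ _ _ _ e ε' hl hε1 hε2 g2 k2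
  have j3 := nm_mq_lay_aux _ _ _ _ _ _ e ε' hl hε1 hε2 g3 k3
  have j4 := nm_mq_lay_aux _ _ _ _ _ _ e ε' hl hε1 hε2 g4 k4
  refine ⟨j1, ?_⟩
  exact nm_mq_layer ((S.D n).P 1) ((S.D n).side π r.q r.σ r.a) ((S.D n).thq π r p) ((S.D n).thq π r q) ((S.D n).rq π r (r.c π * p))
    ((S.D n).rq π r p) ((S.D n).rq π r q)
    (fun ω ω' h => rx_cell_nest hδ0 hδ1 hpq.le h) (fun ω ω' h => rx_cell_nest hδ0 hδ1 hcpq h) (fun ω ω' h => rx_cell_nest hδ0 hδ1 hpq.le h)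
    (r.h * (S.D n).lgs) d (r.c π) ν νL (q - p) e (νL * (r.c π * (q - p)) + ν * (q - r.c π * q)) (ν * (q - r.c π * p))
    (mul_nonneg hh.le hl) hν ⟨hc0, hc⟩ (by linarith) he.le (by ring) hT j2 j3 j4

/-- finitely many eventual statements -/
theorem nm_mq_mc_all {G : Finset ℝ} {C : ℝ → ℝ → Prop} {Φ : ℝ → ℝ → ℕ → Prop} (h : ∀ p ∈ G, ∀ q ∈ G, C p q → ∀ᶠ n in uf, Φ p q n) :
    ∀ᶠ n in uf, ∀ p ∈ G, ∀ q ∈ G, C p q → Φ p q n := by
  rw [Filter.eventually_all_finset]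
  intro p hp
  rw [Filter.eventually_all_finset]
  intro q hq
  by_cases hC : C p q
  · exact (h p hp q hq hC).mono fun n hn _ => hn
  · exact Filter.Eventually.of_forall fun n hC' => absurd hC' hC

/-- `log (1/δ) ≥ 0` at the scale `δ = s^h` -/
theorem nm_mq_mc_L (n : ℕ) {h : ℝ} (hh : 0 < h) : 0 ≤ lg ((S.D n).s ^ h) := by
  obtain ⟨h0, h1⟩ := nm_me_s S n
  unfold lg
  exact Real.log_nonneg (one_le_one_div (Real.rpow_pos_of_pos h0 _) (Real.rpow_le_one h0.le h1.le hh.le))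

/-- the time clause along the sequence -/
theorem nm_mq_mc_time (hπ : π.Valid) (hX : S.HasX) : ∃ Λ₁ : ℝ, ∀ r0 : NmRt, 2 ≤ r0.B → ∀ pk : ItPk, pk.Ok → ∀ e : ℝ, 0 < e → ∀ Rm h a' v' : ℝ,
    NmRt.Ok { r0 with a := a', v := v' } π Λ₁ → (r0.σ.exact = true → r0.σ.lin = false → r0.σ.xs < S.pst r0.q.ds a') →
    NmRt.Fits { r0 with a := a', v := v', h := h, Rm := Rm } π pk → ∀ᶠ n in uf, ∀ (dsp : ℝ → NmNm → NmNm → ItDsp) (p : ItPar), p.c = r0.c π → p.d = π.d →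
      NmTime (nmTan (S.D n) π { r0 with a := a', v := v', h := h, Rm := Rm } dsp) p pk e := by
  obtain ⟨Λ₁, H⟩ := nm_mk_tan_time π hπ C0 1 (κ 1)
  refine ⟨Λ₁, fun r0 hB pk hpk e he Rm h a' v' hOk hxs hFits => ?_⟩
  have hOk' : NmRt.Ok { r0 with a := a', v := v', Rm := Rm } π Λ₁ :=
    ⟨hOk.q, hOk.g0, hOk.ha, hOk.hv, hOk.rate, hOk.hyb, hOk.brq, hOk.brl, hOk.anc, hOk.cq, hOk.eq⟩
  obtain ⟨e0, he0, t0, ht0, H2⟩ := H { r0 with a := a', v := v', Rm := Rm } hOk' hB pk hpk h hFits e he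
  filter_upwards [nm_me_fine_ev S 1 one_pos t0 ht0, nm_me_t_small S t0 ht0, nm_mq_pclist S { r0 with a := a', v := v', Rm := Rm } hxs e0 he0] with n h1 h2 h3 dsp p hc hd
  exact H2 (S.D n) h1 (nm_me_x_mono (nm_me_s S n) h2 (hX n)) h3 dsp p hc hd

/-- the clause `time` with a larger error -/
theorem nm_mq_mc_time_mono {T : Tan} {a : ItPar} {pk : ItPk} {e acc : ℝ} (hL : 0 ≤ T.L) (hea : e ≤ acc) (h : NmTime T a pk e) :
    ∀ p ∈ pk.G, ∀ q ∈ pk.G, p < q →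
      T.P.pr (fun ω => T.P.surC (T.thn 0 q) (pair T.Zs (pair (T.thn 0 p) (T.rn 0 (T.rdep a p)))) ω < (a.d * (q - p) - acc) * T.L) ≤ acc := by
  intro p hp q hq hpq
  refine le_trans (ent_pr_mono _ ?_) ((h p hp q hq hpq).trans hea)
  intro ω _ hω
  exact lt_of_lt_of_le hω (mul_le_mul_of_nonneg_right (by linarith) hL)

/-- **Y6 (marks), PORT FORM** (v2, 23:10Z): `nm_tan_marks` of `Nm/Contract.lean` + hypothesis `hHM` (= `nm_HM_basic S hπ`), with the cut-off depth `Rm` of the stored marks quantified AFTER the null set, `κ1`, `η`, `h0` (none of them reads `Rm`).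
PLAN.  `Λ := max Λ₁ 0`, `Λ₁` of `nm_mk_tan_time π hπ C0 1 (κ 1)` (`NmRt.Ok.mono`);  `B1 := 2`.
A.E. SET: if `r0.q.Fam π`, `0 < c' := r0.c π < 1`: the set of `nm_mq_prof_ae (S.HM r0.Vq r0.Sd) (r0.B00 π) c'` (`hHM` with `ds = r0.q.ds`, `V = r0.Vq` = `NmAt.Pc ds` or `NmAt.bc ds` by `funext`);  otherwise all `a` (no `Fam`: `NmRt.Ok` is impossible; `c' ≥ 1`: the three mixed clauses are void since `p.c = c'`).
`κ1 := (1 - c') / c'` if `c' < 1`, else `1`.   Given `tl, pk, acc`: `e := acc / 4`, `(η, h0)` := the a.e. statement with `G = pk.G`, `ε = e / 2`  (`c' ≥ 1`: `η = h0 = 1`).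
Given `Rm, h, a', v'`: `r := { r0 with a := a', v := v', h := h, Rm := Rm }` (`Vq`, `Sd`, `c`, `B00` do not read `a, v, h, Rm`: `rfl`; `NmRt.Ok` does not read `h, Rm`: rebuild it field by field as in `nm_mk_tan_time`; `nm_mq_Bg`).   EVENTUALLY IN `n`:
 (T) `nm_mk_tan_time` at `{ r0 with a := a', v := v', Rm := Rm }`, `pk`, `h`, accuracy `e`: `(e0, t0)`; `nm_me_fine_ev`, `nm_me_x_mono` (`hX`), `nm_mq_pclist` ⇒ `NmTime .. e`, hence `time` with `acc` (monotone: `ent_pr_mono`, `T.L ≥ 0`).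
 (M) for all `p, q ∈ pk.G` with `0 < p < q`, `q - p ≤ κ1 p` (`Filter.eventually_all_finset` twice): `nm_mq_lay_ev` with `d = π.d`, `ν = p.ν`;  `q ≤ K < RQ ≤ Rm / 2`, `a' + q h < De` (`Fits`).
Then `mixr`: `e L ≤ (tl (q-p) + acc) L`;  `mixt`: `(max .. - tl)(q-p) - acc ≤ max .. (q-p) - 3e`;  `joint`: `(d - tl)(q-p) - acc ≤ d (q-p) - 4e`;  probabilities `≤ 4e = acc`.   `T.rdep p' p = c' p` (`min 1 c' = c'`), `T.xin`, `T.thn`, `T.rn` by `rfl`.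
OWNER L-256-NM-MRK-MARKC, EST 450 -/
theorem nm_mq_tan_marks_p (hπ : π.Valid) (hX : S.HasX) (Ds : Set ℝ) (hF : S.Flat Ds)
    (hHM : ∀ ds : NmDs, ((∃ q : NmQ, q.Fam π ∧ q.ds = ds) ∨ ds = nmDsEq π) → ∀ V : ℝ → NmAt, (V = NmAt.Pc ds ∨ V = NmAt.bc ds) → ∀ Sd : List NmAt,
      (∀ z x x' : ℝ, x ≤ x' → 0 ≤ S.HM V Sd x' z - S.HM V Sd x z ∧ S.HM V Sd x' z - S.HM V Sd x z ≤ x' - x) ∧
      (∀ z z' x x' : ℝ, z ≤ z' → x ≤ x' → S.HM V Sd x' z' - S.HM V Sd x z' ≤ S.HM V Sd x' z - S.HM V Sd x z) ∧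
      ∀ x z z' : ℝ, |S.HM V Sd x z - S.HM V Sd x z'| ≤ |z - z'|) :
    ∃ Λ B1 : ℝ, ∀ r0 : NmRt, r0.q.ds.De ∈ Ds → B1 ≤ r0.B → ∀ᵐ a : ℝ,
    0 < r0.c π → ∃ κ1 : ℝ, 0 < κ1 ∧ ∀ tl : ℝ, 0 < tl → ∀ pk : ItPk, pk.Ok → ∀ acc : ℝ, 0 < acc → ∃ η h0 : ℝ, 0 < η ∧ 0 < h0 ∧ ∀ Rm h : ℝ, 0 < h → h ≤ h0 →
      ∀ a' v' : ℝ, |a' - a| ≤ η * h → NmRt.Ok { r0 with a := a', v := v' } π Λ → (r0.σ.exact = true → r0.σ.lin = false → r0.σ.xs < S.pst r0.q.ds a') →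
      NmRt.Fits { r0 with a := a', v := v', h := h, Rm := Rm } π pk → ∀ᶠ n in uf,
      ∀ (dsp : ℝ → NmNm → NmNm → ItDsp) (p : ItPar),
        NmRt.Reg r0 π (r0.B + 1) p → p.ν = nmNu (S.HM r0.Vq r0.Sd) (r0.Bg π) a →
        (nmTan (S.D n) π { r0 with a := a', v := v', h := h, Rm := Rm } dsp).AdmM p pk tl κ1 acc := by
  obtain ⟨Λ₁, HT⟩ := nm_mq_mc_time S hπ hX
  refine ⟨max Λ₁ 0, 2, fun r0 hDe hB => ?_⟩
  have hΛ : (0 : ℝ) ≤ max Λ₁ 0 := le_max_right _ _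
  by_cases hcase : r0.q.Fam π ∧ 0 < r0.c π ∧ r0.c π < 1
  · -- the mixed regime
    obtain ⟨hFam, hc0', hc1⟩ := hcase
    have hV : r0.Vq = NmAt.Pc r0.q.ds ∨ r0.Vq = NmAt.bc r0.q.ds := by
      unfold NmRt.Vq
      cases r0.σ.lin
      · right; funext x; simp
      · left; funext x; simp
    obtain ⟨hx, hzz, hz⟩ := hHM r0.q.ds (Or.inl ⟨r0.q, hFam, rfl⟩) r0.Vq hV r0.Sd
    filter_upwards [nm_mq_prof_ae (S.HM r0.Vq r0.Sd) (r0.B00 π) (r0.c π) hc0' hc1 hx hzz hz] with a ha hc0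
    obtain ⟨νL, hνL0, hνL1, hprof⟩ := ha
    refine ⟨(1 - r0.c π) / r0.c π, div_pos (by linarith) hc0, fun tl htl pk hpk acc hacc => ?_⟩
    have he : 0 < acc / 4 := by positivity
    obtain ⟨η, h0, hη, hh0, hP⟩ := hprof pk.G (acc / 4 / 2) (by positivity)
    refine ⟨η, h0, hη, hh0, fun Rm h hh hhh0 a' v' haa hOk hxs hFits => ?_⟩
    have hrOk : NmRt.Ok { r0 with a := a', v := v', h := h, Rm := Rm } π (max Λ₁ 0) :=
      ⟨hOk.q, hOk.g0, hOk.ha, hOk.hv, hOk.rate, hOk.hyb, hOk.brq, hOk.brl, hOk.anc, hOk.cq, hOk.eq⟩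
    have hBa : NmRt.Bg { r0 with a := a', v := v', h := h, Rm := Rm } π a' = r0.B00 π + r0.c π * a' := congrFun (nm_mq_Bg r0 π) a'
    obtain ⟨_, hFG, _, _, hRm, _⟩ := hFits
    obtain ⟨_, hK0, hKR, _, _, _, hGK⟩ := hpk
    have htime := HT r0 hB pk ⟨‹_›, hK0, hKR, ‹_›, ‹_›, ‹_›, hGK⟩ (acc / 4) he Rm h a' v' (hOk.mono hπ (le_max_left _ _)) hxs ⟨‹_›, hFG, ‹_›, ‹_›, hRm, ‹_›⟩
    have hlay := nm_mq_mc_all (G := pk.G) (C := fun p q => 0 < p ∧ p < q ∧ q - p ≤ (1 - r0.c π) / r0.c π * p) (fun p hp q hq hC => by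
      obtain ⟨hp0, hpq, hκ⟩ := hC
      obtain ⟨g1, g2, g3, g4⟩ := hP h hh hhh0 a' haa p hp q hq hp0 hpq hκ
      have hqR : q ≤ Rm := by
        have := (hGK q hq).2
        have hRm' : 2 * pk.RQ ≤ Rm := hRm
        linarith
      exact nm_mq_lay_ev S hπ Ds hF (max Λ₁ 0) hΛ { r0 with a := a', v := v', h := h, Rm := Rm } hrOk hDe hc1 hB hh p q hp0 hpq hqR (hFG q hq) π.d
        (nmNu (S.HM r0.Vq r0.Sd) (fun z => r0.B00 π + r0.c π * z) a) νL (acc / 4) ⟨hνL0, hνL1⟩ he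
        (by rw [hBa]; exact g1) (by rw [hBa]; exact g2) (by rw [hBa]; exact g3) (by rw [hBa]; exact g4))
    filter_upwards [htime, hlay] with n hT hLy dsp pp hReg hν
    have hL : 0 ≤ (nmTan (S.D n) π { r0 with a := a', v := v', h := h, Rm := Rm } dsp).L := nm_mq_mc_L S n hh
    have hTime := hT dsp pp hReg.1 hReg.2.1
    rw [nm_mq_Bg r0 π] at hν
    have hdep : ∀ p, (nmTan (S.D n) π { r0 with a := a', v := v', h := h, Rm := Rm } dsp).rdep pp p = r0.c π * p := by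
      intro p
      unfold Tan.rdep
      rw [hReg.1, min_eq_right hc1.le, ite_self]
    have key : ∀ p ∈ pk.G, ∀ q ∈ pk.G, 0 < p → p < q → q - p ≤ (1 - r0.c π) / r0.c π * p → _ := fun p hp q hq hp0 hpq hκ =>
      hLy p hp q hq ⟨hp0, hpq, hκ⟩ (by
        have h1 := hTime p hp q hq hpq
        rw [hdep, hReg.2.1] at h1
        exact h1)
    refine ⟨nm_mq_mc_time_mono hL (by linarith) hTime, ?_, ?_, ?_⟩
    · intro _ p hp q hq hp0 hpq hκ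
      obtain ⟨-, -, m3⟩ := key p hp q hq hp0 hpq hκ
      refine le_trans (ent_pr_mono _ ?_) (m3.trans (by linarith))
      intro ω _ hω
      refine lt_of_lt_of_le hω (mul_le_mul_of_nonneg_right ?_ hL)
      rw [hReg.2.1]
      nlinarith [mul_pos htl (sub_pos.2 hpq)]
    · intro _ p hp q hq hp0 hpq hκ
      obtain ⟨m1, -, -⟩ := key p hp q hq hp0 hpq hκ
      refine le_trans (ent_pr_mono _ ?_) (m1.trans (by linarith))
      intro ω _ hω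
      rw [hν] at hω
      refine lt_of_le_of_lt (mul_le_mul_of_nonneg_right ?_ hL) hω
      nlinarith [mul_pos htl (sub_pos.2 hpq)]
    · intro _ p hp q hq hp0 hpq hκ
      obtain ⟨-, m2, -⟩ := key p hp q hq hp0 hpq hκ
      refine le_trans (ent_pr_mono _ ?_) (m2.trans (by linarith))
      intro ω _ hω
      rw [hν, hReg.1, hReg.2.1] at hω
      refine lt_of_lt_of_le hω (mul_le_mul_of_nonneg_right ?_ hL)
      have hM : ∀ M : ℝ, (M - tl) * (q - p) - acc ≤ M * (q - p) - 3 * (acc / 4) := by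
        intro M
        nlinarith [mul_pos htl (sub_pos.2 hpq)]
      exact hM _
  · -- no mixed clause
    refine Filter.Eventually.of_forall fun a hc0 => ⟨1, one_pos, fun tl htl pk hpk acc hacc => ⟨1, 1, one_pos, one_pos, fun Rm h hh _ a' v' _ hOk hxs hFits => ?_⟩⟩
    have hge : ¬ r0.c π < 1 := fun hc1 => hcase ⟨hOk.q, hc0, hc1⟩
    filter_upwards [HT r0 hB pk hpk acc hacc Rm h a' v' (hOk.mono hπ (le_max_left _ _)) hxs hFits] with n hT dsp pp hReg hν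
    have hL : 0 ≤ (nmTan (S.D n) π { r0 with a := a', v := v', h := h, Rm := Rm } dsp).L := nm_mq_mc_L S n hh
    have hno : ¬ pp.c < 1 := by rw [hReg.1]; exact hge
    exact ⟨nm_mq_mc_time_mono hL le_rfl (hT dsp pp hReg.1 hReg.2.1), fun h1 => absurd h1 hno, fun h1 => absurd h1 hno, fun h1 => absurd h1 hno⟩


/-- **Y6 (marks)** = `nm_tan_marks` of `Nm/Contract.lean` + hypothesis `hHM` (= `nm_HM_basic S hπ`): the case `Rm = r0.Rm` of `nm_mq_tan_marks_p` -/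
theorem nm_mq_tan_marks (hπ : π.Valid) (hX : S.HasX) (Ds : Set ℝ) (hF : S.Flat Ds)
    (hHM : ∀ ds : NmDs, ((∃ q : NmQ, q.Fam π ∧ q.ds = ds) ∨ ds = nmDsEq π) → ∀ V : ℝ → NmAt, (V = NmAt.Pc ds ∨ V = NmAt.bc ds) → ∀ Sd : List NmAt,
      (∀ z x x' : ℝ, x ≤ x' → 0 ≤ S.HM V Sd x' z - S.HM V Sd x z ∧ S.HM V Sd x' z - S.HM V Sd x z ≤ x' - x) ∧
      (∀ z z' x x' : ℝ, z ≤ z' → x ≤ x' → S.HM V Sd x' z' - S.HM V Sd x z' ≤ S.HM V Sd x' z - S.HM V Sd x z) ∧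
      ∀ x z z' : ℝ, |S.HM V Sd x z - S.HM V Sd x z'| ≤ |z - z'|) :
    ∃ Λ B1 : ℝ, ∀ r0 : NmRt, r0.q.ds.De ∈ Ds → B1 ≤ r0.B → ∀ᵐ a : ℝ,
    0 < r0.c π → ∃ κ1 : ℝ, 0 < κ1 ∧ ∀ tl : ℝ, 0 < tl → ∀ pk : ItPk, pk.Ok → ∀ acc : ℝ, 0 < acc → ∃ η h0 : ℝ, 0 < η ∧ 0 < h0 ∧ ∀ h : ℝ, 0 < h → h ≤ h0 →
      ∀ a' v' : ℝ, |a' - a| ≤ η * h → NmRt.Ok { r0 with a := a', v := v' } π Λ → (r0.σ.exact = true → r0.σ.lin = false → r0.σ.xs < S.pst r0.q.ds a') →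
      NmRt.Fits { r0 with a := a', v := v', h := h } π pk → ∀ᶠ n in uf,
      ∀ (dsp : ℝ → NmNm → NmNm → ItDsp) (p : ItPar),
        NmRt.Reg r0 π (r0.B + 1) p → p.ν = nmNu (S.HM r0.Vq r0.Sd) (r0.Bg π) a →
        (nmTan (S.D n) π { r0 with a := a', v := v', h := h } dsp).AdmM p pk tl κ1 acc := by
  obtain ⟨Λ, B1, H⟩ := nm_mq_tan_marks_p S hπ hX Ds hF hHM
  refine ⟨Λ, B1, fun r0 hD hB => ?_⟩
  filter_upwards [H r0 hD hB] with a Ha hc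
  obtain ⟨κ1, hκ1, H1⟩ := Ha hc
  refine ⟨κ1, hκ1, fun tl htl pk hpk acc hacc => ?_⟩
  obtain ⟨η, h0, hη, hh0, H2⟩ := H1 tl htl pk hpk acc hacc
  exact ⟨η, h0, hη, hh0, fun h hh hh1 a' v' ha hOk hx hFit => H2 r0.Rm h hh hh1 a' v' ha hOk hx hFit⟩

/-- **PORT P3** of `Lay/Patch.lean` (`lay_port_marks`) + hypothesis `hHM` (= `nm_HM_basic S hπ`): `κ1` and the null set before the package and the cut-off depth `Rm` -/
theorem nm_mq_port_marks (hπ : π.Valid) (hX : S.HasX) (Ds : Set ℝ) (hF : S.Flat Ds)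
    (hHM : ∀ ds : NmDs, ((∃ q : NmQ, q.Fam π ∧ q.ds = ds) ∨ ds = nmDsEq π) → ∀ V : ℝ → NmAt, (V = NmAt.Pc ds ∨ V = NmAt.bc ds) → ∀ Sd : List NmAt,
      (∀ z x x' : ℝ, x ≤ x' → 0 ≤ S.HM V Sd x' z - S.HM V Sd x z ∧ S.HM V Sd x' z - S.HM V Sd x z ≤ x' - x) ∧
      (∀ z z' x x' : ℝ, z ≤ z' → x ≤ x' → S.HM V Sd x' z' - S.HM V Sd x z' ≤ S.HM V Sd x' z - S.HM V Sd x z) ∧
      ∀ x z z' : ℝ, |S.HM V Sd x z - S.HM V Sd x z'| ≤ |z - z'|) :
    ∃ Λ B1 : ℝ, ∀ r0 : NmRt, r0.q.ds.De ∈ Ds → B1 ≤ r0.B → ∀ᵐ a : ℝ,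
    0 < r0.c π → ∀ tl : ℝ, 0 < tl → ∃ κ1 : ℝ, 0 < κ1 ∧ ∀ pk : ItPk, pk.Ok → ∀ acc : ℝ, 0 < acc → ∀ Rm : ℝ, ∃ η h0 : ℝ, 0 < η ∧ 0 < h0 ∧
      ∀ h : ℝ, 0 < h → h ≤ h0 →
      ∀ a' v' : ℝ, |a' - a| ≤ η * h → NmRt.Ok { r0 with a := a', v := v' } π Λ → (r0.σ.exact = true → r0.σ.lin = false → r0.σ.xs < S.pst r0.q.ds a') →
      NmRt.Fits { r0 with a := a', v := v', h := h, Rm := Rm } π pk → ∀ᶠ n in uf,
      ∀ (dsp : ℝ → NmNm → NmNm → ItDsp) (p : ItPar),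
        NmRt.Reg r0 π (r0.B + 1) p → p.ν = nmNu (S.HM r0.Vq r0.Sd) (r0.Bg π) a →
        (nmTan (S.D n) π { r0 with a := a', v := v', h := h, Rm := Rm } dsp).AdmM p pk tl κ1 acc := by
  obtain ⟨Λ, B1, H⟩ := nm_mq_tan_marks_p S hπ hX Ds hF hHM
  refine ⟨Λ, B1, fun r0 hD hB => ?_⟩
  filter_upwards [H r0 hD hB] with a Ha hc tl htl
  obtain ⟨κ1, hκ1, H1⟩ := Ha hc
  refine ⟨κ1, hκ1, fun pk hpk acc hacc Rm => ?_⟩
  obtain ⟨η, h0, hη, hh0, H2⟩ := H1 tl htl pk hpk acc hacc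
  exact ⟨η, h0, hη, hh0, fun h hh hh1 a' v' ha hOk hx hFit => H2 Rm h hh hh1 a' v' ha hOk hx hFit⟩

end seq

theorem nm_mq_marks_eqns_cite : True := by
  have := @NmRt.B00.eq_1
  trivial

end

end Claimed.Agent.R256
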