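import Claimed.Agent.R256.Nm.Mrk.Row
import Claimed.Agent.R256.Nm.Mrk.Tr
import Claimed.Agent.R256.Nm.Mem.Gate

/-!
# Row 256 (S0496), unit NM, block MRK, file 7: THE DICTIONARY marks ↔ atomic queries, rate `c' < 1`      (architect helper219; prefix `nm_mq_`)

(04-canonical-names.tex l.709-714: "use Lemma names:mixed-trace with `V_* = β^◇, B = b` for constant quadratic cuts, or with the raw slope and `B = b_1` in a linear branch.  The side is the specified static side.  Its additional root data have zero exponent beyond `S, t_a, [V_*]_{B(a)}`";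
l.727-728 "Known shifts of bin origins ... cost small lists only".)
Root `r`, `r.Ok π Λ`, `r.c π < 1`, `δ = s^h`, `B = r.Bg π r.a`.      THREE CASES (`nm_mq_cases`):
 (Q)  `lin = false`: family EQ, `c2 < 1`, `ds = nmDsEq π`: cut `const`, no global bin, `De = 1`;   `R_a = nmRep s B β`, `k_a = 0`, `r = (β - nmRep s B β) / s^B`.
 (L1) `lin = true`, `tp = plin`: family LIN, `ds = nmDsLin`: cut `none`, `R_a = k_a = 0`, `L^raw = P`, `r = (P - nmRep s B P) / s^B`.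
 (L2) `lin = true`, `tp = clip`, exact side (classical): `L^raw = P + sh`, `sh = - 2 R_a X + 2 k_a B_{t_a}` is a FUNCTION OF THE SIDE (`y_0 = (idx, ray)` is an entry of an exact side).
Observations: `D.thq π r z = θ_z`, `D.rq π r x = r_x` (cells of the STORED marks = `T.thn 0 z`, `T.rn 0 x` of `nmTan`, by `rfl`), `D.vq π r x = [V_*]_x`.
LISTS (all on the support, `G = True`):
 `nm_mq_th1`, `nm_mq_th2` : `θ_z ↔ t_{a + z h}` given `Z`;      `nm_mq_r1`, `nm_mq_r2` : `r_x ↔ [V_*]_{B + x h}` given `Z`;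
 `nm_mq_Z2` : `Z` lists `(t_a, [V_*]_B, S)`;      `nm_mq_Z1` : `(t_a, [V_*]_B, S)` lists `Z` (Type A; in the case (L2) this is OWNERSHIP: `nm_mq_own`).
`nm_mq_dic_gen` (abstract calculus of lists) + `nm_mk_transfer2` ⇒ `nm_mq_ri_fin`.
-/

set_option autoImplicit false

namespace Claimed.Agent.R256

open Claimed.Agent.R255
open Claimed.Agent.R255.FLaw (pair)
open Classical

noncomputable section

/-- `θ_z` : the cell of depth `z` of the stored time mark -/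
def SfDoc.thq (D : SfDoc) (π : SfPar) (r : NmRt) (z : ℝ) : D.Row 1 → ℤ := fun ω => tcell (D.s ^ r.h) z (D.smk π r ω).th

/-- `r_x` : the cell of depth `x` of the stored second mark -/
def SfDoc.rq (D : SfDoc) (π : SfPar) (r : NmRt) (x : ℝ) : D.Row 1 → ℤ := fun ω => tcell (D.s ^ r.h) x (D.smk π r ω).r

/-- the scalar `V_*` of the mixed trace -/
def SfDoc.vs (D : SfDoc) (π : SfPar) (r : NmRt) : D.Row 1 → ℝ := fun ω => if r.σ.lin then (D.raw π r.q.ds ω).P else (D.raw π r.q.ds ω).be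

/-- `[V_*]_x` -/
def SfDoc.vq (D : SfDoc) (π : SfPar) (r : NmRt) (x : ℝ) : D.Row 1 → ℤ := fun ω => nmCell D.s x (D.vs π r ω)

/-- the three cases.   `lin = false`: `brq` gives `tp ≠ plin`; `Fam`: LIN is excluded, ST has `bs = 1`, EQ has `bs = c2`, so `c2 < 1` and `nmDsEq π = ⟨const, false, 1, 0, c2⟩`.   `lin = true`: `brl`; `tp = plin` forces the family LIN.      OWNER L-256-NM-MRK-DICA, EST 90 -/
theorem nm_mq_cases {π : SfPar} {Λ : ℝ} {r : NmRt} (hr : r.Ok π Λ) (hc : r.c π < 1) :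
    (r.σ.lin = false ∧ r.q.ds.cut = NmCut.const ∧ r.q.ds.glob = false ∧ r.q.ds.De = 1) ∨
    (r.σ.lin = true ∧ r.q.ds.cut = NmCut.none ∧ r.q.ds.glob = false ∧ r.q.ds.De = 1) ∨
    (r.σ.lin = true ∧ r.σ.exact = true ∧ π.hyb = false ∧ r.q.ds.cut ≠ NmCut.none) := by
  obtain ⟨-, -, hfam⟩ := hr.q
  cases hl : r.σ.lin with
  | false =>
    left
    have hbs : r.q.ds.bs < 1 := by
      have e : r.c π = r.q.ds.bs := by
        unfold NmRt.c
        rw [hl]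
        rfl
      rwa [e] at hc
    have htp := (hr.brq hl).1
    rcases hfam with ⟨_, _, hds, _⟩ | ⟨_, _, _, htp'⟩ | ⟨_, _, _, De, _, _, _, hds⟩
    · rw [hds] at hbs ⊢
      have hc2 : ¬ 1 < π.c2 := not_lt.2 (le_of_lt hbs)
      refine ⟨rfl, ?_, rfl, rfl⟩
      show (if 1 < π.c2 then NmCut.slope else NmCut.const) = NmCut.const
      rw [if_neg hc2]
    · exact absurd htp' htp
    · rw [hds] at hbs
      exact absurd hbs (lt_irrefl 1)
  | true =>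
    right
    rcases hr.brl hl with htp | ⟨hex, htp, -⟩
    · left
      rcases hfam with ⟨_, _, _, htp'⟩ | ⟨_, _, hds, _⟩ | ⟨_, _, htp', _⟩
      · exact absurd htp htp'
      · rw [hds]
        exact ⟨rfl, rfl, rfl, rfl⟩
      · exact absurd htp htp'
    · right
      refine ⟨rfl, hex, ?_, ?_⟩
      · cases hh : π.hyb with
        | false => rfl
        | true =>
          have := (hr.hyb hh).1
          rw [hex] at this
          exact Bool.noConfusion this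
      · rcases hfam with ⟨_, _, hds, _⟩ | ⟨_, _, _, htp'⟩ | ⟨_, _, _, De, _, _, _, hds⟩
        · rw [hds]
          show (if 1 < π.c2 then NmCut.slope else NmCut.const) ≠ NmCut.none
          split_ifs
          · exact fun h => NmCut.noConfusion h
          · exact fun h => NmCut.noConfusion h
        · rw [htp] at htp'
          exact NmTp.noConfusion htp'
        · rw [hds]
          exact fun h => NmCut.noConfusion h

/-- **the second mark in terms of `V_*`**: there is a shift `sh`, a function of the side, with `r = (W - nmRep s B W) / s^B`, `W = V_* + sh (Z)`, and `nmCell s B W` is an entry of the side (`g`).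
(Q), (L1): `sh = 0`, `g z = z.2.2.1` (`R`-entry), resp. `z.2.2.2.2` (`L`-entry).   (L2): `sh z = - 2 R X + 2 k (B + t X)` with `(X, B)` read from `z.1.1 = some (idx, ray)`, `R = nmVal s (b a) z.2.2.1`, `k = nmVal s (b a - a) z.2.2.2.1`, `t = nmVal s a z.2.1.2.2`.      OWNER L-256-NM-MRK-DICA, EST 200 -/
theorem nm_mq_shift (D : SfDoc) {π : SfPar} {Λ : ℝ} {r : NmRt} (hr : r.Ok π Λ) (hc : r.c π < 1) :
    ∃ (sh : NmZv D.Idx → ℝ) (g : NmZv D.Idx → ℤ), ∀ ω : D.Row 1,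
      ((D.raw π r.q.ds ω).mark D.s π r.q r.a (!r.σ.lin)).r
        = (D.vs π r ω + sh (D.side π r.q r.σ r.a ω) - nmRep D.s (r.Bg π r.a) (D.vs π r ω + sh (D.side π r.q r.σ r.a ω))) / D.s ^ (r.Bg π r.a) ∧
      nmCell D.s (r.Bg π r.a) (D.vs π r ω + sh (D.side π r.q r.σ r.a ω)) = g (D.side π r.q r.σ r.a ω) := by
  rcases nm_mq_cases hr hc with ⟨hl, hcut, -, -⟩ | ⟨hl, hcut, -, -⟩ | ⟨hl, hex, -, -⟩
  · -- (Q)
    refine ⟨fun _ => 0, fun z => z.2.2.1, fun ω => ?_⟩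
    have hne : r.q.ds.cut ≠ NmCut.slope := by
      rw [hcut]
      exact fun h => NmCut.noConfusion h
    have hka : (D.raw π r.q.ds ω).ka D.s r.q r.a = 0 := by
      unfold NmRaw.ka
      rw [nm_mk_aux_kc _ r.q hne, nm_rep_zero]
    have hRr : (D.raw π r.q.ds ω).Rraw D.s r.q r.a = (D.raw π r.q.ds ω).be := nm_mk_aux_Rc _ D.s r.q r.a hcut
    have hvs : D.vs π r ω = (D.raw π r.q.ds ω).be := by
      unfold SfDoc.vs
      rw [hl]
      rfl
    have hBg : r.Bg π r.a = r.q.ds.b r.a := by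
      unfold NmRt.Bg
      rw [hl]
      rfl
    have hm : ((D.raw π r.q.ds ω).mark D.s π r.q r.a (!r.σ.lin)).r
        = ((D.raw π r.q.ds ω).be - ((D.raw π r.q.ds ω).Ra D.s r.q r.a
          + ((D.raw π r.q.ds ω).Te - (D.raw π r.q.ds ω).ta D.s r.a) * (D.raw π r.q.ds ω).ka D.s r.q r.a)) / D.s ^ (r.q.ds.b r.a) := by
      rw [hl]
      rfl
    rw [hm, hvs, hBg, add_zero, hka, mul_zero, add_zero]
    constructor
    · unfold NmRaw.Ra
      rw [hRr]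
    · show nmCell D.s (r.q.ds.b r.a) (D.raw π r.q.ds ω).be = (D.raw π r.q.ds ω).Rc D.s r.q r.a
      unfold NmRaw.Rc
      rw [hRr]
  · -- (L1)
    refine ⟨fun _ => 0, fun z => z.2.2.2.2, fun ω => ?_⟩
    have hne : r.q.ds.cut ≠ NmCut.slope := by
      rw [hcut]
      exact fun h => NmCut.noConfusion h
    have hka : (D.raw π r.q.ds ω).ka D.s r.q r.a = 0 := by
      unfold NmRaw.ka
      rw [nm_mk_aux_kc _ r.q hne, nm_rep_zero]
    have hRa : (D.raw π r.q.ds ω).Ra D.s r.q r.a = 0 := by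
      unfold NmRaw.Ra
      rw [nm_mk_aux_Rn _ D.s r.q r.a hcut, nm_rep_zero]
    have hL : (D.raw π r.q.ds ω).Lraw D.s r.q r.a = (D.raw π r.q.ds ω).P := by
      unfold NmRaw.Lraw
      rw [hRa, hka]
      ring
    have hvs : D.vs π r ω = (D.raw π r.q.ds ω).P := by
      unfold SfDoc.vs
      rw [hl]
      rfl
    have hBg : r.Bg π r.a = π.b1 r.a := by
      unfold NmRt.Bg
      rw [hl]
      rfl
    have hm : ((D.raw π r.q.ds ω).mark D.s π r.q r.a (!r.σ.lin)).r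
        = ((D.raw π r.q.ds ω).Lraw D.s r.q r.a - nmRep D.s (π.b1 r.a) ((D.raw π r.q.ds ω).Lraw D.s r.q r.a)) / D.s ^ (π.b1 r.a) := by
      rw [hl]
      rfl
    have hg : (D.side π r.q r.σ r.a ω).2.2.2.2 = nmCell D.s (π.b1 r.a) ((D.raw π r.q.ds ω).Lraw D.s r.q r.a) := by
      show (if r.σ.lin then nmCell D.s (π.b1 r.a) ((D.raw π r.q.ds ω).Lraw D.s r.q r.a) else 0) = _
      rw [hl]
      rfl
    rw [hm, hvs, hBg, add_zero, hL]
    refine ⟨rfl, ?_⟩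
    show _ = (D.side π r.q r.σ r.a ω).2.2.2.2
    rw [hg, hL]
  · -- (L2)
    refine ⟨fun z => z.1.1.elim 0 (fun y => -2 * nmVal D.s (r.q.ds.b r.a) z.2.2.1 * y.2.X
      + 2 * nmVal D.s (r.q.ds.b r.a - r.a) z.2.2.2.1 * (y.2.B + nmVal D.s r.a z.2.1.2.2 * y.2.X)), fun z => z.2.2.2.2, fun ω => ?_⟩
    have hZ1 : (D.side π r.q r.σ r.a ω).1.1 = some (D.y0 ω) := by
      show (if r.σ.exact then some (D.y0 ω) else none) = _
      rw [hex]
      rfl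
    have hsh : (D.side π r.q r.σ r.a ω).1.1.elim 0 (fun y => -2 * nmVal D.s (r.q.ds.b r.a) (D.side π r.q r.σ r.a ω).2.2.1 * y.2.X
        + 2 * nmVal D.s (r.q.ds.b r.a - r.a) (D.side π r.q r.σ r.a ω).2.2.2.1
          * (y.2.B + nmVal D.s r.a (D.side π r.q r.σ r.a ω).2.1.2.2 * y.2.X))
        = -2 * (D.raw π r.q.ds ω).Ra D.s r.q r.a * (D.raw π r.q.ds ω).z.X
          + 2 * (D.raw π r.q.ds ω).ka D.s r.q r.a * (D.raw π r.q.ds ω).z.Bt ((D.raw π r.q.ds ω).ta D.s r.a) := by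
      rw [hZ1]
      rfl
    have hvs : D.vs π r ω = (D.raw π r.q.ds ω).P := by
      unfold SfDoc.vs
      rw [hl]
      rfl
    have hBg : r.Bg π r.a = π.b1 r.a := by
      unfold NmRt.Bg
      rw [hl]
      rfl
    have hm : ((D.raw π r.q.ds ω).mark D.s π r.q r.a (!r.σ.lin)).r
        = ((D.raw π r.q.ds ω).Lraw D.s r.q r.a - nmRep D.s (π.b1 r.a) ((D.raw π r.q.ds ω).Lraw D.s r.q r.a)) / D.s ^ (π.b1 r.a) := by
      rw [hl]
      rfl
    have hg : (D.side π r.q r.σ r.a ω).2.2.2.2 = nmCell D.s (π.b1 r.a) ((D.raw π r.q.ds ω).Lraw D.s r.q r.a) := by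
      show (if r.σ.lin then nmCell D.s (π.b1 r.a) ((D.raw π r.q.ds ω).Lraw D.s r.q r.a) else 0) = _
      rw [hl]
      rfl
    have hW : D.vs π r ω + (D.side π r.q r.σ r.a ω).1.1.elim 0 (fun y => -2 * nmVal D.s (r.q.ds.b r.a) (D.side π r.q r.σ r.a ω).2.2.1 * y.2.X
        + 2 * nmVal D.s (r.q.ds.b r.a - r.a) (D.side π r.q r.σ r.a ω).2.2.2.1
          * (y.2.B + nmVal D.s r.a (D.side π r.q r.σ r.a ω).2.1.2.2 * y.2.X)) = (D.raw π r.q.ds ω).Lraw D.s r.q r.a := by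
      rw [hsh, hvs]
      unfold NmRaw.Lraw
      ring
    show ((D.raw π r.q.ds ω).mark D.s π r.q r.a (!r.σ.lin)).r
        = (D.vs π r ω + (D.side π r.q r.σ r.a ω).1.1.elim 0 (fun y => -2 * nmVal D.s (r.q.ds.b r.a) (D.side π r.q r.σ r.a ω).2.2.1 * y.2.X
        + 2 * nmVal D.s (r.q.ds.b r.a - r.a) (D.side π r.q r.σ r.a ω).2.2.2.1
          * (y.2.B + nmVal D.s r.a (D.side π r.q r.σ r.a ω).2.1.2.2 * y.2.X))
          - nmRep D.s (r.Bg π r.a) (D.vs π r ω + (D.side π r.q r.σ r.a ω).1.1.elim 0 (fun y => -2 * nmVal D.s (r.q.ds.b r.a) (D.side π r.q r.σ r.a ω).2.2.1 * y.2.X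
        + 2 * nmVal D.s (r.q.ds.b r.a - r.a) (D.side π r.q r.σ r.a ω).2.2.2.1
          * (y.2.B + nmVal D.s r.a (D.side π r.q r.σ r.a ω).2.1.2.2 * y.2.X)))) / D.s ^ (r.Bg π r.a) ∧
      nmCell D.s (r.Bg π r.a) (D.vs π r ω + (D.side π r.q r.σ r.a ω).1.1.elim 0 (fun y => -2 * nmVal D.s (r.q.ds.b r.a) (D.side π r.q r.σ r.a ω).2.2.1 * y.2.X
        + 2 * nmVal D.s (r.q.ds.b r.a - r.a) (D.side π r.q r.σ r.a ω).2.2.2.1
          * (y.2.B + nmVal D.s r.a (D.side π r.q r.σ r.a ω).2.1.2.2 * y.2.X))) = (D.side π r.q r.σ r.a ω).2.2.2.2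
    rw [hW, hm, hBg, hg]
    exact ⟨rfl, rfl⟩

section lists

variable {D : SfDoc} {π : SfPar} {C0 τ κ0 t Λ : ℝ}

/-- two numbers whose STORED values lie in one cell of depth `z ≤ Rm` -/
theorem nm_mq_aux_st {δ : ℝ} (h0 : 0 < δ) (h1 : δ < 1) {z Rm u w : ℝ} (hzR : z ≤ Rm)
    (h : tcell δ z (trep δ Rm u) = tcell δ z (trep δ Rm w)) : |u - w| ≤ 2 * δ ^ z := by
  have a1 := abs_lt.1 (rx_cell_lt h)
  have a2 := rx_trep_le δ Rm u
  have a3 := rx_lt_trep δ Rm u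
  have a4 := rx_trep_le δ Rm w
  have a5 := rx_lt_trep δ Rm w
  have a6 := rx_gw_anti h0 h1 hzR
  have a7 := rx_gw_le h0 h1 z
  rw [abs_le]
  constructor <;> linarith [a1.1, a1.2]

/-- list of the stored cells of a number which the reader fixes within `K δ^q` -/
theorem nm_mq_aux_list {Ω α : Type} [Fintype Ω] (P : FLaw Ω) (A : Ω → α) (v : Ω → ℝ) (B : Ω → ℤ) {δ : ℝ} (h0 : 0 < δ) (h1 : δ < 1)
    {q : ℝ} (hq : 0 ≤ q) (Rm : ℝ) {K : ℝ} (hK : 0 ≤ K) (hB : ∀ ω, P.p ω ≠ 0 → B ω = tcell δ q (trep δ Rm (v ω)))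
    (h : ∀ ω ω', P.p ω ≠ 0 → P.p ω' ≠ 0 → A ω = A ω' → |v ω - v ω'| ≤ K * δ ^ q) :
    P.NVal (fun _ => True) B A (4 * K + 2) := by
  intro ω₀
  by_cases hex : ∃ ω, P.p ω ≠ 0 ∧ A ω = A ω₀
  · obtain ⟨ω₁, hp₁, hA₁⟩ := hex
    have hd : 0 < δ ^ q := Real.rpow_pos_of_pos h0 q
    obtain ⟨S, hS, hm⟩ := nm_mk_scells h0 h1 hq Rm (v ω₁) (K * δ ^ q) (by positivity)
    refine ⟨S, hS.trans (le_of_eq ?_), fun ω hω _ hA => ?_⟩
    · rw [Real.rpow_neg h0.le]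
      field_simp
    · rw [hB ω hω]
      exact hm _ (h ω ω₁ hω hp₁ (hA.trans hA₁.symm))
  · refine ⟨∅, ?_, fun ω hω _ hA => absurd ⟨ω, hω, hA⟩ hex⟩
    rw [Finset.card_empty, Nat.cast_zero]
    linarith

/-- `(t_{a+zh}, Z)` lists `θ_z`.   `nm_mk_smk`; `nm_mk_two_th` with `i = a + z h` (`nm_mk_nest`): `|Δθ| ≤ 2 δ^z`; cells of stored numbers as in `nm_mk_scells` (take the list centred at one point of the class).      OWNER L-256-NM-MRK-DICB, EST 130 -/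
theorem nm_mq_th1 (hD : D.Fine π C0 τ κ0 t) (r : NmRt) (hr : r.Ok π Λ) (hB : 2 ≤ r.B) (hh : 0 < r.h) (h1 : r.q.ds.De ≠ 1 → r.q.ds.De + t < 1)
    {z : ℝ} (hz : 0 ≤ z) (hzD : r.a + z * r.h + 2 * t ≤ r.q.ds.De) :
    (D.P 1).NVal (fun _ => True) (D.thq π r z) (pair (D.tc (r.a + z * r.h)) (D.side π r.q r.σ r.a)) 10 := by
  have hs := hD.ok.core.hs
  have ht := hD.pos
  have hδ0 : 0 < D.s ^ r.h := Real.rpow_pos_of_pos hs.1 _
  have hδ1 : D.s ^ r.h < 1 := Real.rpow_lt_one hs.1.le hs.2 hh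
  have hzh : 0 ≤ z * r.h := mul_nonneg hz hh.le
  have ha : r.a + 2 * t ≤ r.q.ds.De := by linarith
  have key := nm_mq_aux_list (D.P 1) (pair (D.tc (r.a + z * r.h)) (D.side π r.q r.σ r.a))
    (fun ω => ((D.raw π r.q.ds ω).mark D.s π r.q r.a (!r.σ.lin)).th) (D.thq π r z) hδ0 hδ1 hz r.Rm (K := 2) (by norm_num)
    (fun ω hω => by
      show tcell (D.s ^ r.h) z (D.smk π r ω).th = _
      rw [nm_mk_smk hD r hr hB h1 ha hω])
    (fun ω ω' hω hω' hA => by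
      have hA1 : D.tc (r.a + z * r.h) ω = D.tc (r.a + z * r.h) ω' := congrArg Prod.fst hA
      have hi : nmCell D.s (r.a + z * r.h) (D.raw π r.q.ds ω).T = nmCell D.s (r.a + z * r.h) (D.raw π r.q.ds ω').T := hA1
      have hca : nmCell D.s r.a (D.raw π r.q.ds ω).T = nmCell D.s r.a (D.raw π r.q.ds ω').T :=
        nm_cell_nest hs.1 hs.2 (by linarith) hi
      have h2 := nm_mk_two_th hs π r.q (!r.σ.lin) r.a (r.a + z * r.h) (D.raw π r.q.ds ω) (D.raw π r.q.ds ω')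
        (nm_mk_nest hD hr.q h1 hzD hω) (nm_mk_nest hD hr.q h1 hzD hω') hca hi
      have e : (D.s ^ r.h) ^ z = D.s ^ (r.a + z * r.h - r.a) := by
        rw [← Real.rpow_mul hs.1.le]
        congr 1
        ring
      rw [e]
      exact h2)
  have e10 : (4 : ℝ) * 2 + 2 = 10 := by norm_num
  rw [e10] at key
  exact key

/-- `(θ_z, Z)` lists `t_{a+zh}`.   Same `θ_z`: `|Δθ_st| < gw δ z ≤ δ^z` (`rx_cell_lt`, `rx_gw_le`), `|θ - θ_st| ≤ gw δ Rm ≤ δ^z` (`z ≤ Rm`), same `t_a`: `|ΔTe| ≤ 3 s^(a+zh)`, `|ΔT| ≤ |ΔTe| + s^(a+zh)` (`nm_mk_nest`); `nm_me_nval_close` with `K = 4`.      OWNER L-256-NM-MRK-DICB, EST 150 -/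
theorem nm_mq_th2 (hD : D.Fine π C0 τ κ0 t) (r : NmRt) (hr : r.Ok π Λ) (hB : 2 ≤ r.B) (hh : 0 < r.h) (h1 : r.q.ds.De ≠ 1 → r.q.ds.De + t < 1)
    {z : ℝ} (hz : 0 ≤ z) (hzR : z ≤ r.Rm) (hzD : r.a + z * r.h + 2 * t ≤ r.q.ds.De) :
    (D.P 1).NVal (fun _ => True) (D.tc (r.a + z * r.h)) (pair (D.thq π r z) (D.side π r.q r.σ r.a)) 19 := by
  have hs := hD.ok.core.hs
  have ht := hD.pos
  have hδ0 : 0 < D.s ^ r.h := Real.rpow_pos_of_pos hs.1 _
  have hδ1 : D.s ^ r.h < 1 := Real.rpow_lt_one hs.1.le hs.2 hh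
  have hzh : 0 ≤ z * r.h := mul_nonneg hz hh.le
  have ha : r.a + 2 * t ≤ r.q.ds.De := by linarith
  have key := nm_me_nval_close (D.P 1) (fun _ => True) (pair (D.thq π r z) (D.side π r.q r.σ r.a)) (D.T 1) hs.1 hs.2
    (r.a + z * r.h) (r.a + z * r.h) (K := 4) (by norm_num)
    (fun ω ω' hω hω' _ _ hA => by
      have hA1 : D.thq π r z ω = D.thq π r z ω' := congrArg Prod.fst hA
      have hA2 : D.side π r.q r.σ r.a ω = D.side π r.q r.σ r.a ω' := congrArg Prod.snd hA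
      have hc : tcell (D.s ^ r.h) z (D.smk π r ω).th = tcell (D.s ^ r.h) z (D.smk π r ω').th := hA1
      rw [nm_mk_smk hD r hr hB h1 ha hω, nm_mk_smk hD r hr hB h1 ha hω'] at hc
      have h2 := nm_mq_aux_st hδ0 hδ1 hzR hc
      have hca : nmCell D.s r.a (D.raw π r.q.ds ω).T = nmCell D.s r.a (D.raw π r.q.ds ω').T :=
        congrArg (fun z : NmZv D.Idx => z.2.1.2.2) hA2
      have hta : (D.raw π r.q.ds ω).ta D.s r.a = (D.raw π r.q.ds ω').ta D.s r.a := nm_mk_aux_rep hca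
      have pa : 0 < D.s ^ r.a := Real.rpow_pos_of_pos hs.1 _
      have h3 : |((D.raw π r.q.ds ω).Te - (D.raw π r.q.ds ω).ta D.s r.a) / D.s ^ r.a
          - ((D.raw π r.q.ds ω').Te - (D.raw π r.q.ds ω').ta D.s r.a) / D.s ^ r.a| ≤ 2 * (D.s ^ r.h) ^ z := h2
      rw [hta, ← sub_div, abs_div, abs_of_pos pa, div_le_iff₀ pa] at h3
      have e : 2 * (D.s ^ r.h) ^ z * D.s ^ r.a = 2 * D.s ^ (r.a + z * r.h) := by
        rw [← Real.rpow_mul hs.1.le, mul_assoc, ← Real.rpow_add hs.1]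
        congr 2
        ring
      rw [e] at h3
      have h4 := abs_le.1 h3
      obtain ⟨n1, n2⟩ := nm_mk_nest hD hr.q h1 hzD hω
      obtain ⟨n3, n4⟩ := nm_mk_nest hD hr.q h1 hzD hω'
      have n1' : (D.raw π r.q.ds ω).Te ≤ D.T 1 ω := n1
      have n2' : D.T 1 ω ≤ (D.raw π r.q.ds ω).Te + D.s ^ (r.a + z * r.h) := n2
      have n3' : (D.raw π r.q.ds ω').Te ≤ D.T 1 ω' := n3
      have n4' : D.T 1 ω' ≤ (D.raw π r.q.ds ω').Te + D.s ^ (r.a + z * r.h) := n4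
      have pi : 0 < D.s ^ (r.a + z * r.h) := Real.rpow_pos_of_pos hs.1 _
      rw [abs_le]
      constructor <;> linarith [h4.1, h4.2])
  have e19 : (4 : ℝ) * 4 * D.s ^ (-(r.a + z * r.h - (r.a + z * r.h))) + 3 = 19 := by
    rw [sub_self, neg_zero, Real.rpow_zero]
    norm_num
  rw [e19] at key
  exact key

/-- `([V_*]_{B+xh}, Z)` lists `r_x`.   `nm_mq_shift`: same side ⇒ same shift and same `nmRep s B W`; `|ΔW| = |ΔV_*| ≤ s^(B+xh)` (`nm_close_of_cell`), `|Δr| ≤ δ^x`; stored cells.      OWNER L-256-NM-MRK-DICC, EST 130 -/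
theorem nm_mq_r1 (hD : D.Fine π C0 τ κ0 t) (r : NmRt) (hr : r.Ok π Λ) (hc : r.c π < 1) (hB : 2 ≤ r.B) (hh : 0 < r.h) (h1 : r.q.ds.De ≠ 1 → r.q.ds.De + t < 1)
    (ha : r.a + 2 * t ≤ r.q.ds.De) {x : ℝ} (hx : 0 ≤ x) :
    (D.P 1).NVal (fun _ => True) (D.rq π r x) (pair (D.vq π r (r.Bg π r.a + x * r.h)) (D.side π r.q r.σ r.a)) 6 := by
  have hs := hD.ok.core.hs
  have hδ0 : 0 < D.s ^ r.h := Real.rpow_pos_of_pos hs.1 _
  have hδ1 : D.s ^ r.h < 1 := Real.rpow_lt_one hs.1.le hs.2 hh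
  obtain ⟨sh, g, hsg⟩ := nm_mq_shift D hr hc
  have key := nm_mq_aux_list (D.P 1) (pair (D.vq π r (r.Bg π r.a + x * r.h)) (D.side π r.q r.σ r.a))
    (fun ω => ((D.raw π r.q.ds ω).mark D.s π r.q r.a (!r.σ.lin)).r) (D.rq π r x) hδ0 hδ1 hx r.Rm (K := 1) (by norm_num)
    (fun ω hω => by
      show tcell (D.s ^ r.h) x (D.smk π r ω).r = _
      rw [nm_mk_smk hD r hr hB h1 ha hω])
    (fun ω ω' hω hω' hA => by
      have hA1 : nmCell D.s (r.Bg π r.a + x * r.h) (D.vs π r ω) = nmCell D.s (r.Bg π r.a + x * r.h) (D.vs π r ω') := congrArg Prod.fst hA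
      have hA2 : D.side π r.q r.σ r.a ω = D.side π r.q r.σ r.a ω' := congrArg Prod.snd hA
      obtain ⟨m1, c1⟩ := hsg ω
      obtain ⟨m2, c2⟩ := hsg ω'
      have hV := nm_close_of_cell hs.1 hs.2 hA1
      have hrep : nmRep D.s (r.Bg π r.a) (D.vs π r ω + sh (D.side π r.q r.σ r.a ω))
          = nmRep D.s (r.Bg π r.a) (D.vs π r ω' + sh (D.side π r.q r.σ r.a ω')) :=
        nm_mk_aux_rep (by rw [c1, c2, hA2])
      have pb : 0 < D.s ^ (r.Bg π r.a) := Real.rpow_pos_of_pos hs.1 _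
      show |((D.raw π r.q.ds ω).mark D.s π r.q r.a (!r.σ.lin)).r - ((D.raw π r.q.ds ω').mark D.s π r.q r.a (!r.σ.lin)).r| ≤ _
      rw [m1, m2, hrep, ← sub_div, hA2]
      refine nm_mk_aux_div pb ?_
      have e : 1 * (D.s ^ r.h) ^ x * D.s ^ (r.Bg π r.a) = D.s ^ (r.Bg π r.a + x * r.h) := by
        rw [one_mul, ← Real.rpow_mul hs.1.le, ← Real.rpow_add hs.1]
        congr 1
        ring
      rw [e]
      refine le_trans (le_of_eq ?_) hV
      congr 1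
      ring)
  have e6 : (4 : ℝ) * 1 + 2 = 6 := by norm_num
  rw [e6] at key
  exact key

/-- `(r_x, Z)` lists `[V_*]_{B+xh}`.   Same `r_x`, `x ≤ Rm`: `|Δr| ≤ 3 δ^x`, so `|ΔV_*| = |ΔW| ≤ 3 s^(B+xh)`; `nm_me_nval_close` with `K = 3`.      OWNER L-256-NM-MRK-DICC, EST 150 -/
theorem nm_mq_r2 (hD : D.Fine π C0 τ κ0 t) (r : NmRt) (hr : r.Ok π Λ) (hc : r.c π < 1) (hB : 2 ≤ r.B) (hh : 0 < r.h) (h1 : r.q.ds.De ≠ 1 → r.q.ds.De + t < 1)
    (ha : r.a + 2 * t ≤ r.q.ds.De) {x : ℝ} (hx : 0 ≤ x) (hxR : x ≤ r.Rm) :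
    (D.P 1).NVal (fun _ => True) (D.vq π r (r.Bg π r.a + x * r.h)) (pair (D.rq π r x) (D.side π r.q r.σ r.a)) 15 := by
  have hs := hD.ok.core.hs
  have hδ0 : 0 < D.s ^ r.h := Real.rpow_pos_of_pos hs.1 _
  have hδ1 : D.s ^ r.h < 1 := Real.rpow_lt_one hs.1.le hs.2 hh
  obtain ⟨sh, g, hsg⟩ := nm_mq_shift D hr hc
  have key := nm_me_nval_close (D.P 1) (fun _ => True) (pair (D.rq π r x) (D.side π r.q r.σ r.a)) (D.vs π r) hs.1 hs.2
    (r.Bg π r.a + x * r.h) (r.Bg π r.a + x * r.h) (K := 3) (by norm_num)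
    (fun ω ω' hω hω' _ _ hA => by
      have hA1 : D.rq π r x ω = D.rq π r x ω' := congrArg Prod.fst hA
      have hA2 : D.side π r.q r.σ r.a ω = D.side π r.q r.σ r.a ω' := congrArg Prod.snd hA
      have hc' : tcell (D.s ^ r.h) x (D.smk π r ω).r = tcell (D.s ^ r.h) x (D.smk π r ω').r := hA1
      rw [nm_mk_smk hD r hr hB h1 ha hω, nm_mk_smk hD r hr hB h1 ha hω'] at hc'
      have h2 := nm_mq_aux_st hδ0 hδ1 hxR hc'
      obtain ⟨m1, c1⟩ := hsg ω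
      obtain ⟨m2, c2⟩ := hsg ω'
      have hrep : nmRep D.s (r.Bg π r.a) (D.vs π r ω + sh (D.side π r.q r.σ r.a ω))
          = nmRep D.s (r.Bg π r.a) (D.vs π r ω' + sh (D.side π r.q r.σ r.a ω')) :=
        nm_mk_aux_rep (by rw [c1, c2, hA2])
      have pb : 0 < D.s ^ (r.Bg π r.a) := Real.rpow_pos_of_pos hs.1 _
      rw [m1, m2, hrep, ← sub_div, hA2, abs_div, abs_of_pos pb, div_le_iff₀ pb] at h2
      have e : 2 * (D.s ^ r.h) ^ x * D.s ^ (r.Bg π r.a) = 2 * D.s ^ (r.Bg π r.a + x * r.h) := by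
        rw [← Real.rpow_mul hs.1.le, mul_assoc, ← Real.rpow_add hs.1]
        congr 2
        ring
      rw [e] at h2
      have pi : 0 < D.s ^ (r.Bg π r.a + x * r.h) := Real.rpow_pos_of_pos hs.1 _
      have e2 : D.vs π r ω - D.vs π r ω' = D.vs π r ω + sh (D.side π r.q r.σ r.a ω')
          - nmRep D.s (r.Bg π r.a) (D.vs π r ω' + sh (D.side π r.q r.σ r.a ω'))
          - (D.vs π r ω' + sh (D.side π r.q r.σ r.a ω') - nmRep D.s (r.Bg π r.a) (D.vs π r ω' + sh (D.side π r.q r.σ r.a ω'))) := by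
        ring
      rw [e2]
      linarith)
  have e15 : (4 : ℝ) * 3 * D.s ^ (-(r.Bg π r.a + x * r.h - (r.Bg π r.a + x * r.h))) + 3 = 15 := by
    rw [sub_self, neg_zero, Real.rpow_zero]
    norm_num
  rw [e15] at key
  exact key

/-- an observation which is determined by the reader and a listed observation is listed -/
theorem nm_mq_Z2_ext {Ω : Type} [Fintype Ω] (P : FLaw Ω) {α β γ : Type} {A : Ω → α} {B : Ω → β} {C : Ω → γ} {N : ℝ}
    (h : P.NVal (fun _ => True) B A N) (hC : ∀ ω ω', A ω = A ω' → B ω = B ω' → C ω = C ω') : P.NVal (fun _ => True) C A N := by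
  intro ω₀
  obtain ⟨S, hS, hm⟩ := h ω₀
  refine ⟨S.image (fun b => if hb : ∃ ω, A ω = A ω₀ ∧ B ω = b then C hb.choose else C ω₀), ?_, fun ω hp hE hA => ?_⟩
  · exact le_trans (by exact_mod_cast Finset.card_image_le) hS
  · refine Finset.mem_image.2 ⟨B ω, hm ω hp hE hA, ?_⟩
    have hb : ∃ ω', A ω' = A ω₀ ∧ B ω' = B ω := ⟨ω, hA, rfl⟩
    rw [dif_pos hb]
    exact hC _ _ (hb.choose_spec.1.trans hA.symm) hb.choose_spec.2

/-- the time cell and the static side are entries of the side -/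
theorem nm_mq_Z2_sd (D : SfDoc) (π : SfPar) (r : NmRt) (ω ω' : D.Row 1) (h : D.side π r.q r.σ r.a ω = D.side π r.q r.σ r.a ω') :
    D.tc r.a ω = D.tc r.a ω' ∧ D.ats π r.Sd ω = D.ats π r.Sd ω' := by
  unfold SfDoc.side at h
  simp only [Prod.mk.injEq] at h
  obtain ⟨⟨h1, h2⟩, ⟨h3, h4, h5⟩, h6, h7, h8⟩ := h
  refine ⟨h5, ?_⟩
  unfold SfDoc.ats NmRt.Sd
  cases he : r.σ.exact <;> cases hl : r.σ.lin <;> simp [he, hl, SfDoc.atq] at h1 h2 h4 ⊢
  all_goals first | exact h2 | exact h1 | exact ⟨h1, h4⟩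

theorem nm_mq_Z2_aux (D : SfDoc) (hs : 0 < D.s ∧ D.s < 1) {π : SfPar} {Λ : ℝ} (r : NmRt) (hr : r.Ok π Λ) (hc : r.c π < 1) :
    (D.P 1).NVal (fun _ => True) (pair (D.tc r.a) (pair (D.vq π r (r.Bg π r.a)) (D.ats π r.Sd))) (D.side π r.q r.σ r.a) 7 := by
  obtain ⟨sh, g, hsh⟩ := nm_mq_shift D hr hc
  have key := nm_me_nval_close (D.P 1) (fun _ => True) (D.side π r.q r.σ r.a) (D.vs π r) hs.1 hs.2 (r.Bg π r.a) (r.Bg π r.a) (K := 1) (by norm_num) ?_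
  · have e : (4 : ℝ) * 1 * D.s ^ (-(r.Bg π r.a - r.Bg π r.a)) + 3 = 7 := by
      rw [sub_self, neg_zero, Real.rpow_zero]
      norm_num
    rw [e] at key
    refine nm_mq_Z2_ext (D.P 1) key fun ω ω' hA hB => ?_
    obtain ⟨a1, a2⟩ := nm_mq_Z2_sd D π r ω ω' hA
    show (D.tc r.a ω, (D.vq π r (r.Bg π r.a) ω, D.ats π r.Sd ω)) = (D.tc r.a ω', (D.vq π r (r.Bg π r.a) ω', D.ats π r.Sd ω'))
    have hB' : D.vq π r (r.Bg π r.a) ω = D.vq π r (r.Bg π r.a) ω' := hB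
    rw [a1, a2, hB']
  · intro ω ω' _ _ _ _ hA
    have c1 := (hsh ω).2
    have c2 := (hsh ω').2
    rw [← hA] at c2
    have c3 := nm_close_of_cell hs.1 hs.2 (c1.trans c2.symm)
    rw [one_mul]
    have e : D.vs π r ω + sh (D.side π r.q r.σ r.a ω) - (D.vs π r ω' + sh (D.side π r.q r.σ r.a ω)) = D.vs π r ω - D.vs π r ω' := by ring
    rw [e] at c3
    exact c3

/-- `Z` lists `(t_a, [V_*]_B, S)`.   `t_a` and the static side are entries of `Z` (`r.Sd`: exact: `y_0` [, `[P]_{x_*}`]; coarse: `𝒞(A,V)`);   `[V_*]_B`: same side ⇒ same shift, same cell of `W` ⇒ `|ΔV_*| ≤ s^B` ⇒ `≤ 7` values (`nm_me_nval_close`, `K = 1`).      OWNER L-256-NM-MRK-DICD, EST 160 -/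
theorem nm_mq_Z2 (D : SfDoc) (hs : 0 < D.s ∧ D.s < 1) {π : SfPar} {Λ : ℝ} (r : NmRt) (hr : r.Ok π Λ) (hc : r.c π < 1) :
    (D.P 1).NVal (fun _ => True) (pair (D.tc r.a) (pair (D.vq π r (r.Bg π r.a)) (D.ats π r.Sd))) (D.side π r.q r.σ r.a) 7 :=
  nm_mq_Z2_aux D hs r hr hc

end lists

theorem nm_mq_own_num {s acc t0 : ℝ} (h0 : 0 < s) (h1 : s < 1) (ht : t0 + t0 ≤ acc / 4) (h3 : 3 * s ^ (acc / 4) ≤ 1) :
    (s ^ (-(t0 + t0)) + 2) * s ^ (-(acc / 2)) ≤ s ^ (-acc) := by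
  obtain ⟨u, hu⟩ : ∃ u : ℝ, u = s ^ (-(acc / 4)) := ⟨_, rfl⟩
  have hp : 0 < s ^ (acc / 4) := Real.rpow_pos_of_pos h0 _
  have hu3 : 3 ≤ u := by
    rw [hu, Real.rpow_neg h0.le, le_inv_comm₀ (by norm_num) hp]
    linarith
  have e1 : s ^ (-(t0 + t0)) ≤ u := by
    rw [hu]
    exact nm_pow_anti h0 h1 (by linarith)
  have e2 : s ^ (-(acc / 2)) = u * u := by
    rw [hu, ← Real.rpow_add h0]
    congr 1
    ring
  have e3 : s ^ (-acc) = (u * u) * (u * u) := by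
    rw [← e2, ← Real.rpow_add h0]
    congr 1
    ring
  rw [e2, e3]
  refine mul_le_mul_of_nonneg_right ?_ (by positivity)
  nlinarith

theorem nm_mq_own_aux (π : SfPar) (hπ : π.Valid) (C0 τ κ0 Λ : ℝ) (r : NmRt) (hr : r.Ok π Λ) (hcl : π.hyb = false) (acc : ℝ) (hacc : 0 < acc) :
    ∃ t0 : ℝ, 0 < t0 ∧ ∀ D : SfDoc, D.Fine π C0 τ κ0 t0 →
      (D.P 1).NVal (fun _ => True) (fun ω => ((D.raw π r.q.ds ω).kb, (D.raw π r.q.ds ω).Rc D.s r.q r.a, (D.raw π r.q.ds ω).kc D.s r.q r.a))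
        (pair D.y0 (D.tc r.a)) (D.s ^ (-acc)) := by
  obtain ⟨t1, ht1, H1⟩ := nm_mk_row_nm π hπ C0 τ κ0 Λ r hr r.a le_rfl hr.ha.2 (acc / 2) (by positivity)
  obtain ⟨t2, ht2, -, -, -, H2⟩ := nm_me_t0 (acc / 4) 3 (by positivity)
  have hDe1 : r.q.ds.De ≤ 1 := nm_mk_Y_De hr.q
  have ha1 : r.a < 1 := lt_of_lt_of_le hr.ha.2 hDe1
  obtain ⟨t0, ht0d⟩ : ∃ t0 : ℝ, t0 = min (min t1 t2) (min (acc / 8) ((1 - r.a) / 2)) := ⟨_, rfl⟩
  have ht0 : 0 < t0 := by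
    rw [ht0d]
    exact lt_min (lt_min ht1 ht2) (lt_min (by positivity) (by linarith))
  have l1 : t0 ≤ t1 := by rw [ht0d]; exact (min_le_left _ _).trans (min_le_left _ _)
  have l2 : t0 ≤ t2 := by rw [ht0d]; exact (min_le_left _ _).trans (min_le_right _ _)
  have l3 : t0 ≤ acc / 8 := by rw [ht0d]; exact (min_le_right _ _).trans (min_le_left _ _)
  have l4 : t0 ≤ (1 - r.a) / 2 := by rw [ht0d]; exact (min_le_right _ _).trans (min_le_right _ _)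
  refine ⟨t0, ht0, fun D hD => ?_⟩
  have hs := hD.ok.core.hs
  have hrow := H1 D (nm_me_fine_mono hD l1)
  have h3 := H2 D.s hs.1 (hD.sm.trans l2)
  have hnear := abs_le.1 (nm_gt_near hD hr.ha.1.le ha1.le)
  have hjG : D.gt r.a ∈ D.G := nm_gt_mem D ⟨1, hD.ok.core.gate.1⟩ r.a
  have hj1 : D.gt r.a < 1 := by linarith [hnear.2]
  choose S hS hSm using hrow
  intro ω₀
  obtain ⟨R, hR, hRm⟩ := nm_me_cell_rows hD.ok.core hcl hjG hj1 (show D.gt r.a - r.a ≤ t0 from hnear.2) (D.y0 ω₀) (D.tc r.a ω₀)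
  refine ⟨R.biUnion (fun ρ => (S ρ).image (fun n : NmNm => (n.kb, n.R, n.k))), ?_, fun ω hp _ hA => ?_⟩
  · have hN : 0 ≤ D.s ^ (-(acc / 2)) := (Real.rpow_pos_of_pos hs.1 _).le
    calc ((R.biUnion (fun ρ => (S ρ).image (fun n : NmNm => (n.kb, n.R, n.k)))).card : ℝ)
        ≤ ((∑ ρ ∈ R, ((S ρ).image (fun n : NmNm => (n.kb, n.R, n.k))).card : ℕ) : ℝ) := by exact_mod_cast Finset.card_biUnion_le
      _ = ∑ ρ ∈ R, (((S ρ).image (fun n : NmNm => (n.kb, n.R, n.k))).card : ℝ) := by push_cast; rfl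
      _ ≤ ∑ _ρ ∈ R, D.s ^ (-(acc / 2)) := Finset.sum_le_sum fun ρ _ => le_trans (by exact_mod_cast Finset.card_image_le) (hS ρ)
      _ = R.card * D.s ^ (-(acc / 2)) := by rw [Finset.sum_const, nsmul_eq_mul]
      _ ≤ (D.s ^ (-(t0 + t0)) + 2) * D.s ^ (-(acc / 2)) := mul_le_mul_of_nonneg_right hR hN
      _ ≤ D.s ^ (-acc) := nm_mq_own_num hs.1 hs.2 (by linarith) h3
  · have hpos : 0 < (D.P 1).p ω := lt_of_le_of_ne ((D.P 1).nonneg ω) (Ne.symm hp)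
    obtain ⟨ρ, hρ, -⟩ := hD.ok.core.clPath hcl (D.gt r.a) hjG 1 hD.ok.core.gate.1 hj1 ω hpos
    have a1 : D.y0 ω = D.y0 ω₀ := congrArg (fun z => z.1) hA
    have a2 : D.tc r.a ω = D.tc r.a ω₀ := congrArg (fun z => z.2) hA
    refine Finset.mem_biUnion.2 ⟨ρ, hRm ρ ω hρ a1 a2, ?_⟩
    exact Finset.mem_image.2 ⟨_, hSm ρ ω hρ trivial, rfl⟩

/-- **ownership** (case (L2); Def. names:side (iv): "the additional bins have zero exponent given `y_0, t_a`, by ownership and (A)").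
`nm_mk_row_nm` at `i = a` with `acc / 2`: the rows of `j = D.gt a` list `𝒞(a, v'')`, whose entries are `k̄, R_a, k_a`.   `nm_me_cell_rows` (`Nm/Mem/Gate.lean`, classical, `e = t0`): `(y_0, t_a)` sees `≤ s^(-2 t0) + 2` rows of `j`;
`clPath`: every charged final row has an ancestor at `j` (`j < 1`: `nm_gt_near`).   Union of the lists; `(s^(-2 t0) + 2) s^(-acc/2) ≤ s^(-acc)` (`nm_me_t0`).      OWNER L-256-NM-MRK-DICE, EST 250 -/
theorem nm_mq_own (π : SfPar) (hπ : π.Valid) (C0 τ κ0 Λ : ℝ) (r : NmRt) (hr : r.Ok π Λ) (hcl : π.hyb = false) (acc : ℝ) (hacc : 0 < acc) :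
    ∃ t0 : ℝ, 0 < t0 ∧ ∀ D : SfDoc, D.Fine π C0 τ κ0 t0 →
      (D.P 1).NVal (fun _ => True) (fun ω => ((D.raw π r.q.ds ω).kb, (D.raw π r.q.ds ω).Rc D.s r.q r.a, (D.raw π r.q.ds ω).kc D.s r.q r.a))
        (pair D.y0 (D.tc r.a)) (D.s ^ (-acc)) :=
  nm_mq_own_aux π hπ C0 τ κ0 Λ r hr hcl acc hacc

theorem nm_mq_Z1_fun {Ω α β : Type} [Fintype Ω] (P : FLaw Ω) (B : Ω → β) (A : Ω → α) {N : ℝ} (hN : 1 ≤ N)
    (h : ∀ ω ω', A ω = A ω' → B ω = B ω') : P.NVal (fun _ => True) B A N := by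
  intro ω₀
  exact ⟨{B ω₀}, by simpa using hN, fun ω _ _ hA => Finset.mem_singleton.2 (h ω ω₀ hA)⟩

theorem nm_mq_Z1_rep0 (s b : ℝ) : nmRep s b 0 = 0 := by
  unfold nmRep nmCell
  simp

/-- the static side determines the first entry of the side, and the `[P]_{x_*}` entry -/
theorem nm_mq_Z1_sd (D : SfDoc) (π : SfPar) (r : NmRt) (ω ω' : D.Row 1) (h : D.ats π r.Sd ω = D.ats π r.Sd ω') :
    ((if r.σ.exact then some (D.y0 ω) else none : Option (D.Idx × SfRay)) = if r.σ.exact then some (D.y0 ω') else none) ∧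
    ((if r.σ.exact then nmZero else D.nm π r.q r.σ.A r.σ.V ω) = if r.σ.exact then nmZero else D.nm π r.q r.σ.A r.σ.V ω') ∧
    ((if r.σ.exact && !r.σ.lin then D.Pc π r.q.ds r.σ.xs ω else 0) = if r.σ.exact && !r.σ.lin then D.Pc π r.q.ds r.σ.xs ω' else 0) := by
  unfold SfDoc.ats NmRt.Sd at h
  cases he : r.σ.exact <;> cases hl : r.σ.lin <;> simp [he, hl, SfDoc.atq] at h ⊢ <;> exact h

/-- `(t_a, [V_*]_B, S)` lists `Z`.   (Q), (L1): `Z` is a FUNCTION of the reader (`k̄ = 0`, `k_a`-entry `= nmCell .. 0`, the `R`-entry is `[β]_B`, resp. `nmCell .. 0`, the `L`-entry is `[P]_B`): one value.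
(L2): `nm_mq_own` lists `(k̄, R_a, k_a)`; they and `y_0, t_a` fix the shift, `|ΔW| = |ΔV_*| ≤ s^B` ⇒ `≤ 7` values of the `L`-entry (`ltk_nval_comp`, `nm_me_nval_close`);  `7 s^(-acc/2) ≤ s^(-acc)`.      OWNER L-256-NM-MRK-DICF, EST 300 -/
theorem nm_mq_Z1 (π : SfPar) (hπ : π.Valid) (C0 τ κ0 Λ : ℝ) (r : NmRt) (hr : r.Ok π Λ) (hc : r.c π < 1) (acc : ℝ) (hacc : 0 < acc) :
    ∃ t0 : ℝ, 0 < t0 ∧ ∀ D : SfDoc, D.Fine π C0 τ κ0 t0 →
      (D.P 1).NVal (fun _ => True) (D.side π r.q r.σ r.a) (pair (D.tc r.a) (pair (D.vq π r (r.Bg π r.a)) (D.ats π r.Sd))) (D.s ^ (-acc)) := by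
  have h1s : ∀ D : SfDoc, 0 < D.s ∧ D.s < 1 → 1 ≤ D.s ^ (-acc) := fun D hs =>
    Real.one_le_rpow_of_pos_of_le_one_of_nonpos hs.1 hs.2.le (by linarith)
  rcases nm_mq_cases hr hc with ⟨hl, hcut, hgl, -⟩ | ⟨hl, hcut, hgl, -⟩ | ⟨hl, he, hcl, -⟩
  · -- (Q)
    refine ⟨1, one_pos, fun D hD => nm_mq_Z1_fun _ _ _ (h1s D hD.ok.core.hs) fun ω ω' h => ?_⟩
    simp only [pair, Prod.mk.injEq] at h
    obtain ⟨h1, h2, h3⟩ := h
    obtain ⟨g1, g2, g3⟩ := nm_mq_Z1_sd D π r ω ω' h3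
    have h2' : (D.raw π r.q.ds ω).Rc D.s r.q r.a = (D.raw π r.q.ds ω').Rc D.s r.q r.a := by
      simpa [SfDoc.vq, SfDoc.vs, NmRt.Bg, hl, NmRaw.Rc, NmRaw.Rraw, hcut] using h2
    have h4 : ∀ ω : D.Row 1, (D.raw π r.q.ds ω).kc D.s r.q r.a = nmCell D.s (r.q.ds.b r.a - r.a) 0 := fun ω => by
      simp [NmRaw.kc, NmRaw.kraw, hcut]
    have h5 : ∀ ω : D.Row 1, (D.raw π r.q.ds ω).kb = 0 := fun ω => by simp [SfDoc.raw, hgl]
    unfold SfDoc.side
    rw [g1, g2, g3, h1, h2', h4, h4, h5, h5]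
    simp [hl]
  · -- (L1)
    refine ⟨1, one_pos, fun D hD => nm_mq_Z1_fun _ _ _ (h1s D hD.ok.core.hs) fun ω ω' h => ?_⟩
    simp only [pair, Prod.mk.injEq] at h
    obtain ⟨h1, h2, h3⟩ := h
    obtain ⟨g1, g2, g3⟩ := nm_mq_Z1_sd D π r ω ω' h3
    have h6 : ∀ ω : D.Row 1, (D.raw π r.q.ds ω).Rc D.s r.q r.a = nmCell D.s (r.q.ds.b r.a) 0 := fun ω => by
      simp [NmRaw.Rc, NmRaw.Rraw, hcut]
    have h4 : ∀ ω : D.Row 1, (D.raw π r.q.ds ω).kc D.s r.q r.a = nmCell D.s (r.q.ds.b r.a - r.a) 0 := fun ω => by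
      simp [NmRaw.kc, NmRaw.kraw, hcut]
    have h5 : ∀ ω : D.Row 1, (D.raw π r.q.ds ω).kb = 0 := fun ω => by simp [SfDoc.raw, hgl]
    have h7 : ∀ ω : D.Row 1, (D.raw π r.q.ds ω).Lraw D.s r.q r.a = (D.raw π r.q.ds ω).P := fun ω => by
      simp [NmRaw.Lraw, NmRaw.Ra, NmRaw.ka, NmRaw.Rraw, NmRaw.kraw, hcut, nm_mq_Z1_rep0]
    have h2' : nmCell D.s (π.b1 r.a) ((D.raw π r.q.ds ω).P) = nmCell D.s (π.b1 r.a) ((D.raw π r.q.ds ω').P) := by
      simpa [SfDoc.vq, SfDoc.vs, NmRt.Bg, hl] using h2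
    unfold SfDoc.side
    rw [g1, g2, g3, h1, h6, h6, h4, h4, h5, h5, h7, h7, h2']
  · -- (L2)
    obtain ⟨t1, ht1, hown⟩ := nm_mq_own π hπ C0 τ κ0 Λ r hr hcl (acc / 2) (by linarith)
    obtain ⟨t2, ht2, -, -, -, hnum⟩ := nm_me_t0 (acc / 2) 7 (by linarith)
    refine ⟨min t1 t2, lt_min ht1 ht2, fun D hD => ?_⟩
    have hs := hD.ok.core.hs
    have hO := hown D (nm_me_fine_mono hD (min_le_left _ _))
    have hn7 := hnum D.s hs.1 (hD.sm.trans (min_le_right _ _))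
    set A := pair (D.tc r.a) (pair (D.vq π r (r.Bg π r.a)) (D.ats π r.Sd)) with hA
    set O : D.Row 1 → ℤ × ℤ × ℤ := fun ω => ((D.raw π r.q.ds ω).kb, (D.raw π r.q.ds ω).Rc D.s r.q r.a, (D.raw π r.q.ds ω).kc D.s r.q r.a) with hOd
    have hAy : ∀ ω ω', A ω = A ω' → D.tc r.a ω = D.tc r.a ω' ∧ D.y0 ω = D.y0 ω' ∧
        nmCell D.s (π.b1 r.a) ((D.raw π r.q.ds ω).P) = nmCell D.s (π.b1 r.a) ((D.raw π r.q.ds ω').P) := by
      intro ω ω' h
      simp only [hA, pair, Prod.mk.injEq] at h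
      obtain ⟨h1, h2, h3⟩ := h
      refine ⟨h1, ?_, by simpa [SfDoc.vq, SfDoc.vs, NmRt.Bg, hl] using h2⟩
      have := (nm_mq_Z1_sd D π r ω ω' h3).1
      simpa [he] using this
    have hO' : (D.P 1).NVal (fun _ => True) O A (D.s ^ (-(acc / 2))) :=
      ltk_nval_mono _ hO (fun _ h => h) (fun ω ω' h => by
        obtain ⟨h1, h2, -⟩ := hAy ω ω' h
        simp only [pair, h1, h2]) ⟨id, fun _ => rfl⟩ le_rfl
    have hL : (D.P 1).NVal (fun _ => True) (fun ω => nmCell D.s (π.b1 r.a) ((D.raw π r.q.ds ω).Lraw D.s r.q r.a)) (pair O A) 7 := by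
      have := nm_me_nval_close (D.P 1) (fun _ => True) (pair O A) (fun ω => (D.raw π r.q.ds ω).Lraw D.s r.q r.a) hs.1 hs.2
        (π.b1 r.a) (π.b1 r.a) (K := 1) zero_le_one ?_
      · have e : (4 : ℝ) * 1 * D.s ^ (-(π.b1 r.a - π.b1 r.a)) + 3 = 7 := by
          rw [sub_self, neg_zero, Real.rpow_zero]; norm_num
        rwa [e] at this
      · intro ω ω' _ _ _ _ h
        simp only [pair, Prod.mk.injEq] at h
        obtain ⟨hOO, hAA⟩ := h
        obtain ⟨h1, h2, h3⟩ := hAy ω ω' hAA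
        simp only [hOd, Prod.mk.injEq] at hOO
        obtain ⟨-, o2, o3⟩ := hOO
        have hray : D.ray 1 ω = D.ray 1 ω' := (Prod.mk.injEq _ _ _ _ ▸ h2 : _ ∧ _).2
        have eR : (D.raw π r.q.ds ω).Ra D.s r.q r.a = (D.raw π r.q.ds ω').Ra D.s r.q r.a := by
          unfold NmRaw.Rc at o2
          unfold NmRaw.Ra nmRep
          rw [o2]
        have ek : (D.raw π r.q.ds ω).ka D.s r.q r.a = (D.raw π r.q.ds ω').ka D.s r.q r.a := by
          unfold NmRaw.kc at o3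
          unfold NmRaw.ka nmRep
          rw [o3]
        have et : (D.raw π r.q.ds ω).ta D.s r.a = (D.raw π r.q.ds ω').ta D.s r.a := by
          unfold SfDoc.tc at h1
          unfold NmRaw.ta nmRep
          show ((nmCell D.s r.a (D.T 1 ω) : ℤ) : ℝ) / _ = ((nmCell D.s r.a (D.T 1 ω') : ℤ) : ℝ) / _
          rw [h1]
        have eX : (D.raw π r.q.ds ω).z.X = (D.raw π r.q.ds ω').z.X := by
          show (D.ray 1 ω).X = (D.ray 1 ω').X
          rw [hray]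
        have eB : (D.raw π r.q.ds ω).z.B = (D.raw π r.q.ds ω').z.B := by
          show (D.ray 1 ω).B = (D.ray 1 ω').B
          rw [hray]
        have hP := nm_close_of_cell hs.1 hs.2 h3
        have : (D.raw π r.q.ds ω).Lraw D.s r.q r.a - (D.raw π r.q.ds ω').Lraw D.s r.q r.a = (D.raw π r.q.ds ω).P - (D.raw π r.q.ds ω').P := by
          unfold NmRaw.Lraw SfRay.Bt
          rw [eR, ek, et, eX, eB]
          ring
        rw [this, one_mul]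
        exact hP
    have hcomp := ltk_nval_comp (D.P 1) (fun _ => True) A O _ (by norm_num : (0 : ℝ) ≤ 7) hO' hL
    have hnum' : D.s ^ (-(acc / 2)) * 7 ≤ D.s ^ (-acc) := by
      have hp : 0 < D.s ^ (acc / 2) := Real.rpow_pos_of_pos hs.1 _
      have hq : 0 < D.s ^ (-(acc / 2)) := Real.rpow_pos_of_pos hs.1 _
      have e1 : D.s ^ (-acc) = D.s ^ (-(acc / 2)) * D.s ^ (-(acc / 2)) := by
        rw [← Real.rpow_add hs.1]; congr 1; ring
      have e2 : D.s ^ (-(acc / 2)) * D.s ^ (acc / 2) = 1 := by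
        rw [← Real.rpow_add hs.1]; simp
      rw [e1]
      refine mul_le_mul_of_nonneg_left ?_ hq.le
      calc (7 : ℝ) = D.s ^ (-(acc / 2)) * (7 * D.s ^ (acc / 2)) := by rw [mul_left_comm, e2, mul_one]
        _ ≤ D.s ^ (-(acc / 2)) * 1 := mul_le_mul_of_nonneg_left hn7 hq.le
        _ = _ := mul_one _
    intro ω₀
    obtain ⟨S, hS, hmem⟩ := hcomp ω₀
    refine ⟨S.image (fun x => ((some (D.y0 ω₀), nmZero), (x.2.1, 0, D.tc r.a ω₀), (x.2.2.1, x.2.2.2, x.1))), ?_, fun ω hp _ hAA => ?_⟩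
    · have h1 : ((S.image (fun x : ℤ × ℤ × ℤ × ℤ => (((some (D.y0 ω₀), nmZero), (x.2.1, 0, D.tc r.a ω₀), (x.2.2.1, x.2.2.2, x.1)) : NmZv D.Idx))).card : ℝ) ≤ (S.card : ℝ) := by
        exact_mod_cast Finset.card_image_le
      exact h1.trans (hS.trans hnum')
    · refine Finset.mem_image.2 ⟨_, hmem ω hp trivial hAA, ?_⟩
      obtain ⟨h1, h2, -⟩ := hAy ω ω₀ hAA
      unfold SfDoc.side
      simp [pair, hOd, he, hl, h1, h2]

/-- **calculus of lists** (abstract, finite laws).   `h1`: reader `(t_z, v_1, S)` ⇒ `(t_a, v_B, S)` (functions) ⇒ `Z` (`Z1`) ⇒ `θ_z` (`θ1`), `r_1` (`r11`).   `h2`: reader `(Z, θ_z, r_1)` ⇒ `S` (`Z2`), `t_z` (`θ2`), `v_1` (`r12`).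
Tools: `ltk_nval_comp`, `ltk_nval_mono`, `nm_mk_nval_via`.      OWNER L-256-NM-MRK-DICG, EST 250 -/
theorem nm_mq_dic_gen {Ω : Type} [Fintype Ω] (P : FLaw Ω) {ζ σ : Type} (Z : Ω → ζ) (Sd : Ω → σ) (ta tz vB v1 v2 θz r1 r2 : Ω → ℤ) {N : ℝ} (hN : 1 ≤ N)
    (nt : ∀ ω ω', tz ω = tz ω' → ta ω = ta ω') (nv : ∀ ω ω', v1 ω = v1 ω' → vB ω = vB ω')
    (Z1 : P.NVal (fun _ => True) Z (pair ta (pair vB Sd)) N) (Z2 : P.NVal (fun _ => True) (pair ta (pair vB Sd)) Z N)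
    (θ1 : P.NVal (fun _ => True) θz (pair tz Z) N) (θ2 : P.NVal (fun _ => True) tz (pair θz Z) N)
    (r11 : P.NVal (fun _ => True) r1 (pair v1 Z) N) (r12 : P.NVal (fun _ => True) v1 (pair r1 Z) N)
    (r21 : P.NVal (fun _ => True) r2 (pair v2 Z) N) (r22 : P.NVal (fun _ => True) v2 (pair r2 Z) N) :
    P.NVal (fun _ => True) (pair Z (pair θz r1)) (pair tz (pair v1 Sd)) (N ^ 3) ∧
    P.NVal (fun _ => True) (pair tz (pair v1 Sd)) (pair Z (pair θz r1)) (N ^ 3) ∧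
    P.NVal (fun _ => True) v2 (pair r2 (pair Z (pair θz r1))) (N ^ 3) ∧
    P.NVal (fun _ => True) r2 (pair v2 (pair Z (pair θz r1))) (N ^ 3) := by
  have hN0 : 0 ≤ N := by linarith
  have hN3 : N ≤ N ^ 3 := by
    have h2 : 1 ≤ N ^ 2 := one_le_pow₀ hN
    nlinarith
  have hNe : N * N * N ≤ N ^ 3 := le_of_eq (by ring)
  refine ⟨?_, ?_, ?_, ?_⟩
  · have a1 : P.NVal (fun _ => True) Z (pair tz (pair v1 Sd)) N :=
      ltk_nval_mono P Z1 (fun _ h => h) (fun ω ω' h => by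
        simp only [pair, Prod.mk.injEq] at h ⊢
        exact ⟨nt _ _ h.1, nv _ _ h.2.1, h.2.2⟩) ⟨id, fun _ => rfl⟩ le_rfl
    have a2 : P.NVal (fun _ => True) θz (pair Z (pair tz (pair v1 Sd))) N :=
      ltk_nval_mono P θ1 (fun _ h => h) (fun ω ω' h => by
        simp only [pair, Prod.mk.injEq] at h ⊢
        exact ⟨h.2.1, h.1⟩) ⟨id, fun _ => rfl⟩ le_rfl
    have a3 := ltk_nval_comp P (fun _ => True) (pair tz (pair v1 Sd)) Z θz hN0 a1 a2
    have a4 : P.NVal (fun _ => True) r1 (pair (pair θz Z) (pair tz (pair v1 Sd))) N :=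
      ltk_nval_mono P r11 (fun _ h => h) (fun ω ω' h => by
        simp only [pair, Prod.mk.injEq] at h ⊢
        exact ⟨h.2.2.1, h.1.2⟩) ⟨id, fun _ => rfl⟩ le_rfl
    have a5 := ltk_nval_comp P (fun _ => True) (pair tz (pair v1 Sd)) (pair θz Z) r1 hN0 a3 a4
    exact ltk_nval_mono P a5 (fun _ h => h) (fun _ _ h => h) ⟨fun x => (x.2.2, (x.2.1, x.1)), fun _ => rfl⟩ hNe
  · have b1 : P.NVal (fun _ => True) (pair ta (pair vB Sd)) (pair Z (pair θz r1)) N :=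
      ltk_nval_mono P Z2 (fun _ h => h) (fun ω ω' h => by
        simp only [pair, Prod.mk.injEq] at h ⊢
        exact h.1) ⟨id, fun _ => rfl⟩ le_rfl
    have b2 : P.NVal (fun _ => True) tz (pair (pair ta (pair vB Sd)) (pair Z (pair θz r1))) N :=
      ltk_nval_mono P θ2 (fun _ h => h) (fun ω ω' h => by
        simp only [pair, Prod.mk.injEq] at h ⊢
        exact ⟨h.2.2.1, h.2.1⟩) ⟨id, fun _ => rfl⟩ le_rfl
    have b3 := ltk_nval_comp P (fun _ => True) (pair Z (pair θz r1)) (pair ta (pair vB Sd)) tz hN0 b1 b2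
    have b4 : P.NVal (fun _ => True) v1 (pair (pair tz (pair ta (pair vB Sd))) (pair Z (pair θz r1))) N :=
      ltk_nval_mono P r12 (fun _ h => h) (fun ω ω' h => by
        simp only [pair, Prod.mk.injEq] at h ⊢
        exact ⟨h.2.2.2, h.2.1⟩) ⟨id, fun _ => rfl⟩ le_rfl
    have b5 := ltk_nval_comp P (fun _ => True) (pair Z (pair θz r1)) (pair tz (pair ta (pair vB Sd))) v1 hN0 b3 b4
    exact ltk_nval_mono P b5 (fun _ h => h) (fun _ _ h => h) ⟨fun x => (x.2.1, (x.1, x.2.2.2.2)), fun _ => rfl⟩ hNe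
  · exact ltk_nval_mono P r22 (fun _ h => h) (fun ω ω' h => by
      simp only [pair, Prod.mk.injEq] at h ⊢
      exact ⟨h.1, h.2.1⟩) ⟨id, fun _ => rfl⟩ hN3
  · exact ltk_nval_mono P r21 (fun _ h => h) (fun ω ω' h => by
      simp only [pair, Prod.mk.injEq] at h ⊢
      exact ⟨h.1, h.2.1⟩) ⟨id, fun _ => rfl⟩ hN3

/-- lists of queries and tuples have the same partitions (`simp [SfDoc.ats, SfDoc.atq, NmRt.Vq]`, cases on `r.σ.lin`).      OWNER L-256-NM-MRK-DICG, EST 60 -/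
theorem nm_mq_ats_iff (D : SfDoc) (π : SfPar) (r : NmRt) (z x : ℝ) (ω ω' : D.Row 1) :
    (D.ats π (NmAt.tc z :: r.Vq x :: r.Sd) ω = D.ats π (NmAt.tc z :: r.Vq x :: r.Sd) ω' ↔
      pair (D.tc z) (pair (D.vq π r x) (D.ats π r.Sd)) ω = pair (D.tc z) (pair (D.vq π r x) (D.ats π r.Sd)) ω') ∧
    (D.ats π [r.Vq x] ω = D.ats π [r.Vq x] ω' ↔ D.vq π r x ω = D.vq π r x ω') := by
  rcases Bool.eq_false_or_eq_true r.σ.lin with hl | hl
  · simp [SfDoc.ats, SfDoc.atq, NmRt.Vq, SfDoc.vq, SfDoc.vs, SfDoc.Pc, SfDoc.bc, pair, hl]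
  · simp [SfDoc.ats, SfDoc.atq, NmRt.Vq, SfDoc.vq, SfDoc.vs, SfDoc.Pc, SfDoc.bc, pair, hl]

/-- numerics of `nm_mq_ri_fin` -/
theorem nm_mq_ri_fin_num (acc : ℝ) (hacc : 0 < acc) : ∃ t : ℝ, 0 < t ∧ ∀ s : ℝ, 0 < s → s < 1 → s ≤ t →
    19 ≤ s ^ (-(acc / 20)) ∧ 3 * Real.log ((s ^ (-(acc / 20))) ^ 3) + 3 * Real.log (6 / acc) ≤ acc * lg s := by
  obtain ⟨t3, ht3, -, -, -, H3⟩ := nm_me_t0 (acc / 20) 19 (by positivity)
  refine ⟨min t3 (Real.exp (-(6 * Real.log (6 / acc) / acc))), lt_min ht3 (Real.exp_pos _), fun s hs0 hs1 hst => ?_⟩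
  have h1 := H3 s hs0 (hst.trans (min_le_left _ _))
  have h2 : s ≤ Real.exp (-(6 * Real.log (6 / acc) / acc)) := hst.trans (min_le_right _ _)
  have hp : 0 < s ^ (acc / 20) := Real.rpow_pos_of_pos hs0 _
  constructor
  · rw [Real.rpow_neg hs0.le, ← one_div, le_div_iff₀ hp]
    exact h1
  · have hlg : lg s = - Real.log s := by
      unfold lg
      rw [one_div, Real.log_inv]
    have h3 : Real.log s ≤ -(6 * Real.log (6 / acc) / acc) := by
      have := Real.log_le_log hs0 h2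
      rwa [Real.log_exp] at this
    have h4 : 6 * Real.log (6 / acc) ≤ acc * lg s := by
      have : 6 * Real.log (6 / acc) / acc ≤ lg s := by rw [hlg]; linarith
      rw [div_le_iff₀ hacc] at this
      linarith
    have h5 : 0 < lg s := by
      rw [hlg]
      have := Real.log_neg hs0 hs1
      linarith
    have h6 : Real.log ((s ^ (-(acc / 20))) ^ 3) = 3 * (acc / 20) * lg s := by
      rw [Real.log_pow, Real.log_rpow hs0, hlg]
      push_cast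
      ring
    rw [h6]
    nlinarith

/-- **the `r`-increment at finite scale** (Type A): its conditional surprise is the one of the atomic queries, up to `acc log(1/s)`, off an event of mass `≤ acc`.
PLAN.  `t1` := `nm_mq_Z1` with `acc / 20`;  `t0 ≤ t1`, `a + z h + 2 t0 ≤ De`, `De + t0 < 1` if `De ≠ 1`, `19 ≤ s^(-acc/20)`, and `3 log (6 / acc) ≤ (acc / 2) lgs` for `s ≤ t0`.   `N = s^(-acc/20)`: all eight lists (`ltk_nval_mono`); nested cells: `nm_cell_nest`.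
`nm_mq_dic_gen`, `nm_mk_transfer2` with `N^3`, `t = log (6 / acc)`:  `3 log N^3 + 3 t = (9 acc / 20) lgs + 3 t ≤ acc lgs`.   `ent_surC_congr` with `nm_mq_ats_iff`.      OWNER L-256-NM-MRK-DICH, EST 350 -/
theorem nm_mq_ri_fin (π : SfPar) (hπ : π.Valid) (C0 τ κ0 Λ : ℝ) (r : NmRt) (hr : r.Ok π Λ) (hc : r.c π < 1) (hB : 2 ≤ r.B) (hh : 0 < r.h)
    (z x1 x2 : ℝ) (hz : 0 ≤ z) (hzR : z ≤ r.Rm) (hzD : r.a + z * r.h < r.q.ds.De) (hx1 : 0 ≤ x1) (hx : x1 ≤ x2) (hxR : x2 ≤ r.Rm)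
    (acc : ℝ) (hacc : 0 < acc) : ∃ t0 : ℝ, 0 < t0 ∧ ∀ D : SfDoc, D.Fine π C0 τ κ0 t0 →
      (D.P 1).pr (fun ω => acc * D.lgs < |(D.P 1).surC (D.rq π r x2) (pair (D.side π r.q r.σ r.a) (pair (D.thq π r z) (D.rq π r x1))) ω
        - (D.P 1).surC (D.ats π [r.Vq (r.Bg π r.a + x2 * r.h)])
            (D.ats π (NmAt.tc (r.a + z * r.h) :: r.Vq (r.Bg π r.a + x1 * r.h) :: r.Sd)) ω|) ≤ acc := by
  obtain ⟨t1, ht1, H1⟩ := nm_mq_Z1 π hπ C0 τ κ0 Λ r hr hc (acc / 20) (by positivity)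
  obtain ⟨t3, ht3, H3⟩ := nm_mq_ri_fin_num acc hacc
  have hDe1 : r.q.ds.De ≤ 1 := nm_mk_Y_De hr.q
  obtain ⟨t4, ht4, H4⟩ : ∃ t4 : ℝ, 0 < t4 ∧ (r.q.ds.De ≠ 1 → r.q.ds.De + t4 < 1) := by
    by_cases h : r.q.ds.De = 1
    · exact ⟨1, one_pos, fun h' => absurd h h'⟩
    · have h' : r.q.ds.De < 1 := lt_of_le_of_ne hDe1 h
      exact ⟨(1 - r.q.ds.De) / 2, by linarith, fun _ => by linarith⟩
  obtain ⟨t5, ht5, H5⟩ : ∃ t5 : ℝ, 0 < t5 ∧ r.a + z * r.h + 2 * t5 ≤ r.q.ds.De :=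
    ⟨(r.q.ds.De - (r.a + z * r.h)) / 2, by linarith, by linarith⟩
  refine ⟨min t1 (min t3 (min t4 t5)), by positivity, ?_⟩
  intro D hD
  obtain ⟨t0, ht0⟩ : ∃ t0, t0 = min t1 (min t3 (min t4 t5)) := ⟨_, rfl⟩
  rw [← ht0] at hD
  have l1 : t0 ≤ t1 := by rw [ht0]; exact min_le_left _ _
  have l3 : t0 ≤ t3 := by rw [ht0]; exact (min_le_right _ _).trans (min_le_left _ _)
  have l4 : t0 ≤ t4 := by rw [ht0]; exact (min_le_right _ _).trans ((min_le_right _ _).trans (min_le_left _ _))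
  have l5 : t0 ≤ t5 := by rw [ht0]; exact (min_le_right _ _).trans ((min_le_right _ _).trans (min_le_right _ _))
  have hs := hD.ok.core.hs
  have h1 : r.q.ds.De ≠ 1 → r.q.ds.De + t0 < 1 := fun h => by linarith [H4 h]
  have hzh : 0 ≤ z * r.h := mul_nonneg hz hh.le
  have hzD' : r.a + z * r.h + 2 * t0 ≤ r.q.ds.De := by linarith
  have haD' : r.a + 2 * t0 ≤ r.q.ds.De := by linarith
  obtain ⟨hN19, hnum⟩ := H3 D.s hs.1 hs.2 (hD.sm.trans l3)
  obtain ⟨N, hN⟩ : ∃ N : ℝ, N = D.s ^ (-(acc / 20)) := ⟨_, rfl⟩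
  rw [← hN] at hN19 hnum
  have hN1 : 1 ≤ N := by linarith
  have hx2 : 0 ≤ x2 := hx1.trans hx
  have up : ∀ {α β : Type} {B : D.Row 1 → β} {A : D.Row 1 → α} {M : ℝ}, (D.P 1).NVal (fun _ => True) B A M → M ≤ N → (D.P 1).NVal (fun _ => True) B A N :=
    fun h hM => ltk_nval_mono (D.P 1) h (fun _ h' => h') (fun _ _ h' => h') ⟨id, fun _ => rfl⟩ hM
  have Z1 := H1 D (nm_me_fine_mono hD l1)
  rw [← hN] at Z1
  have Z2 := up (nm_mq_Z2 D hs r hr hc) (by linarith)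
  have θ1 := up (nm_mq_th1 hD r hr hB hh h1 hz hzD') (by linarith)
  have θ2 := up (nm_mq_th2 hD r hr hB hh h1 hz hzR hzD') (by linarith)
  have r11 := up (nm_mq_r1 hD r hr hc hB hh h1 haD' hx1) (by linarith)
  have r12 := up (nm_mq_r2 hD r hr hc hB hh h1 haD' hx1 (hx.trans hxR)) (by linarith)
  have r21 := up (nm_mq_r1 hD r hr hc hB hh h1 haD' hx2) (by linarith)
  have r22 := up (nm_mq_r2 hD r hr hc hB hh h1 haD' hx2 hxR) (by linarith)
  have nt : ∀ ω ω' : D.Row 1, D.tc (r.a + z * r.h) ω = D.tc (r.a + z * r.h) ω' → D.tc r.a ω = D.tc r.a ω' :=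
    fun ω ω' h => nm_cell_nest hs.1 hs.2 (by linarith) h
  have nv : ∀ ω ω' : D.Row 1, D.vq π r (r.Bg π r.a + x1 * r.h) ω = D.vq π r (r.Bg π r.a + x1 * r.h) ω' → D.vq π r (r.Bg π r.a) ω = D.vq π r (r.Bg π r.a) ω' :=
    fun ω ω' h => nm_cell_nest hs.1 hs.2 (by have := mul_nonneg hx1 hh.le; linarith) h
  obtain ⟨g1, g2, g3, g4⟩ := nm_mq_dic_gen (D.P 1) (D.side π r.q r.σ r.a) (D.ats π r.Sd) (D.tc r.a) (D.tc (r.a + z * r.h)) (D.vq π r (r.Bg π r.a))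
    (D.vq π r (r.Bg π r.a + x1 * r.h)) (D.vq π r (r.Bg π r.a + x2 * r.h)) (D.thq π r z) (D.rq π r x1) (D.rq π r x2) hN1 nt nv Z1 Z2 θ1 θ2 r11 r12 r21 r22
  have hN3 : 1 ≤ N ^ 3 := one_le_pow₀ hN1
  have key := nm_mk_transfer2 (D.P 1) (fun _ => True) (D.rq π r x2) (D.vq π r (r.Bg π r.a + x2 * r.h))
    (pair (D.side π r.q r.σ r.a) (pair (D.thq π r z) (D.rq π r x1)))
    (pair (D.tc (r.a + z * r.h)) (pair (D.vq π r (r.Bg π r.a + x1 * r.h)) (D.ats π r.Sd))) hN3 g1 g2 g3 g4 (Real.log (6 / acc))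
  have e6 : 6 * Real.exp (-Real.log (6 / acc)) = acc := by
    rw [Real.exp_neg, Real.exp_log (by positivity)]
    field_simp
  rw [e6] at key
  refine le_trans (ent_pr_mono (D.P 1) fun ω _ hω => ?_) key
  refine ⟨trivial, ?_⟩
  have e7 : (D.P 1).surC (D.ats π [r.Vq (r.Bg π r.a + x2 * r.h)]) (D.ats π (NmAt.tc (r.a + z * r.h) :: r.Vq (r.Bg π r.a + x1 * r.h) :: r.Sd)) ω
      = (D.P 1).surC (D.vq π r (r.Bg π r.a + x2 * r.h)) (pair (D.tc (r.a + z * r.h)) (pair (D.vq π r (r.Bg π r.a + x1 * r.h)) (D.ats π r.Sd))) ω := by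
    refine ent_surC_congr _ _ _ _ _ ω (fun ω' _ => ?_) (fun ω' _ _ => ?_)
    · exact (nm_mq_ats_iff D π r (r.a + z * r.h) (r.Bg π r.a + x1 * r.h) ω' ω).1
    · exact (nm_mq_ats_iff D π r (r.a + z * r.h) (r.Bg π r.a + x2 * r.h) ω' ω).2
  rw [e7] at hω
  exact lt_of_le_of_lt hnum hω

theorem nm_mq_dic_eqns_cite : True := by
  have := @SfDoc.thq.eq_1; have := @SfDoc.rq.eq_1; have := @SfDoc.vs.eq_1; have := @SfDoc.vq.eq_1
  trivial

end

end Claimed.Agent.R256
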