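import Claimed.Agent.R256.Nm.Side
import Claimed.Agent.R256.Nm.Sd.Kit
import Claimed.Agent.R256.Nm.Mem.Uf
import Claimed.Agent.R256.LT.Kit
import Claimed.Agent.R255.Rate.ExtGrid

/-!
# Row 256 (S0496), unit NM, block MRK (X8, Y6; post BP-256-NM-MRK), file 1: PAPER-FREE KIT      (architect helper219; prefix `nm_mk_`)

Sec. 1  cells of a window: `nm_mk_cells`, `nm_mk_tcells`, `nm_mk_scells` (cells of STORED numbers `trep δ Rm x`; no relation between the depth and `Rm` is needed).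
Sec. 2  lists along `Conn`: `nm_mk_row_comp` (a second variable listed by the row AND the value of the first), `nm_mk_row_close` (closeness on the completing paths of one row ⇒ list of stored cells).
        More calculus: `nm_sd_map`, `nm_sd_pair` (`Nm/Sd/Kit.lean`), `nm_rowpr_mono` (`Nm/Pred/Exit.lean`).
Sec. 3  `nm_mk_times` : the times of a gate in a window (`Core.grid`).
Sec. 4  **causal counting** (04-canonical-names.tex l.686-707): `nm_mk_pop` (popular cells), `nm_mk_count` (`tp` from `i` to `j`, then `sp` from `j` to `1`), `nm_mk_time_fin` (both together).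
Tools: `R255/Ent/Basic.lean` (`ent_*`), `R256/LT/Kit.lean` (`ltk_*`), `R255/Rate/ExtGrid.lean` (`rx_*`: `gw`, `tcell`, `trep`), `Nm/Geo/Cell.lean` (`nmCell`), `Nm/Mem/Abs.lean`, `Nm/Mem/Uf.lean` (`nm_me_*`).
-/

set_option autoImplicit false

namespace Claimed.Agent.R256

open Claimed.Agent.R255
open Claimed.Agent.R255.FLaw (pair)
open Filter Topology
open Classical

noncomputable section

/-! ## 1. cells of a window -/

/-- `S = Icc ⌊(c-R) 2^n⌋ ⌊(c+R) 2^n⌋`.      OWNER L-256-NM-MRK-KITA, EST 40 -/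
theorem nm_mk_cells (c R : ℝ) (hR : 0 ≤ R) (n : ℕ) :
    ∃ S : Finset ℤ, (S.card : ℝ) ≤ 2 * R * 2 ^ n + 2 ∧ ∀ x : ℝ, |x - c| ≤ R → ⌊x * 2 ^ n⌋ ∈ S := by
  have hp : (0 : ℝ) < 2 ^ n := by positivity
  refine ⟨Finset.Icc ⌊(c - R) * 2 ^ n⌋ ⌊(c + R) * 2 ^ n⌋, ?_, fun x hx => ?_⟩
  · have hle : ⌊(c - R) * 2 ^ n⌋ ≤ ⌊(c + R) * 2 ^ n⌋ := Int.floor_le_floor (mul_le_mul_of_nonneg_right (by linarith) hp.le)
    rw [Int.card_Icc]
    have e : (((⌊(c + R) * 2 ^ n⌋ + 1 - ⌊(c - R) * 2 ^ n⌋).toNat : ℕ) : ℝ) = (⌊(c + R) * 2 ^ n⌋ : ℝ) + 1 - (⌊(c - R) * 2 ^ n⌋ : ℝ) := by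
      have h0 : 0 ≤ ⌊(c + R) * 2 ^ n⌋ + 1 - ⌊(c - R) * 2 ^ n⌋ := by omega
      have := Int.toNat_of_nonneg h0
      have h2 : (((⌊(c + R) * 2 ^ n⌋ + 1 - ⌊(c - R) * 2 ^ n⌋).toNat : ℤ) : ℝ) = ((⌊(c + R) * 2 ^ n⌋ + 1 - ⌊(c - R) * 2 ^ n⌋ : ℤ) : ℝ) := by
        rw [this]
      push_cast at h2
      exact h2
    rw [e]
    have h1 := Int.floor_le ((c + R) * 2 ^ n)
    have h2 := Int.lt_floor_add_one ((c - R) * 2 ^ n)
    nlinarith
  · obtain ⟨h1, h2⟩ := abs_le.1 hx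
    rw [Finset.mem_Icc]
    exact ⟨Int.floor_le_floor (mul_le_mul_of_nonneg_right (by linarith) hp.le),
      Int.floor_le_floor (mul_le_mul_of_nonneg_right (by linarith) hp.le)⟩

/-- `2^(tlev δ q) ≤ 2 δ^(-q)` -/
theorem nm_mk_aux_lev {δ : ℝ} (h0 : 0 < δ) (h1 : δ < 1) {q : ℝ} (hq : 0 ≤ q) : (2 : ℝ) ^ (tlev δ q) ≤ 2 * δ ^ (-q) := by
  have h := rx_lt_gw h0 h1 hq
  unfold gw at h
  have hp : (0 : ℝ) < 2 ^ (tlev δ q) := by positivity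
  have hd : 0 < δ ^ q := Real.rpow_pos_of_pos h0 q
  rw [Real.rpow_neg h0.le, ← div_eq_mul_inv, le_div_iff₀ hd]
  rw [← div_eq_mul_inv, lt_div_iff₀ hp] at h
  linarith

/-- `2^(tlev δ q) < 2 δ^(-q)` (`rx_lt_gw`).      OWNER L-256-NM-MRK-KITA, EST 40 -/
theorem nm_mk_tcells {δ : ℝ} (h0 : 0 < δ) (h1 : δ < 1) {q : ℝ} (hq : 0 ≤ q) (c R : ℝ) (hR : 0 ≤ R) :
    ∃ S : Finset ℤ, (S.card : ℝ) ≤ 4 * R * δ ^ (-q) + 2 ∧ ∀ x : ℝ, |x - c| ≤ R → tcell δ q x ∈ S := by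
  obtain ⟨S, hS, hm⟩ := nm_mk_cells c R hR (tlev δ q)
  refine ⟨S, hS.trans ?_, hm⟩
  have := mul_le_mul_of_nonneg_left (nm_mk_aux_lev h0 h1 hq) (by linarith : 0 ≤ 2 * R)
  linarith

/-- cells of stored numbers.   `q ≤ Rm`: `rx_cell_trep`.   `Rm < q`: the image of the list of `tcell δ Rm x` (`nm_mk_cells` with `n = tlev δ Rm ≤ tlev δ q`) under `m ↦ tcell δ q (m / 2^(tlev δ Rm))`.      OWNER L-256-NM-MRK-KITA, EST 60 -/
theorem nm_mk_scells {δ : ℝ} (h0 : 0 < δ) (h1 : δ < 1) {q : ℝ} (hq : 0 ≤ q) (Rm c R : ℝ) (hR : 0 ≤ R) :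
    ∃ S : Finset ℤ, (S.card : ℝ) ≤ 4 * R * δ ^ (-q) + 2 ∧ ∀ x : ℝ, |x - c| ≤ R → tcell δ q (trep δ Rm x) ∈ S := by
  rcases le_or_gt q Rm with h | h
  · obtain ⟨S, hS, hm⟩ := nm_mk_tcells h0 h1 hq c R hR
    refine ⟨S, hS, fun x hx => ?_⟩
    rw [rx_cell_trep h0 h1 h x]
    exact hm x hx
  · obtain ⟨S, hS, hm⟩ := nm_mk_cells c R hR (tlev δ Rm)
    refine ⟨S.image (fun m : ℤ => tcell δ q ((m : ℝ) / 2 ^ (tlev δ Rm))), ?_, fun x hx => ?_⟩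
    · have hc : ((S.image (fun m : ℤ => tcell δ q ((m : ℝ) / 2 ^ (tlev δ Rm)))).card : ℝ) ≤ (S.card : ℝ) := by
        exact_mod_cast Finset.card_image_le
      have hl : (2 : ℝ) ^ (tlev δ Rm) ≤ 2 ^ (tlev δ q) := pow_le_pow_right₀ (by norm_num) (rx_tlev_mono h0 h1 h.le)
      have := mul_le_mul_of_nonneg_left (hl.trans (nm_mk_aux_lev h0 h1 hq)) (by linarith : 0 ≤ 2 * R)
      linarith
    · exact Finset.mem_image.2 ⟨_, hm x hx, rfl⟩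

/-! ## 2. lists along `Conn` -/

/-- union over the list of `A` of the lists of `B`.      OWNER L-256-NM-MRK-KITA, EST 50 -/
theorem nm_mk_row_comp {D : SfDoc} {i : ℝ} {α β : Type} {E : D.Row 1 → Prop} {A : D.Row 1 → α} {B : D.Row 1 → β} {N M : ℝ} (hM : 0 ≤ M)
    (hA : D.RowPr i E A N)
    (hB : ∀ (ρ : D.Row i) (x : α), ∃ S : Finset β, (S.card : ℝ) ≤ M ∧ ∀ ω, D.Conn i 1 ρ ω → E ω → A ω = x → B ω ∈ S) :
    D.RowPr i E (fun ω => (A ω, B ω)) (N * M) := by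
  intro ρ
  obtain ⟨SA, hSA, hmA⟩ := hA ρ
  choose SB hSB hmB using hB ρ
  refine ⟨SA.biUnion fun x => (SB x).image fun b => (x, b), ?_, fun ω hc hE => ?_⟩
  · have h1 : ((SA.biUnion fun x => (SB x).image fun b => (x, b)).card : ℝ) ≤ ∑ x ∈ SA, (((SB x).image fun b => (x, b)).card : ℝ) := by
      exact_mod_cast Finset.card_biUnion_le
    have h2 : ∑ x ∈ SA, (((SB x).image fun b => (x, b)).card : ℝ) ≤ ∑ _x ∈ SA, M := by
      refine Finset.sum_le_sum fun x _ => le_trans ?_ (hSB x)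
      exact_mod_cast Finset.card_image_le
    rw [Finset.sum_const, nsmul_eq_mul] at h2
    exact h1.trans (h2.trans (mul_le_mul_of_nonneg_right hSA hM))
  · exact Finset.mem_biUnion.2 ⟨A ω, hmA ω hc hE, Finset.mem_image.2 ⟨B ω, hmB (A ω) ω hc hE rfl, rfl⟩⟩

/-- closeness on the completing paths of one row.   If the class is empty: `S = ∅`; else `nm_mk_scells` centred at one of its points, `R = K δ^q`.      OWNER L-256-NM-MRK-KITA, EST 40 -/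
theorem nm_mk_row_close {D : SfDoc} {i : ℝ} {α : Type} {E : D.Row 1 → Prop} {A : D.Row 1 → α} (v : D.Row 1 → ℝ) {δ : ℝ} (h0 : 0 < δ) (h1 : δ < 1)
    {q : ℝ} (hq : 0 ≤ q) (Rm : ℝ) {K : ℝ} (hK : 0 ≤ K)
    (h : ∀ (ρ : D.Row i) (ω ω' : D.Row 1), D.Conn i 1 ρ ω → D.Conn i 1 ρ ω' → E ω → E ω' → A ω = A ω' → |v ω - v ω'| ≤ K * δ ^ q)
    (ρ : D.Row i) (x : α) :
    ∃ S : Finset ℤ, (S.card : ℝ) ≤ 4 * K + 2 ∧ ∀ ω, D.Conn i 1 ρ ω → E ω → A ω = x → tcell δ q (trep δ Rm (v ω)) ∈ S := by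
  by_cases hex : ∃ ω0, D.Conn i 1 ρ ω0 ∧ E ω0 ∧ A ω0 = x
  · obtain ⟨ω0, c0, e0, a0⟩ := hex
    have hd : 0 < δ ^ q := Real.rpow_pos_of_pos h0 q
    obtain ⟨S, hS, hm⟩ := nm_mk_scells h0 h1 hq Rm (v ω0) (K * δ ^ q) (by positivity)
    refine ⟨S, hS.trans (le_of_eq ?_), fun ω hc hE hA => hm _ (h ρ ω ω0 hc c0 hE e0 (hA.trans a0.symm))⟩
    rw [Real.rpow_neg h0.le]
    field_simp
  · refine ⟨∅, ?_, fun ω hc hE hA => absurd ⟨ω, hc, hE, hA⟩ hex⟩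
    rw [Finset.card_empty, Nat.cast_zero]
    linarith

/-! ## 3. the times of a gate -/

/-- `S` = the times of the rows in the window; they are `len j`-separated (`Core.grid`, `0 < s^(j+t) ≤ len j`): `x ↦ ⌊(x - (c - R)) / len j⌋` is injective into `Icc 0 ⌊2R / len j⌋`.      OWNER L-256-NM-MRK-KITA, EST 70 -/
theorem nm_mk_times {D : SfDoc} {π : SfPar} {C0 t : ℝ} (hD : D.Core π C0 t) {j : ℝ} (hj : j ∈ D.G) (c R : ℝ) (hR : 0 ≤ R) :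
    ∃ S : Finset ℝ, (S.card : ℝ) ≤ 2 * R / D.len j + 1 ∧ ∀ ρ : D.Row j, |D.T j ρ - c| ≤ R → D.T j ρ ∈ S := by
  have hl : 0 < D.len j := lt_of_lt_of_le (Real.rpow_pos_of_pos hD.hs.1 _) (hD.hlen.2 j hj).1
  refine ⟨(Finset.univ.filter fun ρ : D.Row j => |D.T j ρ - c| ≤ R).image (D.T j), ?_, fun ρ hρ =>
    Finset.mem_image.2 ⟨ρ, Finset.mem_filter.2 ⟨Finset.mem_univ _, hρ⟩, rfl⟩⟩
  have hcard : ((Finset.univ.filter fun ρ : D.Row j => |D.T j ρ - c| ≤ R).image (D.T j)).card ≤ (Finset.Icc (0 : ℤ) ⌊2 * R / D.len j⌋).card := by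
    refine Finset.card_le_card_of_injOn (fun x : ℝ => ⌊(x - (c - R)) / D.len j⌋) ?_ ?_
    · intro x hx
      obtain ⟨ρ, hρ, rfl⟩ := Finset.mem_image.1 (Finset.mem_coe.1 hx)
      obtain ⟨a1, a2⟩ := abs_le.1 (Finset.mem_filter.1 hρ).2
      refine Finset.mem_coe.2 (Finset.mem_Icc.2 ⟨Int.floor_nonneg.2 (div_nonneg (by linarith) hl.le), Int.floor_le_floor ?_⟩)
      exact div_le_div_of_nonneg_right (by linarith) hl.le
    · intro x hx y hy hxy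
      obtain ⟨ρ, -, rfl⟩ := Finset.mem_image.1 (Finset.mem_coe.1 hx)
      obtain ⟨ρ', -, rfl⟩ := Finset.mem_image.1 (Finset.mem_coe.1 hy)
      by_contra hne
      have hsep := hD.grid j hj ρ ρ' hne
      have hxy' : ⌊(D.T j ρ - (c - R)) / D.len j⌋ = ⌊(D.T j ρ' - (c - R)) / D.len j⌋ := hxy
      have h3 := Int.abs_sub_lt_one_of_floor_eq_floor hxy'
      rw [← sub_div, abs_div, abs_of_pos hl, div_lt_one hl] at h3
      have e : D.T j ρ - (c - R) - (D.T j ρ' - (c - R)) = D.T j ρ - D.T j ρ' := by ring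
      rw [e] at h3
      linarith
  have h0 : (0 : ℤ) ≤ ⌊2 * R / D.len j⌋ := Int.floor_nonneg.2 (by positivity)
  rw [Int.card_Icc] at hcard
  have e : (((⌊2 * R / D.len j⌋ + 1 - 0).toNat : ℕ) : ℝ) = (⌊2 * R / D.len j⌋ : ℝ) + 1 := by
    have h1 : 0 ≤ ⌊2 * R / D.len j⌋ + 1 - 0 := by omega
    have h2 : (((⌊2 * R / D.len j⌋ + 1 - 0).toNat : ℤ) : ℝ) = ((⌊2 * R / D.len j⌋ + 1 - 0 : ℤ) : ℝ) := by
      rw [Int.toNat_of_nonneg h1]
    push_cast at h2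
    simpa using h2
  have hc2 : (((Finset.univ.filter fun ρ : D.Row j => |D.T j ρ - c| ≤ R).image (D.T j)).card : ℝ) ≤ (⌊2 * R / D.len j⌋ : ℝ) + 1 := by
    rw [← e]
    exact_mod_cast hcard
  exact hc2.trans (by linarith [Int.floor_le (2 * R / D.len j)])

/-! ## 4. causal counting -/

/-- **popular cells**: over each value of `Y` fewer than `e^σ` values of `X` have conditional mass `> e^(-σ)`  (`ent_count`, `ent_exp_neg_surC`).
`Λ y` = image under `X` of `{ω | P.p ω ≠ 0 ∧ Y ω = y ∧ P.surC X Y ω < σ}`.      OWNER L-256-NM-MRK-KITB, EST 70 -/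
theorem nm_mk_pop {Ω : Type} [Fintype Ω] {α β : Type} (P : FLaw Ω) (X : Ω → α) (Y : Ω → β) (σ : ℝ) :
    ∃ Λ : β → Finset α, (∀ y, ((Λ y).card : ℝ) ≤ Real.exp σ) ∧ ∀ ω, P.p ω ≠ 0 → P.surC X Y ω < σ → X ω ∈ Λ (Y ω) := by
  refine ⟨fun y => (Finset.univ.filter fun ω => P.p ω ≠ 0 ∧ Y ω = y ∧ P.surC X Y ω < σ).image X, fun y => ?_, fun ω h1 h2 => ?_⟩
  · show ((((Finset.univ.filter fun ω => P.p ω ≠ 0 ∧ Y ω = y ∧ P.surC X Y ω < σ).image X).card : ℕ) : ℝ) ≤ Real.exp σ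
    rcases (Finset.univ.filter fun ω => P.p ω ≠ 0 ∧ Y ω = y ∧ P.surC X Y ω < σ).eq_empty_or_nonempty with he | ⟨ω0, hω0⟩
    · rw [he, Finset.image_empty, Finset.card_empty, Nat.cast_zero]
      exact (Real.exp_pos σ).le
    · obtain ⟨-, hp0, hy0, -⟩ := Finset.mem_filter.1 hω0
      have hpos : 0 < P.pr (fun ω => Y ω = y) := by
        have := ent_fib_pos P Y hp0
        unfold FLaw.fib at this
        rwa [hy0] at this
      have h := ent_count P Y X y ((Finset.univ.filter fun ω => P.p ω ≠ 0 ∧ Y ω = y ∧ P.surC X Y ω < σ).image X)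
        (c := Real.exp (-σ)) (Real.exp_pos _) hpos ?_
      · rwa [Real.exp_neg, one_div, inv_inv] at h
      · intro x hx
        obtain ⟨ω, hω, rfl⟩ := Finset.mem_image.1 hx
        obtain ⟨-, hp, hy, hs⟩ := Finset.mem_filter.1 hω
        have e1 := ent_exp_neg_surC P X Y hp
        have e2 : Real.exp (-σ) ≤ Real.exp (-P.surC X Y ω) := Real.exp_le_exp.2 (by linarith)
        rw [e1, le_div_iff₀ (ent_fib_pos P Y hp), ent_fib_pair] at e2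
        unfold FLaw.fib at e2
        rw [hy] at e2
        exact e2
  · exact Finset.mem_image_of_mem X (Finset.mem_filter.2 ⟨Finset.mem_univ _, h1, rfl, h2⟩)

/-- **the causal counting step** (04 l.686-707).   Gates `i < j < 1`; on `E` every row of `i` lists `A` (`≤ N` values); every value of `A` lists `≤ M` times of the gate `j`; `W ⊆ E` = the final rows ALL of whose predecessors at `j` have a listed time.
PROOF.  `U ρ' := ∃ ω, W ω ∧ Conn j 1 ρ' ω`,  `S ρ := ∃ ρ', U ρ' ∧ Conn i j ρ ρ'`.   `Pred j 1 W U`, `Pred i j U S` by definition.   Multiplicity: if `U ρ'`, `Conn i j ρ ρ'` then `Conn i 1 ρ ω` (`trans`), so `A ω` is in the list of `ρ` and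
`T j ρ' ∈ ⋃_{x ∈ list ρ} Lt x`, a set of `≤ N M` reals (`Set.ncard_le_ncard`, `Finset.card_biUnion_le`).   `tp` + `pr S ≤ 1`, then `sp` and monotonicity of `x ↦ x^(2/3)`.      OWNER L-256-NM-MRK-KITB, EST 130 -/
theorem nm_mk_count {D : SfDoc} {π : SfPar} {C0 t : ℝ} (hD : D.Core π C0 t) {i j : ℝ} (hi : i ∈ D.G) (hj : j ∈ D.G) (hij : i < j) (hj1 : j < 1)
    {α : Type} (E : D.Row 1 → Prop) (A : D.Row 1 → α) {N M : ℝ} (hM : 0 ≤ M) (hA : D.RowPr i E A N)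
    (Lt : α → Finset ℝ) (hLt : ∀ x, ((Lt x).card : ℝ) ≤ M) (W : D.Row 1 → Prop)
    (hW : ∀ ω, W ω → E ω ∧ ∀ ρ', D.Conn j 1 ρ' ω → D.T j ρ' ∈ Lt (A ω)) :
    (D.P 1).pr W ≤ D.s ^ (-t) * (D.s ^ (-t) * (N * M) * D.s ^ (π.d * (j - i)) + D.s ^ (1 / t)) ^ ((2 : ℝ) / 3) + D.s ^ (1 / t) := by
  have hs : 0 < D.s := hD.hs.1
  have h1G : (1 : ℝ) ∈ D.G := hD.gate.1
  set U : D.Row j → Prop := fun ρ' => ∃ ω, W ω ∧ D.Conn j 1 ρ' ω with hU
  set S : D.Row i → Prop := fun ρ => ∃ ρ', U ρ' ∧ D.Conn i j ρ ρ' with hS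
  have hP1 : D.Pred j 1 W U := fun ω hω ρ' hc => ⟨ω, hω, hc⟩
  have hP2 : D.Pred i j U S := fun ρ' hρ' ρ hc => ⟨ρ', hρ', hc⟩
  have hN : 0 ≤ N := by
    have hne : Nonempty (D.Row i) := by
      by_contra hcon
      rw [not_nonempty_iff] at hcon
      have := (D.P i).sum_one
      rw [Finset.univ_eq_empty, Finset.sum_empty] at this
      exact zero_ne_one this
    obtain ⟨ρ0⟩ := hne
    obtain ⟨S0, hS0, -⟩ := hA ρ0
    exact (Nat.cast_nonneg _).trans hS0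
  have hmult : ∀ ρ, S ρ → (({t' | ∃ ρ', U ρ' ∧ D.Conn i j ρ ρ' ∧ D.T j ρ' = t'} : Set ℝ).ncard : ℝ) ≤ N * M := by
    intro ρ _
    obtain ⟨SA, hSA, hmem⟩ := hA ρ
    have hsub : ({t' | ∃ ρ', U ρ' ∧ D.Conn i j ρ ρ' ∧ D.T j ρ' = t'} : Set ℝ) ⊆ ↑(SA.biUnion Lt) := by
      rintro t' ⟨ρ', ⟨ω, hω, hc1⟩, hc2, rfl⟩
      have hc : D.Conn i 1 ρ ω := hD.trans i hi j hj 1 h1G hij hj1 ρ ρ' ω hc2 hc1
      obtain ⟨hE, hT⟩ := hW ω hω
      exact Finset.mem_coe.2 (Finset.mem_biUnion.2 ⟨A ω, hmem ω hc hE, hT ρ' hc1⟩)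
    have h1 : ({t' | ∃ ρ', U ρ' ∧ D.Conn i j ρ ρ' ∧ D.T j ρ' = t'} : Set ℝ).ncard ≤ (SA.biUnion Lt).card := by
      rw [← Set.ncard_coe_finset]
      exact Set.ncard_le_ncard hsub (Finset.finite_toSet _)
    calc (({t' | ∃ ρ', U ρ' ∧ D.Conn i j ρ ρ' ∧ D.T j ρ' = t'} : Set ℝ).ncard : ℝ) ≤ ((SA.biUnion Lt).card : ℝ) := by exact_mod_cast h1
      _ ≤ ((∑ x ∈ SA, (Lt x).card : ℕ) : ℝ) := by exact_mod_cast Finset.card_biUnion_le
      _ = ∑ x ∈ SA, ((Lt x).card : ℝ) := by push_cast; rfl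
      _ ≤ ∑ _x ∈ SA, M := Finset.sum_le_sum fun x _ => hLt x
      _ = SA.card * M := by rw [Finset.sum_const, nsmul_eq_mul]
      _ ≤ N * M := mul_le_mul_of_nonneg_right hSA hM
  have h2 := hD.tp i hi j hj hij U S (N * M) hP2 hmult
  have h3 := hD.sp j hj 1 h1G hj1 W U hP1
  have hc0 : 0 ≤ D.s ^ (-t) * (N * M) * D.s ^ (π.d * (j - i)) := by
    have e1 : 0 ≤ D.s ^ (-t) := Real.rpow_nonneg hs.le _
    have e2 : 0 ≤ D.s ^ (π.d * (j - i)) := Real.rpow_nonneg hs.le _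
    positivity
  have h4 : (D.P j).pr U ≤ D.s ^ (-t) * (N * M) * D.s ^ (π.d * (j - i)) + D.s ^ (1 / t) := by
    refine h2.trans (add_le_add_left ?_ _)
    exact mul_le_of_le_one_right hc0 (ent_pr_le_one _ _)
  refine h3.trans (add_le_add_left ?_ _)
  refine mul_le_mul_of_nonneg_left ?_ (Real.rpow_nonneg hs.le _)
  exact Real.rpow_le_rpow (ent_pr_nonneg _ _) h4 (by norm_num)

/-- **lower surprise of a time variable** `Θ` given a variable `Y` listed by the rows of the gate `i`, if the pair (value of `Y`, value of `Θ`) lists `≤ M` times of the gate `j`.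
`nm_mk_pop` for `(Θ, Y, σ)`, `Lt y := ⋃_{c ∈ Λ y} S y c`, `W ω := E ω ∧ p ω ≠ 0 ∧ surC Θ Y ω < σ`, `nm_mk_count`, `ent_pr_congr`.      OWNER L-256-NM-MRK-KITB, EST 80 -/
theorem nm_mk_time_fin {D : SfDoc} {π : SfPar} {C0 t : ℝ} (hD : D.Core π C0 t) {i j : ℝ} (hi : i ∈ D.G) (hj : j ∈ D.G) (hij : i < j) (hj1 : j < 1)
    {β γ : Type} (E : D.Row 1 → Prop) (Y : D.Row 1 → β) (Θ : D.Row 1 → γ) {N M : ℝ} (σ : ℝ) (hM : 0 ≤ M) (hY : D.RowPr i E Y N)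
    (hT : ∀ (y : β) (c : γ), ∃ S : Finset ℝ, (S.card : ℝ) ≤ M ∧
      ∀ ω, E ω → Y ω = y → Θ ω = c → ∀ ρ', D.Conn j 1 ρ' ω → D.T j ρ' ∈ S) :
    (D.P 1).pr (fun ω => E ω ∧ (D.P 1).surC Θ Y ω < σ)
      ≤ D.s ^ (-t) * (D.s ^ (-t) * (N * (Real.exp σ * M)) * D.s ^ (π.d * (j - i)) + D.s ^ (1 / t)) ^ ((2 : ℝ) / 3) + D.s ^ (1 / t) := by
  obtain ⟨Λ, hΛ, hmem⟩ := nm_mk_pop (D.P 1) Θ Y σ
  choose S hS1 hS2 using hT
  have hcard : ∀ y, ((((Λ y).biUnion (S y)).card : ℕ) : ℝ) ≤ Real.exp σ * M := by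
    intro y
    calc ((((Λ y).biUnion (S y)).card : ℕ) : ℝ) ≤ ((∑ c ∈ Λ y, (S y c).card : ℕ) : ℝ) := by exact_mod_cast Finset.card_biUnion_le
      _ = ∑ c ∈ Λ y, ((S y c).card : ℝ) := by push_cast; rfl
      _ ≤ ∑ _c ∈ Λ y, M := Finset.sum_le_sum fun c _ => hS1 y c
      _ = (Λ y).card * M := by rw [Finset.sum_const, nsmul_eq_mul]
      _ ≤ Real.exp σ * M := mul_le_mul_of_nonneg_right (hΛ y) hM
  have h := nm_mk_count hD hi hj hij hj1 E Y (M := Real.exp σ * M) (mul_nonneg (Real.exp_pos σ).le hM) hY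
    (fun y => (Λ y).biUnion (S y)) hcard (fun ω => E ω ∧ (D.P 1).p ω ≠ 0 ∧ (D.P 1).surC Θ Y ω < σ) ?_
  · refine le_of_eq_of_le (ent_pr_congr _ fun ω hω => ?_) h
    exact ⟨fun hh => ⟨hh.1, hω, hh.2⟩, fun hh => ⟨hh.1, hh.2.2⟩⟩
  · rintro ω ⟨hE, hp, hs⟩
    refine ⟨hE, fun ρ' hc => ?_⟩
    exact Finset.mem_biUnion.2 ⟨Θ ω, hmem ω hp hs, hS2 (Y ω) (Θ ω) ω hE rfl rfl ρ' hc⟩

end

end Claimed.Agent.R256
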