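import Claimed.Agent.R256.Nm.Mrk.Dic
import Claimed.Agent.R256.Nm.Pro.Alph

/-!
# Row 256 (S0496), unit NM, block MRK, file 9: PROFILES: chain rule for `HM`, moved roots, `PcList` below `p_*`, the `r`-increment along a flat sequence      (architect helper219; prefix `nm_mq_`)

* `nm_mq_HC_chain` : `HC ([V x2] | t_z, [V x1], S) = HM(x2, z) - HM(x1, z)` for `x1 ≤ x2`.
* `nm_mq_mix_prof` : (abstract) the limits of `nm_tr_mixed` are uniform under moved roots `|a' - a| ≤ η h`.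
* `nm_mq_pclist`   : `x_* < p_*(a)` ⇒ `PcList` with every tolerance, `uf`-eventually.
* `nm_mq_ri`       : the `r`-increment: `s(r_{x2} | Z, θ_z, r_{x1}) = (HM(B + x2 h, a + z h) - HM(B + x1 h, a + z h)) log(1/s)` up to `ε log(1/s)`, off `ε`.
Tools of the other blocks: `nm_pro_alph`, `nm_pro_ubdd`, `nm_pro_pbraw` (`Nm/Pro/Alph.lean`, helper156); `nm_me_*` (`Nm/Mem/Uf.lean`, `Abs.lean`, helper198).
-/

set_option autoImplicit false

namespace Claimed.Agent.R256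

open Claimed.Agent.R255
open Claimed.Agent.R255.FLaw (pair)
open Filter Topology
open Classical

noncomputable section

/-- **moved roots** (abstract, Mathlib only).   Each of the two values of `H` moves by `≤ (|c'| + 1) |a' - a|` (`hx` gives `|H x z - H x' z| ≤ |x - x'|`);   `η := ε / (4 (|c'| + 1))`, `h0` := minimum over `F` of the `h0(x)` with error `ε / 2` from `hlim`.      OWNER L-256-NM-MRK-PROFA, EST 200 -/
theorem nm_mq_mix_prof (H : ℝ → ℝ → ℝ) (B0 c' a : ℝ) (lim : ℝ → ℝ → ℝ → ℝ)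
    (hx : ∀ z x x' : ℝ, x ≤ x' → 0 ≤ H x' z - H x z ∧ H x' z - H x z ≤ x' - x) (hz : ∀ x z z' : ℝ, |H x z - H x z'| ≤ |z - z'|)
    (hlim : ∀ al1 al2 be : ℝ, al1 ≤ al2 →
      Tendsto (fun h : ℝ => (H (B0 + c' * a + al2 * h) (a + be * h) - H (B0 + c' * a + al1 * h) (a + be * h)) / h) (𝓝[>] 0) (𝓝 (lim al1 al2 be)))
    (F : Finset (ℝ × ℝ × ℝ)) (hF : ∀ x ∈ F, x.1 ≤ x.2.1) (ε : ℝ) (hε : 0 < ε) :
    ∃ η h0 : ℝ, 0 < η ∧ 0 < h0 ∧ ∀ h : ℝ, 0 < h → h ≤ h0 → ∀ a' : ℝ, |a' - a| ≤ η * h → ∀ x ∈ F,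
      |(H (B0 + c' * a' + x.2.1 * h) (a' + x.2.2 * h) - H (B0 + c' * a' + x.1 * h) (a' + x.2.2 * h)) - lim x.1 x.2.1 x.2.2 * h| ≤ ε * h := by
  have hxl : ∀ z x x' : ℝ, |H x z - H x' z| ≤ |x - x'| := by
    intro z x x'
    rcases le_total x x' with h | h
    · obtain ⟨h1, h2⟩ := hx z x x' h
      rw [abs_sub_comm, abs_of_nonneg h1, abs_sub_comm, abs_of_nonneg (by linarith)]
      exact h2
    · obtain ⟨h1, h2⟩ := hx z x' x h
      rw [abs_of_nonneg h1, abs_of_nonneg (by linarith)]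
      exact h2
  have hc : 0 < |c'| + 1 := by positivity
  have hmove : ∀ (al be h a' : ℝ), |H (B0 + c' * a' + al * h) (a' + be * h) - H (B0 + c' * a + al * h) (a + be * h)| ≤ (|c'| + 1) * |a' - a| := by
    intro al be h a'
    have h1 := hxl (a' + be * h) (B0 + c' * a' + al * h) (B0 + c' * a + al * h)
    have h2 := hz (B0 + c' * a + al * h) (a' + be * h) (a + be * h)
    have e1 : B0 + c' * a' + al * h - (B0 + c' * a + al * h) = c' * (a' - a) := by ring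
    have e2 : a' + be * h - (a + be * h) = a' - a := by ring
    rw [e1, abs_mul] at h1
    rw [e2] at h2
    calc |H (B0 + c' * a' + al * h) (a' + be * h) - H (B0 + c' * a + al * h) (a + be * h)|
        ≤ |H (B0 + c' * a' + al * h) (a' + be * h) - H (B0 + c' * a + al * h) (a' + be * h)|
          + |H (B0 + c' * a + al * h) (a' + be * h) - H (B0 + c' * a + al * h) (a + be * h)| := abs_sub_le _ _ _
      _ ≤ |c'| * |a' - a| + |a' - a| := add_le_add h1 h2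
      _ = (|c'| + 1) * |a' - a| := by ring
  have hev : ∀ᶠ h in 𝓝[>] (0 : ℝ), ∀ x ∈ F,
      dist ((H (B0 + c' * a + x.2.1 * h) (a + x.2.2 * h) - H (B0 + c' * a + x.1 * h) (a + x.2.2 * h)) / h) (lim x.1 x.2.1 x.2.2) < ε / 2 := by
    rw [Finset.eventually_all]
    intro x hxF
    exact (hlim x.1 x.2.1 x.2.2 (hF x hxF)).eventually (Metric.ball_mem_nhds _ (half_pos hε))
  obtain ⟨h0, hh0, hsub⟩ := mem_nhdsGT_iff_exists_Ioc_subset.1 hev
  refine ⟨ε / (4 * (|c'| + 1)), h0, by positivity, hh0, fun h hh hle a' ha' x hxF => ?_⟩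
  have h1 := hsub ⟨hh, hle⟩ x hxF
  rw [Real.dist_eq] at h1
  have h2 : |(H (B0 + c' * a + x.2.1 * h) (a + x.2.2 * h) - H (B0 + c' * a + x.1 * h) (a + x.2.2 * h)) - lim x.1 x.2.1 x.2.2 * h| ≤ ε / 2 * h := by
    have e : (H (B0 + c' * a + x.2.1 * h) (a + x.2.2 * h) - H (B0 + c' * a + x.1 * h) (a + x.2.2 * h)) - lim x.1 x.2.1 x.2.2 * h
        = ((H (B0 + c' * a + x.2.1 * h) (a + x.2.2 * h) - H (B0 + c' * a + x.1 * h) (a + x.2.2 * h)) / h - lim x.1 x.2.1 x.2.2) * h := by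
      field_simp
    rw [e, abs_mul, abs_of_pos hh]
    exact mul_le_mul_of_nonneg_right h1.le hh.le
  have m1 := hmove x.2.1 x.2.2 h a'
  have m2 := hmove x.1 x.2.2 h a'
  have hb : (|c'| + 1) * |a' - a| ≤ ε / 4 * h := by
    calc (|c'| + 1) * |a' - a| ≤ (|c'| + 1) * (ε / (4 * (|c'| + 1)) * h) := mul_le_mul_of_nonneg_left ha' hc.le
      _ = ε / 4 * h := by field_simp
  rw [abs_le] at m1 m2 h2 ⊢
  constructor <;> linarith [m1.1, m1.2, m2.1, m2.2, h2.1, h2.2]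

section seq

variable {π : SfPar} {C0 : ℝ} {κ : ℝ → ℝ} (S : NmSeq π C0 κ)

/-- **chain rule**.   For every `n`: `entC A (B, C) = entC (A, B) C - entC B C` (`ent_entC_chain`), `(A, B) ≅ A` since `[V]_{x1}` is a function of `[V]_{x2}` (`nm_cell_nest`), lists ≅ tuples (`nm_mq_ats_iff`, `ent_entC_congr`).
`ulim_sub` with `UBdd` from `nm_pro_ubdd`, `nm_pro_alph` (`[r.Vq x]` does not contain `y0`);  `S.cq.seqHC Y X n = entC (Y n) (X n) / lgs` by `rfl`.      OWNER L-256-NM-MRK-PROFB, EST 200 -/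
theorem nm_mq_HC_chain (r : NmRt) (x1 x2 z : ℝ) (hx : x1 ≤ x2) :
    S.HC (S.ats [r.Vq x2]) (S.ats (NmAt.tc z :: r.Vq x1 :: r.Sd)) = S.HM r.Vq r.Sd x2 z - S.HM r.Vq r.Sd x1 z := by
  have hV : ∀ x, ∀ y ∈ [r.Vq x], y ≠ NmAt.y0 := by
    intro x y hy
    rw [List.mem_singleton] at hy
    rw [hy]
    unfold NmRt.Vq
    split_ifs <;> simp
  obtain ⟨A1, hA1⟩ := nm_pro_alph S [r.Vq x1] (hV x1)
  obtain ⟨A2, hA2⟩ := nm_pro_alph S [r.Vq x2] (hV x2)
  have u1 : UBdd (S.cq.seqHC (S.ats [r.Vq x1]) (S.ats (NmAt.tc z :: r.Sd))) := nm_pro_ubdd _ hA1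
  have u2 : UBdd (S.cq.seqHC (S.ats [r.Vq x2]) (S.ats (NmAt.tc z :: r.Sd))) := nm_pro_ubdd _ hA2
  have e := ulim_sub _ _ u2 u1
  unfold NmSeq.HM
  show _ = ulim (S.cq.seqHC (S.ats [r.Vq x2]) (S.ats (NmAt.tc z :: r.Sd))) - ulim (S.cq.seqHC (S.ats [r.Vq x1]) (S.ats (NmAt.tc z :: r.Sd)))
  rw [← e]
  unfold NmSeq.HC
  apply ulim_congr
  refine Eventually.of_forall fun n => ?_
  show ((S.D n).P 1).entC (S.ats [r.Vq x2] n) (S.ats (NmAt.tc z :: r.Vq x1 :: r.Sd) n) / (S.D n).lgs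
    = ((S.D n).P 1).entC (S.ats [r.Vq x2] n) (S.ats (NmAt.tc z :: r.Sd) n) / (S.D n).lgs
      - ((S.D n).P 1).entC (S.ats [r.Vq x1] n) (S.ats (NmAt.tc z :: r.Sd) n) / (S.D n).lgs
  rw [← sub_div]
  congr 1
  obtain ⟨hs0, hs1⟩ := nm_pro_hs S n
  have c1 : ((S.D n).P 1).entC (S.ats [r.Vq x2] n) (S.ats (NmAt.tc z :: r.Vq x1 :: r.Sd) n)
      = ((S.D n).P 1).entC (S.ats [r.Vq x2] n) (pair (S.ats [r.Vq x1] n) (S.ats (NmAt.tc z :: r.Sd) n)) := by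
    refine ent_entC_congr _ _ _ _ _ (fun ω ω' _ _ => ?_) (fun ω ω' _ _ _ => Iff.rfl)
    simp only [NmSeq.ats, SfDoc.ats, FLaw.pair, List.map_cons, List.map_nil, List.cons.injEq, Prod.mk.injEq, and_true]
    tauto
  have c2 := ent_entC_chain ((S.D n).P 1) (S.ats [r.Vq x1] n) (S.ats [r.Vq x2] n) (S.ats (NmAt.tc z :: r.Sd) n)
  have c3 : ((S.D n).P 1).entC (pair (S.ats [r.Vq x1] n) (S.ats [r.Vq x2] n)) (S.ats (NmAt.tc z :: r.Sd) n)
      = ((S.D n).P 1).entC (S.ats [r.Vq x2] n) (S.ats (NmAt.tc z :: r.Sd) n) := by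
    refine ent_entC_congr _ _ _ _ _ (fun ω ω' _ _ => Iff.rfl) (fun ω ω' _ _ _ => ?_)
    simp only [FLaw.pair, Prod.mk.injEq]
    constructor
    · intro h
      exact h.2
    · intro h
      refine ⟨?_, h⟩
      have h2 : (S.D n).vq π r x2 ω = (S.D n).vq π r x2 ω' := ((nm_mq_ats_iff (S.D n) π r z x2 ω ω').2).1 h
      exact ((nm_mq_ats_iff (S.D n) π r z x1 ω ω').2).2 (nm_cell_nest hs0 hs1 hx h2)
  rw [c1]
  linarith

/-- **`PcList` below `p_*`**.   The set `{x ≤ 1 | HP ds x a = 0}` is nonempty: `|P| ≤ s^(-M)` (`(nm_pro_pbraw ds).P`), so for `x ≤ -(M+1)` the bin `[P]_x` has `≤ 3` values and `HP = 0` (`nm_me_HC_zero`);  `exists_lt_of_lt_csSup` gives `x > x_*` with `HP ds x a = 0`;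
`entC ([P]_{x_*} | Y) ≤ entC ([P]_x | Y)` (`ent_entC_mono`, `nm_cell_nest`), so `entC ([P]_{x_*} | y_0, t_a) / lgs → 0` (`ulim_tendsto`, `UBdd` by `nm_me_ubdd`), eventually `≤ e0²`.
`G ω := surC < e0 lgs`:  `P(¬ G) ≤ entC / (e0 lgs) ≤ e0` (`nm_me_sur_markov`);  `NVal G` with `exp (e0 lgs) = s^(-e0)` values (`nm_mk_pop`, `nm_me_rpow_lgs`).      OWNER L-256-NM-MRK-PROFC, EST 300 -/
theorem nm_mq_pclist (r : NmRt) (hxs : r.σ.exact = true → r.σ.lin = false → r.σ.xs < S.pst r.q.ds r.a) (e0 : ℝ) (he0 : 0 < e0) :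
    ∀ᶠ n in uf, (S.D n).PcList π r e0 := by
  by_cases hcase : r.σ.exact = true ∧ r.σ.lin = false
  swap
  · exact Eventually.of_forall fun n h1 h2 => absurd ⟨h1, h2⟩ hcase
  have hx := hxs hcase.1 hcase.2
  obtain ⟨M, hM0, hM⟩ := (nm_pro_pbraw (S := S) r.q.ds).P
  have hbd : ∀ x : ℝ, UBdd fun n => ((S.D n).P 1).entC ((S.D n).Pc π r.q.ds x) (S.pr2 S.y0 (S.tc r.a) n) / (S.D n).lgs := by
    intro x
    refine nm_me_ubdd S (fun n ω => ((S.D n).raw π r.q.ds ω).P) x M 1 zero_le_one ?_ (S.pr2 S.y0 (S.tc r.a))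
    filter_upwards [hM] with n hn ω _
    rw [one_mul]
    exact hn ω
  have hne : {x : ℝ | x ≤ 1 ∧ S.HP r.q.ds x r.a = 0}.Nonempty := by
    refine ⟨-M, by linarith, ?_⟩
    refine nm_me_HC_zero S _ _ fun e he => ?_
    filter_upwards [hM, nm_me_lgs_top S (Real.log 11 / e)] with n hn hl
    obtain ⟨hs0, hs1⟩ := nm_me_s S n
    have h1 := nm_me_nval_close ((S.D n).P 1) (fun _ => True) (S.pr2 S.y0 (S.tc r.a) n) (fun ω => ((S.D n).raw π r.q.ds ω).P) hs0 hs1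
      (-M) (-M) (K := 2) (by norm_num) (fun ω ω' _ _ _ _ _ => by
        have a1 := hn ω
        have a2 := hn ω'
        have a3 := abs_sub (((S.D n).raw π r.q.ds ω).P) (((S.D n).raw π r.q.ds ω').P)
        linarith)
    refine ltk_nval_mono _ h1 (fun _ h => h) (fun _ _ h => h) ⟨id, fun _ => rfl⟩ ?_
    rw [sub_self, neg_zero, Real.rpow_zero, nm_me_rpow_lgs _ hs0]
    have h2 : Real.log 11 ≤ e * (S.D n).lgs := by
      rw [div_le_iff₀ he] at hl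
      linarith
    have h3 := Real.exp_le_exp.2 h2
    rw [Real.exp_log (by norm_num)] at h3
    linarith
  obtain ⟨x, ⟨-, hx0⟩, hxx⟩ := exists_lt_of_lt_csSup hne hx
  have hlt : ulim (fun n => ((S.D n).P 1).entC ((S.D n).Pc π r.q.ds x) (S.pr2 S.y0 (S.tc r.a) n) / (S.D n).lgs) < e0 ^ 2 := by
    have : ulim (fun n => ((S.D n).P 1).entC ((S.D n).Pc π r.q.ds x) (S.pr2 S.y0 (S.tc r.a) n) / (S.D n).lgs) = 0 := hx0
    rw [this]
    positivity
  filter_upwards [eventually_lt_of_ulim_lt _ _ (hbd x) hlt] with n hn _ _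
  obtain ⟨hs0, hs1⟩ := nm_me_s S n
  have hl := nm_me_lgs_pos S n
  have hmono : ((S.D n).P 1).entC ((S.D n).Pc π r.q.ds r.σ.xs) (pair (S.D n).y0 ((S.D n).tc r.a))
      ≤ ((S.D n).P 1).entC ((S.D n).Pc π r.q.ds x) (pair (S.D n).y0 ((S.D n).tc r.a)) :=
    ent_entC_mono _ _ _ _ fun ω ω' _ _ h _ => nm_cell_nest hs0 hs1 hxx.le h
  have hn' : ((S.D n).P 1).entC ((S.D n).Pc π r.q.ds x) (pair (S.D n).y0 ((S.D n).tc r.a)) < e0 ^ 2 * (S.D n).lgs := by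
    rwa [div_lt_iff₀ hl] at hn
  refine ⟨fun ω => ((S.D n).P 1).surC ((S.D n).Pc π r.q.ds r.σ.xs) (pair (S.D n).y0 ((S.D n).tc r.a)) ω < e0 * (S.D n).lgs, ?_, ?_⟩
  · have hmk := nm_me_sur_markov ((S.D n).P 1) ((S.D n).Pc π r.q.ds r.σ.xs) (pair (S.D n).y0 ((S.D n).tc r.a)) (lam := e0 * (S.D n).lgs) (by positivity)
    refine le_trans (ent_pr_mono _ fun ω _ h => not_lt.1 h) (hmk.trans ?_)
    rw [div_le_iff₀ (by positivity)]
    have e1 : e0 * (e0 * (S.D n).lgs) = e0 ^ 2 * (S.D n).lgs := by ring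
    rw [e1]
    exact hmono.trans hn'.le
  · obtain ⟨Lam, hcard, hmem⟩ := nm_mk_pop ((S.D n).P 1) ((S.D n).Pc π r.q.ds r.σ.xs) (pair (S.D n).y0 ((S.D n).tc r.a)) (e0 * (S.D n).lgs)
    intro ω₀
    refine ⟨Lam (pair (S.D n).y0 ((S.D n).tc r.a) ω₀), ?_, fun ω hω hG hY => ?_⟩
    · rw [nm_me_rpow_lgs _ hs0]
      exact hcard _
    · rw [← hY]
      exact hmem ω hω hG

/-- **the `r`-increment along a flat sequence**.   `nm_mq_ri_fin` with `acc = ε / 2` (`τ = 1`, `κ0 = κ 1`, `nm_me_fine_ev`);   `nm_mk_flat_ev` for `L = [r.Vq (B + x2 h)]`, `L' = tc (a + z h) :: r.Vq (B + x1 h) :: r.Sd` with `ε / 2`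
(admissible: `bc`, `Pc`: `hD`, `⟨r.q, hr.q, rfl⟩`;  `nm r.q A V` (coarse): `hr.anc`: `0 ≤ A < a < De`, `V ≥ v ≥ 0`;  `L` has no `y0`);   `nm_mq_HC_chain`;   triangle inequality, `ent_pr_or_le`.      OWNER L-256-NM-MRK-PROFD, EST 250 -/
theorem nm_mq_ri (hπ : π.Valid) (Ds : Set ℝ) (hF : S.Flat Ds) (Λ : ℝ) (hΛ : 0 ≤ Λ) (r : NmRt) (hr : r.Ok π Λ) (hD : r.q.ds.De ∈ Ds) (hc : r.c π < 1) (hB : 2 ≤ r.B)
    (hh : 0 < r.h) (z x1 x2 : ℝ) (hz : 0 ≤ z) (hzR : z ≤ r.Rm) (hzD : r.a + z * r.h < r.q.ds.De) (hx1 : 0 ≤ x1) (hx : x1 ≤ x2) (hxR : x2 ≤ r.Rm)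
    (ε : ℝ) (hε : 0 < ε) : ∀ᶠ n in uf,
      ((S.D n).P 1).pr (fun ω => ε * (S.D n).lgs
        < |((S.D n).P 1).surC ((S.D n).rq π r x2) (pair ((S.D n).side π r.q r.σ r.a) (pair ((S.D n).thq π r z) ((S.D n).rq π r x1))) ω
          - (S.HM r.Vq r.Sd (r.Bg π r.a + x2 * r.h) (r.a + z * r.h) - S.HM r.Vq r.Sd (r.Bg π r.a + x1 * r.h) (r.a + z * r.h)) * (S.D n).lgs|) ≤ ε := by
  obtain ⟨t0, ht0, hfin⟩ := nm_mq_ri_fin π hπ C0 1 (κ 1) Λ r hr hc hB hh z x1 x2 hz hzR hzD hx1 hx hxR (ε / 2) (by positivity)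
  have e1 := nm_me_fine_ev S 1 one_pos t0 ht0
  have hfam : (∃ q : NmQ, q.Fam π ∧ q.ds = r.q.ds) ∨ r.q.ds = nmDsEq π := Or.inl ⟨r.q, hr.q, rfl⟩
  have hVok : ∀ x, r.Vq x ≠ NmAt.y0 ∧ (r.Vq x).Ok π Ds := by
    intro x
    unfold NmRt.Vq
    split_ifs
    · exact ⟨fun h => NmAt.noConfusion h, hD, hfam⟩
    · exact ⟨fun h => NmAt.noConfusion h, hD, hfam⟩
  have hSd : ∀ y ∈ r.Sd, y.Ok π Ds := by
    intro y hy
    unfold NmRt.Sd at hy
    by_cases he : r.σ.exact = true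
    · rw [if_pos he] at hy
      by_cases hl : r.σ.lin = true
      · rw [if_pos hl, List.mem_singleton] at hy
        rw [hy]
        exact trivial
      · rw [if_neg hl] at hy
        rcases List.mem_cons.1 hy with h | h
        · rw [h]
          exact trivial
        · rw [List.mem_singleton] at h
          rw [h]
          exact ⟨hD, hfam⟩
    · rw [if_neg he, List.mem_singleton] at hy
      rw [hy]
      have he' : r.σ.exact = false := by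
        cases h : r.σ.exact
        · rfl
        · exact absurd h he
      obtain ⟨a1, a2, a3, -⟩ := hr.anc he'
      have h5 : 0 ≤ 1 + r.c π + |π.q| + π.J := by
        have := hr.rate; have := abs_nonneg π.q; have := hπ.J0; linarith
      have h6 : 0 ≤ r.a - r.σ.A := by linarith
      have h7 : 0 ≤ Λ * (1 + r.c π + |π.q| + π.J) * (r.a - r.σ.A) := mul_nonneg (mul_nonneg hΛ h5) h6
      refine ⟨hr.q, hD, a1, ?_, ?_⟩
      · linarith [hr.ha.2]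
      · linarith [hr.hv]
  have e2 := nm_mk_flat_ev S Ds hF [r.Vq (r.Bg π r.a + x2 * r.h)]
    (NmAt.tc (r.a + z * r.h) :: r.Vq (r.Bg π r.a + x1 * r.h) :: r.Sd)
    (fun x hx' => by
      rw [List.mem_singleton] at hx'
      rw [hx']
      exact hVok _)
    (fun x hx' => by
      rcases List.mem_cons.1 hx' with h | h
      · rw [h]
        exact trivial
      · rcases List.mem_cons.1 h with h | h
        · rw [h]
          exact (hVok _).2
        · exact hSd x h)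
    (ε / 2) (by positivity)
  have hch := nm_mq_HC_chain S r (r.Bg π r.a + x1 * r.h) (r.Bg π r.a + x2 * r.h) (r.a + z * r.h)
    (by
      have := mul_le_mul_of_nonneg_right hx hh.le
      linarith)
  rw [hch] at e2
  filter_upwards [e1, e2] with n h1 h2
  have h3 := hfin (S.D n) h1
  have hor := ent_pr_or_le ((S.D n).P 1)
    (fun ω => ε / 2 * (S.D n).lgs < |((S.D n).P 1).surC ((S.D n).rq π r x2) (pair ((S.D n).side π r.q r.σ r.a) (pair ((S.D n).thq π r z) ((S.D n).rq π r x1))) ω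
        - ((S.D n).P 1).surC ((S.D n).ats π [r.Vq (r.Bg π r.a + x2 * r.h)])
            ((S.D n).ats π (NmAt.tc (r.a + z * r.h) :: r.Vq (r.Bg π r.a + x1 * r.h) :: r.Sd)) ω|)
    (fun ω => ε / 2 * (S.D n).lgs
      < |((S.D n).P 1).surC ((S.D n).ats π [r.Vq (r.Bg π r.a + x2 * r.h)]) ((S.D n).ats π (NmAt.tc (r.a + z * r.h) :: r.Vq (r.Bg π r.a + x1 * r.h) :: r.Sd)) ω
        - (S.HM r.Vq r.Sd (r.Bg π r.a + x2 * r.h) (r.a + z * r.h) - S.HM r.Vq r.Sd (r.Bg π r.a + x1 * r.h) (r.a + z * r.h)) * (S.D n).lgs|)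
  refine le_trans (ent_pr_mono _ fun ω _ hω => ?_) (hor.trans (by linarith))
  by_contra hcon
  rw [not_or, not_lt, not_lt] at hcon
  have htri := abs_sub_le (((S.D n).P 1).surC ((S.D n).rq π r x2) (pair ((S.D n).side π r.q r.σ r.a) (pair ((S.D n).thq π r z) ((S.D n).rq π r x1))) ω)
    (((S.D n).P 1).surC ((S.D n).ats π [r.Vq (r.Bg π r.a + x2 * r.h)]) ((S.D n).ats π (NmAt.tc (r.a + z * r.h) :: r.Vq (r.Bg π r.a + x1 * r.h) :: r.Sd)) ω)
    ((S.HM r.Vq r.Sd (r.Bg π r.a + x2 * r.h) (r.a + z * r.h) - S.HM r.Vq r.Sd (r.Bg π r.a + x1 * r.h) (r.a + z * r.h)) * (S.D n).lgs)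
  linarith [hcon.1, hcon.2]

end seq

end

end Claimed.Agent.R256
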