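import Claimed.Agent.R256.Nm.Mrk.Two

/-!
# Row 256 (S0496), unit NM, block MRK, file 3: WHAT A ROW OF THE GATE `a + p h` PREDICTS      (architect helper219; prefix `nm_mk_`)

(04-canonical-names.tex l.672-684.)      IDEA: a row of the gate near `i = a + p h` lists the side (`nm_side_pr`, `Nm/Side.lean`) AND the name `𝒞(i, v'')` at the MOVED time root `i` (helper51's exits `nm_x_row_eq`, `nm_x_row_lin`, `nm_x_row_mid` of
`Nm/Pred/Exit.lean`: no bound on the width), `v'' = nmMkV π q lin i`.   The frame `(t_i, R_i, k_i, L_i)` of that name and the frame of the side give `θ` to `2 s^(i-a) = 2 δ^p` and `r` to `3 δ^(dep p)`: pure algebra of `Mrk/Two.lean`.   No gate enters the algebra.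
* `nmMkV`, `NmRt.dep`, `nm_mk_V_l`.
* `nm_mk_row_nm` (N1) : the rows near `i` list `𝒞(i, v'')`.
* `nm_mk_endok`, `nm_mk_te`, `nm_mk_nest` : time nesting of the end point label on charged rows;   `nm_mk_smk` : stored marks of charged rows.
* `nm_mk_row_Y` : the rows near `a + p h` list `(Z, θ_p, r_{dep p})`.
* `nm_mk_tlist` : (value of the side, cell `θ_q`) lists the times of the gate near `a + q h`.
-/

set_option autoImplicit false

namespace Claimed.Agent.R256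

open Claimed.Agent.R255
open Claimed.Agent.R255.FLaw (pair)
open Classical

noncomputable section

/-- the width at which the name at the moved time root `i` is read -/
def nmMkV (π : SfPar) (q : NmQ) (lin : Bool) (i : ℝ) : ℝ := if lin then max 0 (π.b1 i - q.ds.b i) else 0

/-- the depth to which the gate `a + p h` predicts the second mark: `min(1,c') p` (quadratic), `c' p` (linear) -/
def NmRt.dep (r : NmRt) (π : SfPar) (p : ℝ) : ℝ := if r.σ.lin then r.c π * p else min 1 (r.c π) * p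

/-- on a linear branch the name at the moved root cuts `L` at `b_1(i)`  (`plin`: by definition; `clip`: `b i + v'' ≥ b1 i`).      OWNER L-256-NM-MRK-ROWA, EST 30 -/
theorem nm_mk_V_l (π : SfPar) (Λ : ℝ) (r : NmRt) (hr : r.Ok π Λ) (hl : r.σ.lin = true) (i : ℝ) :
    r.q.l π i (nmMkV π r.q r.σ.lin i) = π.b1 i := by
  unfold nmMkV NmQ.l
  rw [hl]
  rcases hr.brl hl with h | ⟨_, h, _⟩
  · rw [h]
  · rw [h]
    simp only [if_true]
    apply min_eq_right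
    have := le_max_right 0 (π.b1 i - r.q.ds.b i)
    linarith

/-- at the width `0` both `l` and `w` are at most `b` (templates `quad`, `clip`) -/
theorem nm_mk_rowa_l0 (π : SfPar) (q : NmQ) (htp : q.tp ≠ NmTp.plin) (i : ℝ) : q.l π i 0 ≤ q.ds.b i ∧ q.w π i 0 ≤ q.ds.b i := by
  unfold NmQ.l NmQ.w
  cases h : q.tp with
  | quad => simp
  | clip => simp
  | plin => exact absurd h htp


/-- **(N1)** the rows of the gate near `i ∈ [a, De)` list the name at the time root `i`.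
CASES on `hr.q : r.q.Fam π` (`q.Ok π` = `nm_fam_ok`), name root `a := i`, width `v := nmMkV ..`:
* EQ (`De = 1`, `b i = c2 (i-1) = b2 i`): `nm_x_row_eq`.   `lin = false`, `v = 0`: `l(i,0) ≤ b i ≤ min (b1 i) 0` since `b1 i - b2 i = J (1-i) ≥ 0`; `w(i,0) ≤ b i ≤ 0`.   `lin = true` (clip, exact, so classical by `hr.hyb`): `l = b1 i ≤ 0` (`0 < π.Cr` from `Fam`).
* LIN (`tp = plin`, so `lin = true` by `hr.brq`; `b i = 0`, `q = c1 + J` from `hπ.fam`, `b1 i = c1 (i-1) ≤ 0`, `v = 0`): `nm_x_row_lin`.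
* ST (`b i = b2 De + (i - De)`): `nm_x_row_mid`.   `lin = false`, `v = 0`: `b1 i - b i = (1-q)(De-i) + J(1-i) ≥ 0`, `b i ≤ b2 De ≤ b1 De`; hybrid: `De = 1`, `b i = i - 1 ≤ 0`.   `lin = true`: `l = b1 i ≤ b1 De` (`0 < π.Cr`).
OWNER L-256-NM-MRK-ROWA, EST 250 -/
theorem nm_mk_row_nm (π : SfPar) (hπ : π.Valid) (C0 τ κ0 Λ : ℝ) (r : NmRt) (hr : r.Ok π Λ) (i : ℝ) (hi : r.a ≤ i) (hiD : i < r.q.ds.De)
    (acc : ℝ) (hacc : 0 < acc) : ∃ t0 : ℝ, 0 < t0 ∧ ∀ D : SfDoc, D.Fine π C0 τ κ0 t0 →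
      D.RowPr (D.gt i) (fun _ => True) (D.nm π r.q i (nmMkV π r.q r.σ.lin i)) (D.s ^ (-acc)) := by
  have hqok := nm_fam_ok π hπ r.q hr.q
  obtain ⟨hg, hcl, hfam⟩ := hr.q
  have hi0 : 0 ≤ i := hr.ha.1.le.trans hi
  have hJ := hπ.J0
  -- the linear branch with a template `≠ plin` is clipped, exact, classical
  have hlinc : r.σ.lin = true → r.q.tp ≠ NmTp.plin → 0 < π.q - π.J ∧ π.hyb = false := by
    intro hl htp
    rcases hr.brl hl with h | ⟨he, h, _⟩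
    · exact absurd h htp
    · refine ⟨hcl h, ?_⟩
      by_contra hh
      have hh' : π.hyb = true := by
        cases hb : π.hyb with
        | true => rfl
        | false => exact absurd hb hh
      rw [(hr.hyb hh').1] at he
      exact Bool.noConfusion he
  rcases hfam with ⟨hc, hqc, hds, htp⟩ | ⟨hc, hc1, hds, htp⟩ | ⟨hc, hq1, htp, De, hDe0, hDe1, hhD, hds⟩
  · -- EQ
    have hDe : r.q.ds.De = 1 := by rw [hds]; rfl
    have hi1 : i < 1 := by rw [← hDe]; exact hiD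
    have hb : r.q.ds.b i = π.c2 * (i - 1) := by
      rw [hds]
      simp [nmDsEq, NmDs.b]
    refine nm_x_row_eq π hπ C0 τ κ0 r.q hqok hc hqc hds htp i i _ ⟨le_rfl, hi1, hi0⟩ ?_ ?_ acc hacc
    · cases hl : r.σ.lin with
      | false =>
        have hv : nmMkV π r.q false i = 0 := by simp [nmMkV]
        rw [hv]
        refine (nm_mk_rowa_l0 π r.q htp i).1.trans ?_
        rw [hb, le_min_iff]
        unfold SfPar.b1
        rw [hqc]
        constructor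
        · nlinarith
        · nlinarith
      | true =>
        have h1 := nm_mk_V_l π Λ r hr hl i
        rw [hl] at h1
        rw [h1, le_min_iff]
        refine ⟨le_rfl, ?_⟩
        have h2 := (hlinc hl htp).1
        unfold SfPar.b1
        nlinarith
    · intro hh
      cases hl : r.σ.lin with
      | false =>
        have hv : nmMkV π r.q false i = 0 := by simp [nmMkV]
        rw [hv]
        have h1 := (nm_mk_rowa_l0 π r.q htp i).2
        rw [hb] at h1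
        nlinarith
      | true =>
        rw [(hlinc hl htp).2] at hh
        exact Bool.noConfusion hh
  · -- LIN
    have hDe : r.q.ds.De = 1 := by rw [hds]; rfl
    have hi1 : i < 1 := by rw [← hDe]; exact hiD
    have hl : r.σ.lin = true := by
      cases hl : r.σ.lin with
      | true => rfl
      | false => exact absurd htp (hr.brq hl).1
    have hqJ : π.q = π.c1 + π.J := by
      rcases hπ.fam with ⟨g1, -⟩ | ⟨g1, -⟩ | ⟨-, -, g3⟩
      · rw [hc] at g1; exact absurd g1 (lt_irrefl _)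
      · rw [hc] at g1; norm_num at g1
      · exact g3
    refine nm_x_row_lin π hπ C0 τ κ0 r.q hqok hc hds i i _ ⟨le_rfl, hi1, hi0⟩ (nm_mk_V_l π Λ r hr hl i).le ?_ acc hacc
    intro _
    have hb : r.q.ds.b i = 0 := by
      rw [hds]
      simp [nmDsLin, NmDs.b]
    have hb1 : π.b1 i ≤ 0 := by
      unfold SfPar.b1
      rw [hqJ]
      nlinarith
    have hv : nmMkV π r.q r.σ.lin i = 0 := by
      unfold nmMkV
      rw [hl, hb]
      simp only [if_true, sub_zero]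
      exact max_eq_left hb1
    rw [hv]
    unfold NmQ.w
    rw [htp]
    simp only
    linarith
  · -- ST
    have hDe : r.q.ds.De = De := by rw [hds]; rfl
    have hiD' : i < De := by rw [← hDe]; exact hiD
    have hb : r.q.ds.b i = π.b2 De + (i - De) := by
      rw [hds]
      simp [nmDsStr, NmDs.b]
    refine nm_x_row_mid π hπ C0 τ κ0 r.q hqok hq1 De ⟨hDe0, hDe1⟩ hhD hds htp i i _ ⟨le_rfl, hiD', hi0⟩ ?_ ?_ acc hacc
    · cases hl : r.σ.lin with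
      | false =>
        have hv : nmMkV π r.q false i = 0 := by simp [nmMkV]
        rw [hv]
        refine (nm_mk_rowa_l0 π r.q htp i).1.trans ?_
        rw [hb, le_min_iff]
        unfold SfPar.b1 SfPar.b2
        constructor
        · nlinarith [mul_nonneg (sub_nonneg.2 hq1.le) (sub_nonneg.2 hiD'.le), mul_nonneg hJ (by linarith : (0 : ℝ) ≤ 1 - i)]
        · nlinarith [mul_nonneg hJ (by linarith : (0 : ℝ) ≤ 1 - De)]
      | true =>
        have h1 := nm_mk_V_l π Λ r hr hl i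
        rw [hl] at h1
        rw [h1, le_min_iff]
        refine ⟨le_rfl, ?_⟩
        have h2 := (hlinc hl htp).1
        unfold SfPar.b1
        nlinarith
    · intro hh
      cases hl : r.σ.lin with
      | false =>
        have hv : nmMkV π r.q false i = 0 := by simp [nmMkV]
        rw [hv]
        have h1 := (nm_mk_rowa_l0 π r.q htp i).2
        rw [hb, hhD hh] at h1
        have h2 : i < 1 := by rw [← hhD hh]; exact hiD'
        unfold SfPar.b2 at h1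
        linarith
      | true =>
        rw [(hlinc hl htp).2] at hh
        exact Bool.noConfusion hh

/-- the end point of an admissible display (`EQ`, `LIN`: `De = 1`;  `ST`: `De < 1` is classical, `nm_gt_near`).      OWNER L-256-NM-MRK-ROWB, EST 50 -/
theorem nm_mk_endok {D : SfDoc} {π : SfPar} {C0 τ κ0 t : ℝ} (hD : D.Fine π C0 τ κ0 t) {q : NmQ} (hq : q.Fam π)
    (h1 : q.ds.De ≠ 1 → q.ds.De + t < 1) : D.EndOk π q.ds.De ∧ 0 < q.ds.De ∧ q.ds.De ≤ 1 := by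
  obtain ⟨_, _, hfam⟩ := hq
  rcases hfam with ⟨_, _, hds, _⟩ | ⟨_, _, hds, _⟩ | ⟨_, _, _, De, hDe0, hDe1, hhD, hds⟩
  · have hDe : q.ds.De = 1 := by rw [hds]; rfl
    rw [hDe]
    exact ⟨Or.inl rfl, one_pos, le_rfl⟩
  · have hDe : q.ds.De = 1 := by rw [hds]; rfl
    rw [hDe]
    exact ⟨Or.inl rfl, one_pos, le_rfl⟩
  · have hDe : q.ds.De = De := by rw [hds]; rfl
    rw [hDe] at h1 ⊢
    refine ⟨?_, hDe0, hDe1⟩
    by_cases h : De = 1
    · exact Or.inl h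
    · refine Or.inr ⟨h, ?_, ?_⟩
      · have h2 := abs_le.1 (nm_gt_near hD hDe0.le hDe1)
        have h3 := h1 h
        linarith [h2.2]
      · cases hb : π.hyb with
        | false => rfl
        | true => exact absurd (hhD hb) h

/-- the interval of the end point label contains the final time.   `De = 1`: `nm_labAt_one`, `nm_gt_self`, `len 1 = s > 0`.   `De ≠ 1`: `clPath` gives an ancestor at `D.gt De`, so `labAt` is the label of the chosen one; `base`.      OWNER L-256-NM-MRK-ROWB, EST 70 -/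
theorem nm_mk_te {D : SfDoc} {π : SfPar} {C0 t : ℝ} (hD : D.Core π C0 t) {De : ℝ} (hE : D.EndOk π De) {ω : D.Row 1} (hω : (D.P 1).p ω ≠ 0) :
    (D.labAt De ω).T ≤ D.T 1 ω ∧ D.T 1 ω ≤ (D.labAt De ω).T + D.len (D.gt De) := by
  have hs := hD.hs
  rcases hE with hE | ⟨hne, hlt, hcl⟩
  · rw [hE, nm_labAt_one, nm_gt_self D hD.gate.1, hD.hlen.1]
    show D.T 1 ω ≤ D.T 1 ω ∧ D.T 1 ω ≤ D.T 1 ω + D.s
    exact ⟨le_rfl, by linarith [hs.1]⟩
  · have hG : D.gt De ∈ D.G := nm_gt_mem D ⟨1, hD.gate.1⟩ De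
    have hpos : 0 < (D.P 1).p ω := lt_of_le_of_ne ((D.P 1).nonneg ω) (Ne.symm hω)
    obtain ⟨ρ, hρ, -⟩ := hD.clPath hcl _ hG 1 hD.gate.1 hlt ω hpos
    rw [nm_labAt_eq hD hcl hne hlt hρ]
    obtain ⟨b1, b2, -, -⟩ := hD.base _ hG 1 hD.gate.1 hlt ρ ω hρ
    rw [hD.hlen.1] at b2
    show D.T (D.gt De) ρ ≤ D.T 1 ω ∧ D.T 1 ω ≤ D.T (D.gt De) ρ + D.len (D.gt De)
    exact ⟨b1, by linarith [hs.1]⟩

/-- **time nesting**: `len (gt De) ≤ s^(gt De - t) ≤ s^(De - 2t) ≤ s^i`.      OWNER L-256-NM-MRK-ROWB, EST 60 -/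
theorem nm_mk_nest {D : SfDoc} {π : SfPar} {C0 τ κ0 t : ℝ} (hD : D.Fine π C0 τ κ0 t) {q : NmQ} (hq : q.Fam π) (h1 : q.ds.De ≠ 1 → q.ds.De + t < 1)
    {i : ℝ} (hi : i + 2 * t ≤ q.ds.De) {ω : D.Row 1} (hω : (D.P 1).p ω ≠ 0) :
    (D.raw π q.ds ω).Te ≤ (D.raw π q.ds ω).T ∧ (D.raw π q.ds ω).T ≤ (D.raw π q.ds ω).Te + D.s ^ i := by
  have hC := hD.ok.core
  have hs := hC.hs
  obtain ⟨hE, hDe0, hDe1⟩ := nm_mk_endok hD hq h1
  obtain ⟨h2, h3⟩ := nm_mk_te hC hE hω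
  have hG : D.gt q.ds.De ∈ D.G := nm_gt_mem D ⟨1, hC.gate.1⟩ q.ds.De
  have h4 := (hC.hlen.2 _ hG).2
  have h5 := abs_le.1 (nm_gt_near hD hDe0.le hDe1)
  have h6 : D.s ^ (D.gt q.ds.De - t) ≤ D.s ^ i := nm_pow_anti hs.1 hs.2 (by linarith [h5.1])
  show (D.labAt q.ds.De ω).T ≤ D.T 1 ω ∧ D.T 1 ω ≤ (D.labAt q.ds.De ω).T + D.s ^ i
  exact ⟨h2, by linarith⟩

/-- the stored marks of a charged row (`nm_mk_nest` at `i = a`, `nm_mk_mbd`, `nm_mk_mst`; quadratic branch: `cut ≠ none` since `tp ≠ plin` by `brq` and `Fam`).      OWNER L-256-NM-MRK-ROWB, EST 70 -/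
theorem nm_mk_smk {D : SfDoc} {π : SfPar} {C0 τ κ0 t Λ : ℝ} (hD : D.Fine π C0 τ κ0 t) (r : NmRt) (hr : r.Ok π Λ) (hB : 2 ≤ r.B)
    (h1 : r.q.ds.De ≠ 1 → r.q.ds.De + t < 1) (ha : r.a + 2 * t ≤ r.q.ds.De) {ω : D.Row 1} (hω : (D.P 1).p ω ≠ 0) :
    D.smk π r ω = ⟨trep (D.s ^ r.h) r.Rm ((D.raw π r.q.ds ω).mark D.s π r.q r.a (!r.σ.lin)).th,
      trep (D.s ^ r.h) r.Rm ((D.raw π r.q.ds ω).mark D.s π r.q r.a (!r.σ.lin)).r,
      trep (D.s ^ r.h) r.Rm ((D.raw π r.q.ds ω).mark D.s π r.q r.a (!r.σ.lin)).k⟩ := by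
  have hs := hD.ok.core.hs
  have hx := nm_mk_nest hD hr.q h1 ha hω
  have hcut : (!r.σ.lin) = true → r.q.ds.cut ≠ NmCut.none := by
    intro hl
    have hl' : r.σ.lin = false := by
      cases hb : r.σ.lin with
      | false => rfl
      | true => rw [hb] at hl; exact Bool.noConfusion hl
    have htp := (hr.brq hl').1
    obtain ⟨_, _, hfam⟩ := hr.q
    rcases hfam with ⟨_, _, hds, _⟩ | ⟨_, _, _, htp'⟩ | ⟨_, _, _, De, _, _, _, hds⟩
    · rw [hds]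
      unfold nmDsEq
      simp only
      split_ifs <;> simp
    · exact absurd htp' htp
    · rw [hds]
      simp [nmDsStr]
  obtain ⟨b1, b2, b3⟩ := nm_mk_mbd hs π r.q r.a (!r.σ.lin) hcut (D.raw π r.q.ds ω) hx
  unfold SfDoc.smk nmStore
  rw [if_pos ⟨by linarith, by linarith, by linarith⟩]

theorem nm_mk_Y_De {π : SfPar} {q : NmQ} (hq : q.Fam π) : q.ds.De ≤ 1 := by
  obtain ⟨-, -, h⟩ := hq
  rcases h with ⟨-, -, h3, -⟩ | ⟨-, -, h3, -⟩ | ⟨-, -, -, De, -, h2, -, h3⟩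
  · rw [h3]
    exact le_refl (1 : ℝ)
  · rw [h3]
    exact le_refl (1 : ℝ)
  · rw [h3]
    exact h2

theorem nm_mk_Y_cut {π : SfPar} {q : NmQ} (hq : q.Fam π) (htp : q.tp ≠ NmTp.plin) :
    q.ds.cut ≠ NmCut.none ∧ (q.ds.cut = NmCut.slope → 1 ≤ q.ds.bs) ∧ (q.ds.cut = NmCut.const → q.ds.bs ≤ 1) := by
  obtain ⟨-, -, h⟩ := hq
  rcases h with ⟨-, -, h3, -⟩ | ⟨-, -, -, h4⟩ | ⟨-, -, -, De, -, -, -, h3⟩
  · rw [h3]
    by_cases h5 : 1 < π.c2
    · refine ⟨?_, fun _ => h5.le, ?_⟩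
      · show (if 1 < π.c2 then NmCut.slope else NmCut.const) ≠ NmCut.none
        rw [if_pos h5]
        exact fun h => NmCut.noConfusion h
      · intro h
        have h' : (if 1 < π.c2 then NmCut.slope else NmCut.const) = NmCut.const := h
        rw [if_pos h5] at h'
        exact NmCut.noConfusion h'
    · refine ⟨?_, ?_, fun _ => not_lt.1 h5⟩
      · show (if 1 < π.c2 then NmCut.slope else NmCut.const) ≠ NmCut.none
        rw [if_neg h5]
        exact fun h => NmCut.noConfusion h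
      · intro h
        have h' : (if 1 < π.c2 then NmCut.slope else NmCut.const) = NmCut.slope := h
        rw [if_neg h5] at h'
        exact NmCut.noConfusion h'
  · exact absurd h4 htp
  · rw [h3]
    exact ⟨fun h => NmCut.noConfusion h, fun h => NmCut.noConfusion h, fun _ => le_refl (1 : ℝ)⟩

theorem nm_mk_Y_plin {π : SfPar} {q : NmQ} (hq : q.Fam π) (htp : q.tp = NmTp.plin) : q.ds.cut = NmCut.none := by
  obtain ⟨-, -, h⟩ := hq
  rcases h with ⟨-, -, -, h4⟩ | ⟨-, -, h3, -⟩ | ⟨-, -, h4, -⟩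
  · exact absurd htp h4
  · rw [h3]
    rfl
  · exact absurd htp h4

theorem nm_mk_Y_close {D : SfDoc} {π : SfPar} {C0 τ κ0 t Λ : ℝ} (hD : D.Fine π C0 τ κ0 t) (r : NmRt) (hr : r.Ok π Λ) (hh : 0 < r.h)
    {p : ℝ} (hp : 0 ≤ p) (hpD : r.a + p * r.h + 2 * t ≤ r.q.ds.De) (h1 : r.q.ds.De ≠ 1 → r.q.ds.De + t < 1)
    {ω ω' : D.Row 1} (hω : (D.P 1).p ω ≠ 0) (hω' : (D.P 1).p ω' ≠ 0) (hZ : D.side π r.q r.σ r.a ω = D.side π r.q r.σ r.a ω')
    (hn : D.nm π r.q (r.a + p * r.h) (nmMkV π r.q r.σ.lin (r.a + p * r.h)) ω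
      = D.nm π r.q (r.a + p * r.h) (nmMkV π r.q r.σ.lin (r.a + p * r.h)) ω') :
    |((D.raw π r.q.ds ω).mark D.s π r.q r.a (!r.σ.lin)).th - ((D.raw π r.q.ds ω').mark D.s π r.q r.a (!r.σ.lin)).th|
        ≤ 2 * (D.s ^ r.h) ^ p ∧
    |((D.raw π r.q.ds ω).mark D.s π r.q r.a (!r.σ.lin)).r - ((D.raw π r.q.ds ω').mark D.s π r.q r.a (!r.σ.lin)).r|
        ≤ 3 * (D.s ^ r.h) ^ (r.dep π p) := by
  have hs := hD.ok.core.hs
  have hx := nm_mk_nest hD hr.q h1 hpD hω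
  have hy := nm_mk_nest hD hr.q h1 hpD hω'
  have hZt : nmCell D.s r.a (D.raw π r.q.ds ω).T = nmCell D.s r.a (D.raw π r.q.ds ω').T := congrArg (fun z => z.2.1.2.2) hZ
  have hZR : (D.raw π r.q.ds ω).Rc D.s r.q r.a = (D.raw π r.q.ds ω').Rc D.s r.q r.a := congrArg (fun z => z.2.2.1) hZ
  have hZk : (D.raw π r.q.ds ω).kc D.s r.q r.a = (D.raw π r.q.ds ω').kc D.s r.q r.a := congrArg (fun z => z.2.2.2.1) hZ
  have hZL : (if r.σ.lin then nmCell D.s (π.b1 r.a) ((D.raw π r.q.ds ω).Lraw D.s r.q r.a) else 0)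
      = (if r.σ.lin then nmCell D.s (π.b1 r.a) ((D.raw π r.q.ds ω').Lraw D.s r.q r.a) else 0) := congrArg (fun z => z.2.2.2.2) hZ
  have hZy : (if r.σ.exact then some (D.y0 ω) else none) = (if r.σ.exact then some (D.y0 ω') else none) := congrArg (fun z => z.1.1) hZ
  have hnt : nmCell D.s (r.a + p * r.h) (D.raw π r.q.ds ω).T = nmCell D.s (r.a + p * r.h) (D.raw π r.q.ds ω').T := congrArg NmNm.t hn
  have hnR : (D.raw π r.q.ds ω).Rc D.s r.q (r.a + p * r.h) = (D.raw π r.q.ds ω').Rc D.s r.q (r.a + p * r.h) := congrArg NmNm.R hn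
  have hai : r.a ≤ r.a + p * r.h := by
    have := mul_nonneg hp hh.le
    linarith
  constructor
  · have h := nm_mk_two_th hs π r.q (!r.σ.lin) r.a (r.a + p * r.h) _ _ hx hy hZt hnt
    refine h.trans (le_of_eq ?_)
    rw [← Real.rpow_mul hs.1.le]
    congr 2
    ring
  · cases hl : r.σ.lin with
    | false =>
      obtain ⟨htp, -⟩ := hr.brq hl
      obtain ⟨c1, c2, c3⟩ := nm_mk_Y_cut hr.q htp
      have h := nm_mk_two_rq hs π r.q hai c1 c2 c3 _ _ hx hy hZt hZR hZk hnt hnR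
      have hdep : r.dep π p = min 1 r.q.ds.bs * p := by
        unfold NmRt.dep NmRt.c
        rw [hl]
        rfl
      rw [hdep]
      refine h.trans (le_of_eq ?_)
      rw [← Real.rpow_mul hs.1.le]
      congr 2
      ring
    | true =>
      have hV := nm_mk_V_l π Λ r hr hl (r.a + p * r.h)
      rw [hl] at hZL hn hV
      have hz : r.q.ds.cut ≠ NmCut.none → (D.raw π r.q.ds ω).z.X = (D.raw π r.q.ds ω').z.X ∧ (D.raw π r.q.ds ω).z.B = (D.raw π r.q.ds ω').z.B := by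
        intro hc
        rcases hr.brl hl with h3 | ⟨h3, -, -⟩
        · exact absurd (nm_mk_Y_plin hr.q h3) hc
        · rw [h3] at hZy
          have h4 : D.y0 ω = D.y0 ω' := Option.some.inj hZy
          have h5 : D.ray 1 ω = D.ray 1 ω' := congrArg Prod.snd h4
          have h6 : (D.ray 1 ω).X = (D.ray 1 ω').X := congrArg SfRay.X h5
          have h7 : (D.ray 1 ω).B = (D.ray 1 ω').B := congrArg SfRay.B h5
          exact ⟨h6, h7⟩
      have h := nm_mk_two_rl hs π r.q hV _ _ hz hZt hZR hZk hZL hn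
      have hdep : r.dep π p = (π.q - π.J) * p := by
        unfold NmRt.dep NmRt.c
        rw [hl]
        rfl
      rw [hdep]
      have e : D.s ^ (π.b1 (r.a + p * r.h) - π.b1 r.a) = (D.s ^ r.h) ^ ((π.q - π.J) * p) := by
        rw [← Real.rpow_mul hs.1.le]
        congr 1
        unfold SfPar.b1
        ring
      rw [e] at h
      refine h.trans ?_
      have : 0 ≤ (D.s ^ r.h) ^ ((π.q - π.J) * p) := (Real.rpow_pos_of_pos (Real.rpow_pos_of_pos hs.1 _) _).le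
      linarith

/-- **the rows of the gate near `i = a + p h` list `(Z, θ_p, r_{dep p})`**.
PLAN.  `Λ` of `nm_side_pr`.   `(e0, t1)` := `nm_side_pr` at `i` with `acc/3`;  `t2` := `nm_mk_row_nm` at `i` with `acc/3`;  `t0 ≤ min t1 t2`, `i + 2 t0 ≤ De`, `De + t0 < 1` if `De ≠ 1`, `140 ≤ s^(-acc/3)` for `s ≤ t0` (`nm_me_t0`);  `nm_me_fine_mono`, `nm_me_x_mono`.
`E ω := p ω ≠ 0 ∧ G ω`.   `nm_sd_pair` (+ `nm_rowpr_mono`): `RowPr (gt i) E (Z, 𝒞(i,v''))  s^(-2acc/3)`.   `nm_mk_row_comp` with `B = (θ_p, r_dep)`, `M = 10 * 14`: product of the two lists of `nm_mk_row_close`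
(`v = ` raw mark, `δ = s^h`, `K = 2`, resp. `3`, resp. `1`), after `nm_mk_smk`.   Closeness: `nm_mk_two_th`, `nm_mk_two_rq`, `nm_mk_two_rl` with `nm_mk_nest`; the equal cells are entries of the equal sides / names;
`s^(i-a) = (s^h)^p`,  `b' = r.c π` (quadratic), `b1 i - b1 a = r.c π * (i - a)` (linear);   `hsl`, `hco` from `Fam` (`nmDsEq`: slope iff `1 < c2`; `nmDsStr`: const, `bs = 1`).
`hz` of `nm_mk_two_rl`: `cut ≠ none` ⇒ not `plin` ⇒ exact (`brl`) ⇒ classical (`hr.hyb`) ⇒ `normC`: both final rays are the ray of `ρ` (`nm_gt_mem`, `gt i ≤ i + t0 < 1`).   Finally `nm_sd_map`.      OWNER L-256-NM-MRK-ROWC, EST 400 -/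
theorem nm_mk_row_Y (π : SfPar) (hπ : π.Valid) (C0 τ κ0 : ℝ) : ∃ Λ : ℝ, ∀ r : NmRt, r.Ok π Λ → 2 ≤ r.B → 0 < r.h →
    ∀ p : ℝ, 0 ≤ p → r.a + p * r.h < r.q.ds.De →
    ∀ acc : ℝ, 0 < acc → ∃ e0 : ℝ, 0 < e0 ∧ ∃ t0 : ℝ, 0 < t0 ∧ ∀ D : SfDoc, D.Fine π C0 τ κ0 t0 → nmX π D t0 → ∀ G : D.Row 1 → Prop,
      (r.σ.exact = true → r.σ.lin = false → (D.P 1).NVal G (D.Pc π r.q.ds r.σ.xs) (pair D.y0 (D.tc r.a)) (D.s ^ (-e0))) →
      D.RowPr (D.gt (r.a + p * r.h)) (fun ω => (D.P 1).p ω ≠ 0 ∧ G ω)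
        (fun ω => (D.side π r.q r.σ r.a ω, (tcell (D.s ^ r.h) p (D.smk π r ω).th, tcell (D.s ^ r.h) (r.dep π p) (D.smk π r ω).r)))
        (D.s ^ (-acc)) := by
  obtain ⟨Λ, hΛ⟩ := nm_side_pr π hπ C0 τ κ0
  refine ⟨Λ, ?_⟩
  intro r hr hB hh p hp hpD acc hacc
  have hph : 0 ≤ p * r.h := mul_nonneg hp hh.le
  have hai : r.a ≤ r.a + p * r.h := by linarith
  have hacc3 : 0 < acc / 3 := by positivity
  obtain ⟨e0, he0, t1, ht1, H1⟩ := hΛ r hr (r.a + p * r.h) hai hpD (acc / 3) hacc3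
  obtain ⟨t2, ht2, H2⟩ := nm_mk_row_nm π hπ C0 τ κ0 Λ r hr (r.a + p * r.h) hai hpD (acc / 3) hacc3
  obtain ⟨t3, ht3, -, -, -, H3⟩ := nm_me_t0 (acc / 3) 140 hacc3
  have hDe1 : r.q.ds.De ≤ 1 := nm_mk_Y_De hr.q
  obtain ⟨t4, ht4, H4⟩ : ∃ t4 : ℝ, 0 < t4 ∧ (r.q.ds.De ≠ 1 → r.q.ds.De + t4 < 1) := by
    by_cases h : r.q.ds.De = 1
    · exact ⟨1, one_pos, fun h' => absurd h h'⟩
    · have h' : r.q.ds.De < 1 := lt_of_le_of_ne hDe1 h
      exact ⟨(1 - r.q.ds.De) / 2, by linarith, fun _ => by linarith⟩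
  obtain ⟨t5, ht5, H5⟩ : ∃ t5 : ℝ, 0 < t5 ∧ r.a + p * r.h + 2 * t5 ≤ r.q.ds.De :=
    ⟨(r.q.ds.De - (r.a + p * r.h)) / 2, by linarith, by linarith⟩
  refine ⟨e0, he0, min (min t1 t2) (min t3 (min t4 t5)), by positivity, ?_⟩
  intro D hD hX G hG
  obtain ⟨t0, ht0⟩ : ∃ t0, t0 = min (min t1 t2) (min t3 (min t4 t5)) := ⟨_, rfl⟩
  rw [← ht0] at hD hX
  have l1 : t0 ≤ t1 := by rw [ht0]; exact (min_le_left _ _).trans (min_le_left _ _)
  have l2 : t0 ≤ t2 := by rw [ht0]; exact (min_le_left _ _).trans (min_le_right _ _)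
  have l3 : t0 ≤ t3 := by rw [ht0]; exact (min_le_right _ _).trans (min_le_left _ _)
  have l4 : t0 ≤ t4 := by rw [ht0]; exact (min_le_right _ _).trans ((min_le_right _ _).trans (min_le_left _ _))
  have l5 : t0 ≤ t5 := by rw [ht0]; exact (min_le_right _ _).trans ((min_le_right _ _).trans (min_le_right _ _))
  have hs := hD.ok.core.hs
  have h1 : r.q.ds.De ≠ 1 → r.q.ds.De + t0 < 1 := fun h => by linarith [H4 h]
  have hpD' : r.a + p * r.h + 2 * t0 ≤ r.q.ds.De := by linarith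
  have haD' : r.a + 2 * t0 ≤ r.q.ds.De := by linarith
  have A1 := H1 D (nm_me_fine_mono hD l1) (nm_me_x_mono hs l1 hX) G hG
  have A2 : D.RowPr (D.gt (r.a + p * r.h)) (fun ω => (D.P 1).p ω ≠ 0 ∧ G ω)
      (D.nm π r.q (r.a + p * r.h) (nmMkV π r.q r.σ.lin (r.a + p * r.h))) (D.s ^ (-(acc / 3))) :=
    nm_rowpr_mono (H2 D (nm_me_fine_mono hD l2)) (fun _ _ => trivial) le_rfl
  have A3 := nm_sd_pair A1 A2
  have hδ0 : 0 < D.s ^ r.h := Real.rpow_pos_of_pos hs.1 _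
  have hδ1 : D.s ^ r.h < 1 := Real.rpow_lt_one hs.1.le hs.2 hh
  have hdep0 : 0 ≤ r.dep π p := by
    have hc := hr.rate
    unfold NmRt.dep
    split_ifs
    · exact mul_nonneg hc.le hp
    · exact mul_nonneg (le_min zero_le_one hc.le) hp
  have hcl : ∀ (ρ : D.Row (D.gt (r.a + p * r.h))) (ω ω' : D.Row 1), D.Conn (D.gt (r.a + p * r.h)) 1 ρ ω → D.Conn (D.gt (r.a + p * r.h)) 1 ρ ω' →
      ((D.P 1).p ω ≠ 0 ∧ G ω) → ((D.P 1).p ω' ≠ 0 ∧ G ω') →
      (D.side π r.q r.σ r.a ω, D.nm π r.q (r.a + p * r.h) (nmMkV π r.q r.σ.lin (r.a + p * r.h)) ω)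
        = (D.side π r.q r.σ r.a ω', D.nm π r.q (r.a + p * r.h) (nmMkV π r.q r.σ.lin (r.a + p * r.h)) ω') →
      |((D.raw π r.q.ds ω).mark D.s π r.q r.a (!r.σ.lin)).th - ((D.raw π r.q.ds ω').mark D.s π r.q r.a (!r.σ.lin)).th|
          ≤ 2 * (D.s ^ r.h) ^ p ∧
      |((D.raw π r.q.ds ω).mark D.s π r.q r.a (!r.σ.lin)).r - ((D.raw π r.q.ds ω').mark D.s π r.q r.a (!r.σ.lin)).r|
          ≤ 3 * (D.s ^ r.h) ^ (r.dep π p) := by
    intro ρ ω ω' _ _ hE hE' hA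
    exact nm_mk_Y_close hD r hr hh hp hpD' h1 hE.1 hE'.1 (congrArg Prod.fst hA) (congrArg Prod.snd hA)
  have A4 := nm_mk_row_comp (M := 10 * 14) (B := fun ω => (tcell (D.s ^ r.h) p (D.smk π r ω).th, tcell (D.s ^ r.h) (r.dep π p) (D.smk π r ω).r))
    (by norm_num) A3 (by
      intro ρ x
      obtain ⟨S1, hS1, g1⟩ := nm_mk_row_close (fun ω => ((D.raw π r.q.ds ω).mark D.s π r.q r.a (!r.σ.lin)).th) hδ0 hδ1 hp r.Rm (K := 2) (by norm_num)
        (fun ρ ω ω' c c' hE hE' hA => (hcl ρ ω ω' c c' hE hE' hA).1) ρ x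
      obtain ⟨S2, hS2, g2⟩ := nm_mk_row_close (fun ω => ((D.raw π r.q.ds ω).mark D.s π r.q r.a (!r.σ.lin)).r) hδ0 hδ1 hdep0 r.Rm (K := 3) (by norm_num)
        (fun ρ ω ω' c c' hE hE' hA => (hcl ρ ω ω' c c' hE hE' hA).2) ρ x
      refine ⟨S1 ×ˢ S2, ?_, ?_⟩
      · rw [Finset.card_product, Nat.cast_mul]
        exact mul_le_mul (hS1.trans (by norm_num)) (hS2.trans (by norm_num)) (Nat.cast_nonneg _) (by norm_num)
      · intro ω hc hE hA
        have hsm := nm_mk_smk hD r hr hB h1 haD' hE.1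
        rw [Finset.mem_product]
        constructor
        · show tcell (D.s ^ r.h) p (D.smk π r ω).th ∈ S1
          rw [hsm]
          exact g1 ω hc hE hA
        · show tcell (D.s ^ r.h) (r.dep π p) (D.smk π r ω).r ∈ S2
          rw [hsm]
          exact g2 ω hc hE hA)
  have A5 := nm_sd_map A4 (fun y => (y.1.1, y.2))
  refine nm_rowpr_mono A5 (fun _ h => h) ?_
  have h140 := H3 D.s hs.1 (hD.sm.trans l3)
  have hp3 : 0 < D.s ^ (-(acc / 3)) := Real.rpow_pos_of_pos hs.1 _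
  calc D.s ^ (-(acc / 3)) * D.s ^ (-(acc / 3)) * (10 * 14)
      = D.s ^ (-(acc / 3)) * D.s ^ (-(acc / 3)) * D.s ^ (-(acc / 3)) * (140 * D.s ^ (acc / 3)) := by
        have e : D.s ^ (-(acc / 3)) * D.s ^ (acc / 3) = 1 := by
          rw [← Real.rpow_add hs.1]
          simp
        calc D.s ^ (-(acc / 3)) * D.s ^ (-(acc / 3)) * (10 * 14)
            = D.s ^ (-(acc / 3)) * D.s ^ (-(acc / 3)) * 140 * 1 := by ring
          _ = D.s ^ (-(acc / 3)) * D.s ^ (-(acc / 3)) * 140 * (D.s ^ (-(acc / 3)) * D.s ^ (acc / 3)) := by rw [e]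
          _ = _ := by ring
    _ ≤ D.s ^ (-(acc / 3)) * D.s ^ (-(acc / 3)) * D.s ^ (-(acc / 3)) * 1 := by gcongr
    _ = D.s ^ (-acc) := by
        rw [mul_one, ← Real.rpow_add hs.1, ← Real.rpow_add hs.1]
        congr 1
        ring

/-- **(value of the side, cell `θ_q`) lists the times of the gate `j` near `a + q h`**.
PLAN.  `j := D.gt (a + q h)`, `|j - (a + q h)| ≤ t` (`nm_gt_near`), `j < 1`.   `t_a := nmVal s a z.2.1.2.2`, `c0 := t_a + s^a * (c * gw δ q)`, `δ = s^h`.   On a charged `ω` with the given side and cell (`nm_mk_smk`): `θ_st = trep δ Rm θ`,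
`θ_st - c gw δ q ∈ [0, gw δ q)` (`rx_trep_eq`, `rx_trep_le`, `rx_lt_trep`), `θ - θ_st ∈ [0, gw δ Rm)`, `gw δ Rm ≤ gw δ q ≤ δ^q` (`rx_gw_anti`, `rx_gw_le`), `Te = t_a + s^a θ`:  `|Te - c0| ≤ 2 s^(a + q h)`.
`T j ρ' ≤ T_1 ≤ T j ρ' + len j` (`base`),  `Te ≤ T_1 ≤ Te + s^(a + q h + 2t) ≤ Te + s^(j+t) ≤ Te + len j` (`nm_mk_nest`, `hlen`):  `|T j ρ' - c0| ≤ 2 s^(a+qh) + len j =: R`.
`nm_mk_times`:  `2R / len j + 1 = 4 s^(a+qh) / len j + 3 ≤ 4 s^(a + q h - j - t) + 3 ≤ 4 s^(-2t) + 3`.      OWNER L-256-NM-MRK-ROWD, EST 300 -/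
theorem nm_mk_tlist {D : SfDoc} {π : SfPar} {C0 τ κ0 t Λ : ℝ} (hD : D.Fine π C0 τ κ0 t) (r : NmRt) (hr : r.Ok π Λ) (hB : 2 ≤ r.B) (hh : 0 < r.h)
    {q : ℝ} (hq0 : 0 ≤ q) (hqR : q ≤ r.Rm) (hqD : r.a + q * r.h + 4 * t ≤ r.q.ds.De) (h1 : r.q.ds.De ≠ 1 → r.q.ds.De + t < 1)
    (z : NmZv D.Idx) (c : ℤ) :
    ∃ S : Finset ℝ, (S.card : ℝ) ≤ 4 * D.s ^ (-(2 * t)) + 3 ∧ ∀ ω, (D.P 1).p ω ≠ 0 → D.side π r.q r.σ r.a ω = z →
      tcell (D.s ^ r.h) q (D.smk π r ω).th = c →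
      ∀ ρ', D.Conn (D.gt (r.a + q * r.h)) 1 ρ' ω → D.T (D.gt (r.a + q * r.h)) ρ' ∈ S := by
  have hC := hD.ok.core
  obtain ⟨hs0, hs1⟩ := hC.hs
  have ht := hD.pos
  obtain ⟨-, hDe0, hDe1⟩ := nm_mk_endok hD hr.q h1
  have hqh : 0 ≤ q * r.h := mul_nonneg hq0 hh.le
  have ha0 := hr.ha.1
  obtain ⟨i, hi⟩ : ∃ i, i = r.a + q * r.h := ⟨_, rfl⟩
  rw [← hi] at hqD ⊢
  have hi0 : 0 ≤ i := by linarith
  have hi1 : i ≤ 1 := by linarith
  have hnear := abs_le.1 (nm_gt_near hD hi0 hi1)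
  have hjG : D.gt i ∈ D.G := nm_gt_mem D ⟨1, hC.gate.1⟩ i
  obtain ⟨j, hj⟩ : ∃ j, j = D.gt i := ⟨_, rfl⟩
  rw [← hj] at hnear hjG ⊢
  have hj1 : j < 1 := by linarith [hnear.2]
  obtain ⟨hl1, hl2⟩ := hC.hlen.2 j hjG
  have hlen0 : 0 < D.len j := lt_of_lt_of_le (Real.rpow_pos_of_pos hs0 _) hl1
  obtain ⟨δ, hδ⟩ : ∃ δ, δ = D.s ^ r.h := ⟨_, rfl⟩
  rw [← hδ]
  have hδ0 : 0 < δ := by
    rw [hδ]
    exact Real.rpow_pos_of_pos hs0 _
  have hδ1 : δ < 1 := by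
    rw [hδ]
    exact Real.rpow_lt_one hs0.le hs1 hh
  have hsi0 : 0 < D.s ^ i := Real.rpow_pos_of_pos hs0 _
  have hsa0 : 0 < D.s ^ r.a := Real.rpow_pos_of_pos hs0 _
  have hsi : D.s ^ r.a * δ ^ q = D.s ^ i := by
    rw [hδ, ← Real.rpow_mul hs0.le, ← Real.rpow_add hs0, hi]
    congr 1
    ring
  obtain ⟨c0, hc0⟩ : ∃ c0, c0 = nmVal D.s r.a z.2.1.2.2 + D.s ^ r.a * ((c : ℝ) * gw δ q) := ⟨_, rfl⟩
  obtain ⟨R, hR⟩ : ∃ R, R = 2 * D.s ^ i + D.len j := ⟨_, rfl⟩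
  have hR0 : 0 ≤ R := by
    rw [hR]
    positivity
  obtain ⟨S, hS1, hS2⟩ := nm_mk_times hC hjG c0 R hR0
  refine ⟨S, ?_, ?_⟩
  · have h3 : D.s ^ i ≤ D.s ^ (-(2 * t)) * D.len j := by
      calc D.s ^ i ≤ D.s ^ (j - t) := Real.rpow_le_rpow_of_exponent_ge hs0 hs1.le (by linarith [hnear.2])
        _ = D.s ^ (-(2 * t)) * D.s ^ (j + t) := by
            rw [← Real.rpow_add hs0]
            congr 1
            ring
        _ ≤ _ := mul_le_mul_of_nonneg_left hl1 (Real.rpow_pos_of_pos hs0 _).le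
    calc (S.card : ℝ) ≤ 2 * R / D.len j + 1 := hS1
      _ = 4 * (D.s ^ i / D.len j) + 3 := by
          rw [hR]
          field_simp
          ring
      _ ≤ 4 * D.s ^ (-(2 * t)) + 3 := by
          have h4 : D.s ^ i / D.len j ≤ D.s ^ (-(2 * t)) := by
            rw [div_le_iff₀ hlen0]
            exact h3
          linarith
  · intro ω hω hz hc ρ' hconn
    apply hS2
    have hsm := nm_mk_smk hD r hr hB h1 (by linarith) hω
    rw [← hδ] at hsm
    obtain ⟨hn1, hn2⟩ := nm_mk_nest hD hr.q h1 (i := i + 2 * t) (by linarith) hω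
    obtain ⟨x, hx⟩ : ∃ x, x = D.raw π r.q.ds ω := ⟨_, rfl⟩
    have hxT : x.T = D.T 1 ω := by rw [hx]; rfl
    rw [← hx] at hsm hn1 hn2
    rw [hxT] at hn1 hn2
    obtain ⟨θ, hθ⟩ : ∃ θ, θ = (x.mark D.s π r.q r.a (!r.σ.lin)).th := ⟨_, rfl⟩
    have hth : (D.smk π r ω).th = trep δ r.Rm θ := by rw [hsm, hθ]
    have hθ' : θ = (x.Te - x.ta D.s r.a) / D.s ^ r.a := hθ
    have hta : x.ta D.s r.a = nmVal D.s r.a z.2.1.2.2 := by
      rw [← hz]
      show nmRep D.s r.a x.T = nmVal D.s r.a (nmCell D.s r.a (D.T 1 ω))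
      rw [hxT]
      rfl
    have hTe : x.Te = nmVal D.s r.a z.2.1.2.2 + D.s ^ r.a * θ := by
      rw [hθ', ← hta]
      field_simp
      ring
    rw [hth] at hc
    -- the stored mark and its cell
    have g3 := rx_trep_le δ r.Rm θ
    have g4 := rx_lt_trep δ r.Rm θ
    obtain ⟨θs, hθs⟩ : ∃ θs, θs = trep δ r.Rm θ := ⟨_, rfl⟩
    rw [← hθs] at hc g3 g4
    have g1 : (c : ℝ) * gw δ q ≤ θs := by
      have h := rx_trep_le δ q θs
      rwa [rx_trep_eq, hc] at h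
    have g2 : θs < (c : ℝ) * gw δ q + gw δ q := by
      have h := rx_lt_trep δ q θs
      rwa [rx_trep_eq, hc] at h
    have g5 : gw δ r.Rm ≤ gw δ q := rx_gw_anti hδ0 hδ1 hqR
    have g6 : gw δ q ≤ δ ^ q := rx_gw_le hδ0 hδ1 q
    have k1 : 0 ≤ θ - (c : ℝ) * gw δ q := by linarith
    have k2 : θ - (c : ℝ) * gw δ q ≤ 2 * δ ^ q := by linarith
    have e1 : x.Te - c0 = D.s ^ r.a * (θ - (c : ℝ) * gw δ q) := by
      rw [hTe, hc0]
      ring
    have k3 : 0 ≤ x.Te - c0 := by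
      rw [e1]
      exact mul_nonneg hsa0.le k1
    have k4 : x.Te - c0 ≤ 2 * D.s ^ i := by
      rw [e1, ← hsi]
      calc D.s ^ r.a * (θ - (c : ℝ) * gw δ q) ≤ D.s ^ r.a * (2 * δ ^ q) := mul_le_mul_of_nonneg_left k2 hsa0.le
        _ = 2 * (D.s ^ r.a * δ ^ q) := by ring
    obtain ⟨b1, b2, -, -⟩ := hC.base j hjG 1 hC.gate.1 hj1 ρ' ω hconn
    rw [hC.hlen.1] at b2
    have k5 : D.s ^ (i + 2 * t) ≤ D.len j :=
      (Real.rpow_le_rpow_of_exponent_ge hs0 hs1.le (by linarith [hnear.2])).trans hl1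
    rw [hR, abs_le]
    constructor <;> linarith

theorem nm_mk_row_eqns_cite : True := by
  have := @nmMkV.eq_1; have := @NmRt.dep.eq_1
  trivial

end

end Claimed.Agent.R256
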