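import Claimed.Agent.R256.Nm.Mrk.Kit

/-!
# Row 256 (S0496), unit NM, block MRK, file 2: THE MARKS OF ONE / TWO RAW DATA      (architect helper219; prefix `nm_mk_`)

PAPER-FREE, no `SfDoc`: statements on `NmRaw` (`Nm/Defs.lean`), cells `nmCell`, `nmRep` (`Nm/Geo/Cell.lean`: `nm_rep_le`, `nm_rep_lt`, `nm_wd_le`, `nm_rep_abs`, `nm_close_of_cell`, `nm_rep_zero`, `nm_pow_anti`).
The only input from the configuration is the TIME NESTING `Te ≤ T ≤ Te + s^i` (the end point interval contains the final time and is shorter than `s^i`).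
* `nm_mk_mbd` : the marks (xi) are bounded: `|θ| ≤ 1`, `|r| ≤ 2`, `|𝔨| ≤ 1`;   `nm_mk_mst` : so they are stored as their `trep`'s as soon as `2 ≤ B`.
* `nm_mk_two_th`, `nm_mk_two_rq`, `nm_mk_two_rl` : two raw data with the same frame `(t_a, R_a, k_a [, L])` at the root `a` and the same frame at a LATER time root `i ≥ a` have close marks:
  `|Δθ| ≤ 2 s^(i-a)`,   quadratic `|Δr| ≤ 3 s^(min(1,b') (i-a))`,   linear `|Δr| ≤ s^(b_1(i) - b_1(a))`      (04 l.676-684).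
IDENTITIES (write `t_a, R_a, k_a` for the frame at `a`, `t_i, R_i^raw` for the one at `i`):
  slope:  `β - R_a - (Te - t_a) k_a = R_i^raw - R_a - (t_i - t_a) k_a + (Te - t_i)(K - k_a)`,   `R_i^raw = β + (t_i - Te) K`,   `|Te - t_i| ≤ s^i`, `|K - k_a| ≤ s^(b(a) - a)`;
  const:  `k_a = 0`, `R_i^raw = β`;
  linear: `L_a^raw = L_i^raw + 2 (R_i - R_a) X + 2 k_a B_{t_a} - 2 k_i B_{t_i}`  (no cut: all `R`, `k` vanish).
-/

set_option autoImplicit false

namespace Claimed.Agent.R256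

open Claimed.Agent.R255
open Classical

noncomputable section

theorem nm_mk_aux_Rs (x : NmRaw) (s : ℝ) (q : NmQ) (a : ℝ) (h : q.ds.cut = NmCut.slope) : x.Rraw s q a = x.be + (x.ta s a - x.Te) * x.K := by
  simp only [NmRaw.Rraw, h]

theorem nm_mk_aux_Rc (x : NmRaw) (s : ℝ) (q : NmQ) (a : ℝ) (h : q.ds.cut = NmCut.const) : x.Rraw s q a = x.be := by
  simp only [NmRaw.Rraw, h]

theorem nm_mk_aux_Rn (x : NmRaw) (s : ℝ) (q : NmQ) (a : ℝ) (h : q.ds.cut = NmCut.none) : x.Rraw s q a = 0 := by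
  simp only [NmRaw.Rraw, h]

theorem nm_mk_aux_ks (x : NmRaw) (q : NmQ) (h : q.ds.cut = NmCut.slope) : x.kraw q = x.K := by
  simp only [NmRaw.kraw, h]

theorem nm_mk_aux_kc (x : NmRaw) (q : NmQ) (h : q.ds.cut ≠ NmCut.slope) : x.kraw q = 0 := by
  unfold NmRaw.kraw
  cases hc : q.ds.cut
  · exact absurd hc h
  · rfl
  · rfl

/-- the distance of the end point time to the time root -/
theorem nm_mk_aux_time {s : ℝ} (hs : 0 < s ∧ s < 1) (a : ℝ) (x : NmRaw) (hx : x.Te ≤ x.T ∧ x.T ≤ x.Te + s ^ a) : |x.Te - x.ta s a| ≤ s ^ a := by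
  have h1 := nm_rep_le s a x.T
  have h2 := nm_rep_lt s a x.T
  have h3 := nm_wd_le hs.1 hs.2 a
  unfold NmRaw.ta
  rw [abs_le]
  constructor <;> linarith [hx.1, hx.2]

theorem nm_mk_aux_div {u c : ℝ} (hc : 0 < c) {K : ℝ} (h : |u| ≤ K * c) : |u / c| ≤ K := by
  rw [abs_div, abs_of_pos hc, div_le_iff₀ hc]
  exact h

/-- **the marks are bounded**.   `θ s^a = Te - t_a ∈ [-s^a, s^a)`;   const: `r s^b = β - nmRep β ∈ [0, s^b]`;   slope: `r s^b = (R^raw - R_a) + (Te - t_a)(K - k_a)`;   linear: `r s^(b_1) = L^raw - nmRep L^raw`.      OWNER L-256-NM-MRK-TWOA, EST 150 -/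
theorem nm_mk_mbd {s : ℝ} (hs : 0 < s ∧ s < 1) (π : SfPar) (q : NmQ) (a : ℝ) (quad : Bool) (hcut : quad = true → q.ds.cut ≠ NmCut.none)
    (x : NmRaw) (hx : x.Te ≤ x.T ∧ x.T ≤ x.Te + s ^ a) :
    |(x.mark s π q a quad).th| ≤ 1 ∧ |(x.mark s π q a quad).r| ≤ 2 ∧ |(x.mark s π q a quad).k| ≤ 1 := by
  have ht := nm_mk_aux_time hs a x hx
  have pa : 0 < s ^ a := Real.rpow_pos_of_pos hs.1 _
  have pb : 0 < s ^ (q.ds.b a) := Real.rpow_pos_of_pos hs.1 _
  have hk : |x.kraw q - x.ka s q a| ≤ s ^ (q.ds.b a - a) := nm_rep_abs hs.1 hs.2 _ _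
  refine ⟨?_, ?_, ?_⟩
  · show |(x.Te - x.ta s a) / s ^ a| ≤ 1
    exact nm_mk_aux_div pa (by linarith)
  · cases quad
    · show |(x.Lraw s q a - nmRep s (π.b1 a) (x.Lraw s q a)) / s ^ (π.b1 a)| ≤ 2
      have := nm_rep_abs hs.1 hs.2 (π.b1 a) (x.Lraw s q a)
      have p1 : 0 < s ^ (π.b1 a) := Real.rpow_pos_of_pos hs.1 _
      exact nm_mk_aux_div p1 (by linarith)
    · show |(x.be - (x.Ra s q a + (x.Te - x.ta s a) * x.ka s q a)) / s ^ (q.ds.b a)| ≤ 2
      have hR : |x.Rraw s q a - x.Ra s q a| ≤ s ^ (q.ds.b a) := nm_rep_abs hs.1 hs.2 _ _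
      refine nm_mk_aux_div pb ?_
      cases hc : q.ds.cut
      · rw [nm_mk_aux_Rs x s q a hc] at hR
        rw [nm_mk_aux_ks x q hc] at hk
        have e : x.be - (x.Ra s q a + (x.Te - x.ta s a) * x.ka s q a)
            = (x.be + (x.ta s a - x.Te) * x.K - x.Ra s q a) + (x.Te - x.ta s a) * (x.K - x.ka s q a) := by ring
        have hm : |(x.Te - x.ta s a) * (x.K - x.ka s q a)| ≤ s ^ (q.ds.b a) := by
          rw [abs_mul]
          calc |x.Te - x.ta s a| * |x.K - x.ka s q a| ≤ s ^ a * s ^ (q.ds.b a - a) := mul_le_mul ht hk (abs_nonneg _) pa.le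
            _ = s ^ (q.ds.b a) := by
                rw [← Real.rpow_add hs.1]
                congr 1
                ring
        rw [e]
        exact (abs_add_le _ _).trans (by linarith)
      · rw [nm_mk_aux_Rc x s q a hc] at hR
        have hka : x.ka s q a = 0 := by
          unfold NmRaw.ka
          rw [nm_mk_aux_kc x q (by rw [hc]; exact fun h => NmCut.noConfusion h), nm_rep_zero]
        rw [hka, mul_zero, add_zero]
        linarith
      · exact absurd hc (hcut rfl)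
  · show |(x.kraw q - x.ka s q a) * s ^ (a - q.ds.b a)| ≤ 1
    have p2 : 0 < s ^ (a - q.ds.b a) := Real.rpow_pos_of_pos hs.1 _
    rw [abs_mul, abs_of_pos p2]
    calc |x.kraw q - x.ka s q a| * s ^ (a - q.ds.b a) ≤ s ^ (q.ds.b a - a) * s ^ (a - q.ds.b a) := by gcongr
      _ = 1 := by
          rw [← Real.rpow_add hs.1]
          have : q.ds.b a - a + (a - q.ds.b a) = 0 := by ring
          rw [this, Real.rpow_zero]

/-- bounded marks are stored as their representatives.      OWNER L-256-NM-MRK-TWOA, EST 20 -/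
theorem nm_mk_mst (δ Rm B : ℝ) (μ : ItMk) (h : |μ.th| ≤ B ∧ |μ.r| ≤ B ∧ |μ.k| ≤ B) :
    nmStore δ Rm B μ = ⟨trep δ Rm μ.th, trep δ Rm μ.r, trep δ Rm μ.k⟩ := by
  unfold nmStore
  rw [if_pos h]

/-- equal cells have equal representatives -/
theorem nm_mk_aux_rep {s b u w : ℝ} (h : nmCell s b u = nmCell s b w) : nmRep s b u = nmRep s b w := by
  unfold nmRep
  rw [h]

/-- the time mark.   `Δθ s^a = ΔTe`, `|ΔTe| ≤ |ΔT| + s^i ≤ 2 s^i`.      OWNER L-256-NM-MRK-TWOA, EST 60 -/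
theorem nm_mk_two_th {s : ℝ} (hs : 0 < s ∧ s < 1) (π : SfPar) (q : NmQ) (quad : Bool) (a i : ℝ) (x y : NmRaw)
    (hx : x.Te ≤ x.T ∧ x.T ≤ x.Te + s ^ i) (hy : y.Te ≤ y.T ∧ y.T ≤ y.Te + s ^ i)
    (ha : nmCell s a x.T = nmCell s a y.T) (hi : nmCell s i x.T = nmCell s i y.T) :
    |(x.mark s π q a quad).th - (y.mark s π q a quad).th| ≤ 2 * s ^ (i - a) := by
  have pa : 0 < s ^ a := Real.rpow_pos_of_pos hs.1 _
  have hta : x.ta s a = y.ta s a := nm_mk_aux_rep ha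
  have hT := abs_le.1 (nm_close_of_cell hs.1 hs.2 hi)
  show |(x.Te - x.ta s a) / s ^ a - (y.Te - y.ta s a) / s ^ a| ≤ 2 * s ^ (i - a)
  rw [hta, ← sub_div]
  refine nm_mk_aux_div pa ?_
  have e : 2 * s ^ (i - a) * s ^ a = 2 * s ^ i := by
    rw [mul_assoc, ← Real.rpow_add hs.1]
    congr 2
    ring
  rw [e, abs_le]
  constructor <;> linarith [hx.1, hx.2, hy.1, hy.2, hT.1, hT.2]

/-- the second mark, quadratic branch.      OWNER L-256-NM-MRK-TWOB, EST 200 -/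
theorem nm_mk_two_rq {s : ℝ} (hs : 0 < s ∧ s < 1) (π : SfPar) (q : NmQ) {a i : ℝ} (hai : a ≤ i) (hcut : q.ds.cut ≠ NmCut.none)
    (hsl : q.ds.cut = NmCut.slope → 1 ≤ q.ds.bs) (hco : q.ds.cut = NmCut.const → q.ds.bs ≤ 1) (x y : NmRaw)
    (hx : x.Te ≤ x.T ∧ x.T ≤ x.Te + s ^ i) (hy : y.Te ≤ y.T ∧ y.T ≤ y.Te + s ^ i)
    (ha : nmCell s a x.T = nmCell s a y.T) (hR : x.Rc s q a = y.Rc s q a) (hk : x.kc s q a = y.kc s q a)
    (hi : nmCell s i x.T = nmCell s i y.T) (hRi : x.Rc s q i = y.Rc s q i) :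
    |(x.mark s π q a true).r - (y.mark s π q a true).r| ≤ 3 * s ^ (min 1 q.ds.bs * (i - a)) := by
  have pb : 0 < s ^ (q.ds.b a) := Real.rpow_pos_of_pos hs.1 _
  have hta : x.ta s a = y.ta s a := nm_mk_aux_rep ha
  have hti : x.ta s i = y.ta s i := nm_mk_aux_rep hi
  have hRa : x.Ra s q a = y.Ra s q a := nm_mk_aux_rep hR
  have hka : x.ka s q a = y.ka s q a := nm_mk_aux_rep hk
  have hRr : |x.Rraw s q i - y.Rraw s q i| ≤ s ^ (q.ds.b i) := nm_close_of_cell hs.1 hs.2 hRi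
  have hbb : q.ds.b i = q.ds.bs * (i - a) + q.ds.b a := by
    unfold NmDs.b
    ring
  show |(x.be - (x.Ra s q a + (x.Te - x.ta s a) * x.ka s q a)) / s ^ (q.ds.b a)
      - (y.be - (y.Ra s q a + (y.Te - y.ta s a) * y.ka s q a)) / s ^ (q.ds.b a)| ≤ 3 * s ^ (min 1 q.ds.bs * (i - a))
  rw [← sub_div]
  refine nm_mk_aux_div pb ?_
  cases hc : q.ds.cut
  · -- slope
    have hbs := hsl hc
    rw [min_eq_left hbs, one_mul]
    rw [nm_mk_aux_Rs x s q i hc, nm_mk_aux_Rs y s q i hc] at hRr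
    have kx : |x.K - x.ka s q a| ≤ s ^ (q.ds.b a - a) := by
      have h : |x.kraw q - x.ka s q a| ≤ s ^ (q.ds.b a - a) := nm_rep_abs hs.1 hs.2 (q.ds.b a - a) (x.kraw q)
      rwa [nm_mk_aux_ks x q hc] at h
    have ky : |y.K - y.ka s q a| ≤ s ^ (q.ds.b a - a) := by
      have h : |y.kraw q - y.ka s q a| ≤ s ^ (q.ds.b a - a) := nm_rep_abs hs.1 hs.2 (q.ds.b a - a) (y.kraw q)
      rwa [nm_mk_aux_ks y q hc] at h
    have tx := nm_mk_aux_time hs i x hx
    have ty := nm_mk_aux_time hs i y hy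
    have pi : 0 < s ^ i := Real.rpow_pos_of_pos hs.1 _
    have e : x.be - (x.Ra s q a + (x.Te - x.ta s a) * x.ka s q a) - (y.be - (y.Ra s q a + (y.Te - y.ta s a) * y.ka s q a))
        = (x.be + (x.ta s i - x.Te) * x.K - (y.be + (y.ta s i - y.Te) * y.K)) + (x.Te - x.ta s i) * (x.K - x.ka s q a)
          + -((y.Te - y.ta s i) * (y.K - y.ka s q a)) := by
      rw [hta, hti, hRa, hka]
      ring
    have m1 : |(x.Te - x.ta s i) * (x.K - x.ka s q a)| ≤ s ^ i * s ^ (q.ds.b a - a) := by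
      rw [abs_mul]
      exact mul_le_mul tx kx (abs_nonneg _) pi.le
    have m2 : |-((y.Te - y.ta s i) * (y.K - y.ka s q a))| ≤ s ^ i * s ^ (q.ds.b a - a) := by
      rw [abs_neg, abs_mul]
      exact mul_le_mul ty ky (abs_nonneg _) pi.le
    have e1 : s ^ i * s ^ (q.ds.b a - a) = s ^ (i - a) * s ^ (q.ds.b a) := by
      rw [← Real.rpow_add hs.1, ← Real.rpow_add hs.1]
      congr 1
      ring
    have e2 : s ^ (q.ds.b i) ≤ s ^ (i - a) * s ^ (q.ds.b a) := by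
      rw [← Real.rpow_add hs.1, hbb]
      refine Real.rpow_le_rpow_of_exponent_ge hs.1 hs.2.le ?_
      nlinarith
    rw [e]
    refine (abs_add_le _ _).trans ?_
    have := abs_add_le (x.be + (x.ta s i - x.Te) * x.K - (y.be + (y.ta s i - y.Te) * y.K)) ((x.Te - x.ta s i) * (x.K - x.ka s q a))
    linarith
  · -- const
    have hbs := hco hc
    rw [min_eq_right hbs]
    rw [nm_mk_aux_Rc x s q i hc, nm_mk_aux_Rc y s q i hc] at hRr
    have hne : q.ds.cut ≠ NmCut.slope := by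
      rw [hc]
      exact fun h => NmCut.noConfusion h
    have kx : x.ka s q a = 0 := by
      unfold NmRaw.ka
      rw [nm_mk_aux_kc x q hne, nm_rep_zero]
    have ky : y.ka s q a = 0 := by
      unfold NmRaw.ka
      rw [nm_mk_aux_kc y q hne, nm_rep_zero]
    have e : x.be - (x.Ra s q a + (x.Te - x.ta s a) * x.ka s q a) - (y.be - (y.Ra s q a + (y.Te - y.ta s a) * y.ka s q a)) = x.be - y.be := by
      rw [kx, ky, hRa]
      ring
    have e2 : s ^ (q.ds.b i) = s ^ (q.ds.bs * (i - a)) * s ^ (q.ds.b a) := by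
      rw [← Real.rpow_add hs.1, hbb]
    have p3 : 0 < s ^ (q.ds.bs * (i - a)) * s ^ (q.ds.b a) := mul_pos (Real.rpow_pos_of_pos hs.1 _) pb
    rw [e]
    linarith
  · exact absurd hc hcut

/-- the second mark, linear branch.   With a curvature cut (clipped branch, exact classical side) the two rays have the same `X`, `B`.      OWNER L-256-NM-MRK-TWOB, EST 150 -/
theorem nm_mk_two_rl {s : ℝ} (hs : 0 < s ∧ s < 1) (π : SfPar) (q : NmQ) {a i v : ℝ} (hl : q.l π i v = π.b1 i) (x y : NmRaw)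
    (hz : q.ds.cut ≠ NmCut.none → x.z.X = y.z.X ∧ x.z.B = y.z.B)
    (ha : nmCell s a x.T = nmCell s a y.T) (hR : x.Rc s q a = y.Rc s q a) (hk : x.kc s q a = y.kc s q a)
    (hL : nmCell s (π.b1 a) (x.Lraw s q a) = nmCell s (π.b1 a) (y.Lraw s q a))
    (hn : x.name s π q i v = y.name s π q i v) :
    |(x.mark s π q a false).r - (y.mark s π q a false).r| ≤ s ^ (π.b1 i - π.b1 a) := by
  have p1 : 0 < s ^ (π.b1 a) := Real.rpow_pos_of_pos hs.1 _
  have hta : x.ta s a = y.ta s a := nm_mk_aux_rep ha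
  have hRa : x.Ra s q a = y.Ra s q a := nm_mk_aux_rep hR
  have hka : x.ka s q a = y.ka s q a := nm_mk_aux_rep hk
  have hti : x.ta s i = y.ta s i := nm_mk_aux_rep (congrArg NmNm.t hn)
  have hRi : x.Ra s q i = y.Ra s q i := nm_mk_aux_rep (congrArg NmNm.R hn)
  have hki : x.ka s q i = y.ka s q i := nm_mk_aux_rep (congrArg NmNm.k hn)
  have hLi : |x.Lraw s q i - y.Lraw s q i| ≤ s ^ (π.b1 i) := by
    have h : nmCell s (q.l π i v) (x.Lraw s q i) = nmCell s (q.l π i v) (y.Lraw s q i) := congrArg NmNm.L hn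
    rw [hl] at h
    exact nm_close_of_cell hs.1 hs.2 h
  have hrep : nmRep s (π.b1 a) (x.Lraw s q a) = nmRep s (π.b1 a) (y.Lraw s q a) := nm_mk_aux_rep hL
  have key : x.Lraw s q a - y.Lraw s q a = x.Lraw s q i - y.Lraw s q i := by
    by_cases hc : q.ds.cut = NmCut.none
    · have hne : q.ds.cut ≠ NmCut.slope := by
        rw [hc]
        exact fun h => NmCut.noConfusion h
      have r0 : ∀ (w : NmRaw) (b : ℝ), w.Ra s q b = 0 := fun w b => by
        unfold NmRaw.Ra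
        rw [nm_mk_aux_Rn w s q b hc, nm_rep_zero]
      have k0 : ∀ (w : NmRaw) (b : ℝ), w.ka s q b = 0 := fun w b => by
        unfold NmRaw.ka
        rw [nm_mk_aux_kc w q hne, nm_rep_zero]
      unfold NmRaw.Lraw
      rw [r0, r0, r0, r0, k0, k0, k0, k0]
      ring
    · obtain ⟨hX, hB⟩ := hz hc
      unfold NmRaw.Lraw SfRay.Bt
      rw [hta, hti, hRa, hka, hRi, hki, hX, hB]
      ring
  show |(x.Lraw s q a - nmRep s (π.b1 a) (x.Lraw s q a)) / s ^ (π.b1 a) - (y.Lraw s q a - nmRep s (π.b1 a) (y.Lraw s q a)) / s ^ (π.b1 a)|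
    ≤ s ^ (π.b1 i - π.b1 a)
  rw [← sub_div]
  refine nm_mk_aux_div p1 ?_
  have e : x.Lraw s q a - nmRep s (π.b1 a) (x.Lraw s q a) - (y.Lraw s q a - nmRep s (π.b1 a) (y.Lraw s q a)) = x.Lraw s q i - y.Lraw s q i := by
    rw [hrep, ← key]
    ring
  have e2 : s ^ (π.b1 i - π.b1 a) * s ^ (π.b1 a) = s ^ (π.b1 i) := by
    rw [← Real.rpow_add hs.1]
    congr 1
    ring
  rw [e, e2]
  exact hLi

end

end Claimed.Agent.R256
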